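import Vale.Agent.P119.KT.Gen

/-!
# P119, block KT (`helper256`): almost all forests are generic

* `ae_genG` (one germ), `ae_pairG` (two germs whose root lines do not meet before `T`);
* **`gen_hit`**: the forest with an attached tree is generic for almost all parameters.
-/

open MeasureTheory Filter Topology Set
open scoped ENNReal NNReal

noncomputable section

namespace Vale.Agent.P119.KT

open KU M CTree ML
open Vale.Agent.P119.M (Shape)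

variable {Φ : E3 → ℝ} {ε : ℝ} {L : ℕ}

/-- One germ. -/
theorem ae_genG (hΦ : IsPotential Φ) {τ : Shape} (hτ : τ.depth ≤ L) (ℓ : LG) :
    ∀ᵐ p ∂pvol τ, good Φ τ ℓ.1.2 p → Tord τ p → GenG Φ L ⟨τ, ℓ, p⟩ := by
  filter_upwards [ae_self hΦ τ ℓ.1, ae_WNe hΦ τ ℓ.1.2] with p h1 h2 hg ht
  exact ⟨hg, ht, h1 ht.ordr, h2, hτ⟩

/-- Two germs whose root lines do not meet before `T`. -/
theorem ae_apT (hΦ : IsPotential Φ) (τ₁ τ₂ : Shape) {ℓ₁ ℓ₂ : LG} {T : ℝ} (h : nm T ℓ₁.1 ℓ₂.1) :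
    ∀ᵐ p ∂(pvol τ₁).prod (pvol τ₂), Bef T τ₁ p.1 → Bef T τ₂ p.2 →
      ApT Φ T ⟨τ₁, ℓ₁, p.1⟩ ⟨τ₂, ℓ₂, p.2⟩ := by
  filter_upwards [ae_apart hΦ τ₁ τ₂ h] with p h1 hb1 hb2
  exact ApT.of_apartG (h1 hb1 hb2)

/-- Two germs whose root lines do not meet before `T`. -/
theorem ae_pairG (hΦ : IsPotential Φ) (τ₁ τ₂ : Shape) {ℓ₁ ℓ₂ : LG} {T : ℝ} (h : nm T ℓ₁.1 ℓ₂.1) :
    ∀ᵐ p ∂(pvol τ₁).prod (pvol τ₂), Bef T τ₁ p.1 → Bef T τ₂ p.2 →
      ∀ t < T, PairG Φ t ⟨τ₁, ℓ₁, p.1⟩ ⟨τ₂, ℓ₂, p.2⟩ := by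
  filter_upwards [ae_apT hΦ τ₁ τ₂ h] with p h1 hb1 hb2 t ht
  exact PairG.of_lt (h1 hb1 hb2) ht

/-! ### The attached tree -/

theorem hG_tilt (ℓ : LG) (q : ND) : (hG ℓ q).1 = tilt ℓ.1 q.1 (ℓ.1.2 - q.2.1) := by
  unfold hG tilt
  simp only
  ext1
  · rw [hl_fst, zero_smul, add_zero]
  · rw [hl_snd, sub_sub_cancel]

theorem measurable_hG1 (ℓ : LG) : Measurable fun q : ND => (hG ℓ q).1 := (measurable_hG ℓ).fst

/-- The root line of the attached tree meets a given line only at the time of the hit. -/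
theorem ae_root (β : Ph) (ℓ : LG) : ∀ᵐ q ∂nvol, ∀ σ, σ ≠ q.1 → ¬meetAt β (hG ℓ q).1 σ := by
  have he : Measurable fun q : ND => (KU.free q.1 ℓ.1).1 - (KU.free q.1 β).1 := by
    unfold KU.free; fun_prop
  have hmem : MeasurableSet {q : ND | ℓ.1.2 - q.2.1 ∈
      aff (ℓ.1.2 - β.2) ((KU.free q.1 ℓ.1).1 - (KU.free q.1 β).1)} :=
    ((by fun_prop : Measurable fun q : ND => ℓ.1.2 - q.2.1).prodMk
      (measurable_const.prodMk he)) measurableSet_aff'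
  have h1 : ∀ s : ℝ, ∀ᵐ x : E3 × E2, ℓ.1.2 - x.1 ∉
      aff (ℓ.1.2 - β.2) ((KU.free s ℓ.1).1 - (KU.free s β).1) := fun s =>
    (Measure.quasiMeasurePreserving_fst (μ := (volume : Measure E3))
      (ν := (volume : Measure E2))).ae (ae_notMem_aff ℓ.1.2 _ _)
  have key : ∀ᵐ q : ND, ℓ.1.2 - q.2.1 ∉
      aff (ℓ.1.2 - β.2) ((KU.free q.1 ℓ.1).1 - (KU.free q.1 β).1) :=
    (Measure.ae_prod_iff_ae_ae (μ := (volume : Measure ℝ))
      (ν := (volume : Measure (E3 × E2))) hmem.compl).2 (Eventually.of_forall h1)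
  unfold nvol
  refine ae_restrict_of_ae ?_
  filter_upwards [key] with q hq σ hσ hm
  rw [hG_tilt] at hm
  exact hq (mem_aff_of_meetAt hσ hm)

/-- Two different lines do not meet at a generic time. -/
theorem ae_time_meet {β ℓ : Ph} (h : β ≠ ℓ) : ∀ᵐ q ∂nvol, ¬meetAt β ℓ q.1 := by
  by_cases hv : β.2 - ℓ.2 = 0
  · refine Eventually.of_forall fun q hm => h ?_
    rw [meetAt_iff, hv, smul_zero, add_zero] at hm
    exact Prod.ext (sub_eq_zero.1 hm) (sub_eq_zero.1 hv)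
  · have h1 := measure_eq_zero_iff_ae_notMem.1 (nvol_time_null (mt β ℓ))
    filter_upwards [h1] with q hq hm
    exact hq (eq_mt hv hm)

theorem ae_nm_hit (β : Ph) (ℓ : LG) : ∀ᵐ q ∂nvol, nm q.1 β (hG ℓ q).1 := by
  filter_upwards [ae_root β ℓ] with q hq σ hσ
  exact hq σ hσ.ne

theorem ae_nev_hit {β : Ph} {ℓ : LG} (h : β ≠ ℓ.1) : ∀ᵐ q ∂nvol, nev β (hG ℓ q).1 := by
  filter_upwards [ae_root β ℓ, ae_time_meet h] with q h1 h2 σ hm
  by_cases hσ : σ = q.1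
  · rw [hσ, hG_tilt, meetAt_tilt_self] at hm
    exact h2 hm
  · exact h1 σ hσ hm

/-- A given line avoids the attached tree before the time of the hit. -/
theorem ae_av_hit (hΦ : IsPotential Φ) (β : Ph) (ℓ : LG) (τ : Shape) :
    ∀ᵐ y ∂nvol.prod (pvol τ), Bef y.1.1 τ y.2 → Av Φ β y.1.1 τ (hG ℓ y.1).1 y.2 := by
  have m1 : MeasurableSet {y : ND × PD τ | Bef y.1.1 τ y.2} :=
    (by fun_prop : Measurable fun y : ND × PD τ => (y.1.1, y.2)) (measurableSet_bef τ)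
  have h1 : Measurable fun y : ND × PD τ => (β, y.1.1, (hG ℓ y.1).1, y.2) :=
    measurable_const.prodMk ((by fun_prop : Measurable fun y : ND × PD τ => y.1.1).prodMk
      (((measurable_hG1 ℓ).comp measurable_fst).prodMk measurable_snd))
  have m2 : MeasurableSet {y : ND × PD τ | Av Φ β y.1.1 τ (hG ℓ y.1).1 y.2} :=
    h1 (measurableSet_av hΦ τ)
  refine (Measure.ae_prod_iff_ae_ae (measurableSet_imp m1 m2)).2 ?_
  filter_upwards [ae_nm_hit β ℓ] with q hq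
  exact ae_av hΦ τ hq

/-- A line which is different from the line of the leg avoids the attached tree. -/
theorem ae_av_hit' (hΦ : IsPotential Φ) {β : Ph} {ℓ : LG} (h : β ≠ ℓ.1) (τ : Shape) :
    ∀ᵐ y ∂nvol.prod (pvol τ), ∀ n : ℕ, Bef (n : ℝ) τ y.2 → Av Φ β n τ (hG ℓ y.1).1 y.2 := by
  rw [ae_all_iff]
  intro n
  have m1 : MeasurableSet {y : ND × PD τ | Bef (n : ℝ) τ y.2} :=
    (by fun_prop : Measurable fun y : ND × PD τ => ((n : ℝ), y.2)) (measurableSet_bef τ)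
  have h1 : Measurable fun y : ND × PD τ => (β, (n : ℝ), (hG ℓ y.1).1, y.2) :=
    measurable_const.prodMk (measurable_const.prodMk
      (((measurable_hG1 ℓ).comp measurable_fst).prodMk measurable_snd))
  have m2 : MeasurableSet {y : ND × PD τ | Av Φ β n τ (hG ℓ y.1).1 y.2} :=
    h1 (measurableSet_av hΦ τ)
  refine (Measure.ae_prod_iff_ae_ae (measurableSet_imp m1 m2)).2 ?_
  filter_upwards [ae_nev_hit h] with q hq
  exact ae_av hΦ τ hq.nm

theorem ae_self_hit (hΦ : IsPotential Φ) (ℓ : LG) (τ : Shape) :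
    ∀ᵐ y ∂nvol.prod (pvol τ), Ordr τ y.2 → Self Φ τ (hG ℓ y.1).1 y.2 := by
  have m1 : MeasurableSet {y : ND × PD τ | Ordr τ y.2} := measurable_snd (measurableSet_ordr τ)
  have m2 : MeasurableSet {y : ND × PD τ | Self Φ τ (hG ℓ y.1).1 y.2} :=
    (((measurable_hG1 ℓ).comp measurable_fst).prodMk measurable_snd :
      Measurable fun y : ND × PD τ => ((hG ℓ y.1).1, y.2)) (measurableSet_self hΦ τ)
  exact (Measure.ae_prod_iff_ae_ae (measurableSet_imp m1 m2)).2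
    (Eventually.of_forall fun q => ae_self hΦ τ (hG ℓ q).1)

theorem ae_WNe_hit (hΦ : IsPotential Φ) (τ : Shape) :
    ∀ᵐ y ∂nvol.prod (pvol τ), WNe Φ τ y.1.2.1 y.2 := by
  have m2 : MeasurableSet {y : ND × PD τ | WNe Φ τ y.1.2.1 y.2} :=
    (by fun_prop : Measurable fun y : ND × PD τ => (y.1.2.1, y.2)) (measurableSet_WNe hΦ τ)
  exact (Measure.ae_prod_iff_ae_ae m2).2 (Eventually.of_forall fun q => ae_WNe hΦ τ q.2.1)

theorem nev_of_nat {α β : Ph} (h : ∀ n : ℕ, ∃ m : ℕ, n ≤ m ∧ nm m α β) : nev α β := by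
  intro σ hm
  obtain ⟨n, hn⟩ := exists_nat_gt σ
  obtain ⟨m, hnm, h1⟩ := h n
  exact h1 σ (hn.trans_le (by exact_mod_cast hnm)) hm

/-- The attached tree touches the leg exactly at the time of the hit. -/
theorem touch_hit {ℓ : LG} {q : ND} (hv : ℓ.1.2 - q.2.1 ≠ 0) (hb : ‖q.2.2‖ < 1) {ε : ℝ}
    (hε : 0 < ε) {s : ℝ} (hs : s < q.1) :
    ¬Ctc ε (KU.free s (lat ε (hG ℓ q))) (KU.free s (lat ε ℓ)) := by
  rw [← hl_lat]
  have h1 : hitT ε (lat ε ℓ, hl ε (lat ε ℓ) q) = q.1 := hitT_hl hε.ne' (lat ε ℓ) hv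
  have h2 : Meets ε (lat ε ℓ, hl ε (lat ε ℓ) q) := meets_hl hε.ne' (lat ε ℓ) hv hb
  have h3 := lt_dist_of_lt_hitT hε h2 (t := s) (by rw [h1]; exact hs)
  exact fun h4 => not_ctc_of_lt h3 h4.symm

/-- **The forest with an attached tree is generic.** -/
theorem gen_hit (hΦ : IsPotential Φ) {F : List TG} {t : ℝ} (hF : Gen Φ L F t)
    {x : LG × ℝ × ℝ} (hx : x ∈ flegs Φ F t) {τ : Shape} (hτ : τ.depth ≤ L) :
    ∀ᵐ y ∂nvol.prod (pvol τ), max x.2.1 0 < y.1.1 → y.1.1 < min x.2.2 t →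
      good Φ τ y.1.2.1 y.2 → tok Φ 0 τ y.1.2.1 y.2 → ex 0 τ y.1.2.1 y.2 ≤ y.1.1 →
      Gen Φ L (TG.hit x.1 τ y.1 y.2 :: F) y.1.1 := by
  have f1 : ∀ᵐ y ∂nvol.prod (pvol τ), ∀ z ∈ flegs Φ F t,
      Bef y.1.1 τ y.2 → Av Φ z.1.1 y.1.1 τ (hG x.1 y.1).1 y.2 :=
    (Filter.eventually_all_finite (List.finite_toSet (flegs Φ F t))).2 fun z _ =>
      ae_av_hit hΦ z.1.1 x.1 τ
  have f2 : ∀ᵐ y ∂nvol.prod (pvol τ), ∀ G ∈ F, ∀ e ∈ exw Φ G.τ G.ℓ G.p, e.1.1 ≠ x.1.1 →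
      ∀ n : ℕ, Bef (n : ℝ) τ y.2 → Av Φ e.1.1 n τ (hG x.1 y.1).1 y.2 := by
    refine (Filter.eventually_all_finite (List.finite_toSet F)).2 fun G _ => ?_
    refine (Filter.eventually_all_finite (List.finite_toSet (exw Φ G.τ G.ℓ G.p))).2 fun e _ => ?_
    by_cases hne : e.1.1 = x.1.1
    · exact Eventually.of_forall fun y h => absurd hne h
    · filter_upwards [ae_av_hit' hΦ hne τ] with y hy _ n hn
      exact hy n hn
  have f3 : ∀ᵐ y ∂nvol.prod (pvol τ), ∀ z ∈ flegs Φ F t, y.1.1 ≠ z.2.1 ∧ y.1.1 ≠ z.2.2 := by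
    refine (Filter.eventually_all_finite (List.finite_toSet (flegs Φ F t))).2 fun z _ => ?_
    filter_upwards [ae_time_ne (ν := pvol τ) (c := fun _ => z.2.1) measurable_const,
      ae_time_ne (ν := pvol τ) (c := fun _ => z.2.2) measurable_const] with y h1 h2
    exact ⟨h1, h2⟩
  have f4 : ∀ᵐ y ∂nvol.prod (pvol τ), y.1.1 ≠ stm τ y.2 := ae_time_ne (measurable_stm τ)
  have f5 := ae_self_hit hΦ x.1 τ
  have f6 := ae_WNe_hit hΦ τ
  have f7 : ∀ᵐ y ∂nvol.prod (pvol τ), x.1.1.2 - y.1.2.1 ≠ 0 ∧ ‖y.1.2.2‖ < 1 := by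
    have h1 : ∀ᵐ q ∂nvol, x.1.1.2 - q.2.1 ≠ 0 := by
      filter_upwards [ae_vel_ne x.1.1.2] with q hq h
      exact hq (sub_eq_zero.1 h).symm
    have h2 : ∀ᵐ q ∂nvol, ‖q.2.2‖ < 1 := by
      unfold nvol
      have hm : MeasurableSet {q : ND | ‖q.2.2‖ < 1} :=
        measurableSet_lt (by fun_prop) measurable_const
      exact ae_restrict_mem hm
    have h3 : ∀ᵐ q ∂nvol, x.1.1.2 - q.2.1 ≠ 0 ∧ ‖q.2.2‖ < 1 := by
      filter_upwards [h1, h2] with q a b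
      exact ⟨a, b⟩
    exact Measure.quasiMeasurePreserving_fst.ae h3
  filter_upwards [f1, f2, f3, f4, f5, f6, f7] with y f1 f2 f3 f4 f5 f6 f7 hlo hhi hg htok hex
  obtain ⟨q, p⟩ := y
  simp only at f1 f2 f3 f4 f5 f6 f7 hlo hhi hg htok hex
  rw [ex_zero] at hex
  have hT : Tord τ p := (tok_zero_iff τ q.2.1 p).1 htok
  have hstm : stm τ p < q.1 := lt_of_le_of_ne hex (Ne.symm f4)
  have hbef : Bef q.1 τ p := hT.bef hstm
  have hpos : 0 < q.1 := (le_max_right _ _).trans_lt hlo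
  have hqt : q.1 < t := hhi.trans_le (min_le_right _ _)
  have hqx : q.1 < x.2.2 := hhi.trans_le (min_le_left _ _)
  have hGG : GenG Φ L (TG.hit x.1 τ q p) := by
    refine ⟨?_, hT, f5 hT.ordr, ?_, hτ⟩
    · change good Φ τ (hG x.1 q).1.2 p
      rw [hG_snd]; exact hg
    · change WNe Φ τ (hG x.1 q).1.2 p
      rw [hG_snd]; exact f6
  refine ⟨hpos, ?_, ?_⟩
  · intro G hm
    rcases List.mem_cons.1 hm with rfl | hm
    · exact hGG
    · exact hF.one G hm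
  · rw [List.pairwise_cons]
    refine ⟨fun G hmG => ?_, (hF.mono hpos hqt.le).two⟩
    have hleg : ∀ z ∈ G.legs Φ q.1, ∃ z' ∈ flegs Φ F t, z'.1 = z.1 ∧ z'.2.1 = z.2.1 ∧
        (z'.2.2 = z.2.2 ∨ (z.2.2 = q.1 ∧ z'.2.2 = t)) := by
      intro z hz
      obtain ⟨z', hz', h1⟩ := glegs_hor G.τ G.ℓ G.p q.1 t z hz
      exact ⟨z', List.mem_flatMap.2 ⟨G, hmG, hz'⟩, h1⟩
    have hne : ∀ e ∈ exw Φ G.τ G.ℓ G.p, e.2 ≤ q.1 → e.1.1 ≠ x.1.1 := fun e he het =>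
      hF.exw_ne hmG he (het.trans hqt.le) hx (het.trans_lt hqx)
    have hall : ∀ e ∈ exw Φ G.τ G.ℓ G.p, e.2 ≤ q.1 → ∀ n : ℕ, ∃ m : ℕ, n ≤ m ∧
        Av Φ e.1.1 m τ (hG x.1 q).1 p := by
      intro e he het n
      obtain ⟨k, hk⟩ := exists_nat_gt q.1
      refine ⟨max n k, le_max_left _ _, f2 G hmG e he (hne e he het) _ ?_⟩
      refine hT.bef (hstm.trans (hk.trans_le ?_))
      exact_mod_cast le_max_right n k
    refine ⟨⟨fun x' hx' z hz => ?_, fun x' hx' e he het => ?_, fun e' he' _ z hz => ?_,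
      fun e' he' _ e he het => ?_⟩, fun x' hx' z hz => ?_⟩
    · obtain ⟨z', hz', h1, -⟩ := hleg z hz
      rw [← h1]
      exact nm_comm.1 (Av.legs (ℓ := hG x.1 q) (f1 z' hz' hbef) x' hx')
    · refine nev_comm.1 (nev_of_nat fun n => ?_)
      obtain ⟨m, hm, h1⟩ := hall e he het n
      exact ⟨m, hm, Av.legs (ℓ := hG x.1 q) h1 x' hx'⟩
    · obtain ⟨z', hz', h1, -⟩ := hleg z hz
      rw [← h1]
      exact nev_comm.1 (Av.exs (ℓ := hG x.1 q) (f1 z' hz' hbef) e'.1 (mem_exl_of_exw he'))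
    · obtain ⟨m, hm, h1⟩ := hall e he het 0
      exact nev_comm.1 (Av.exs (ℓ := hG x.1 q) h1 e'.1 (mem_exl_of_exw he'))
    · intro h1 h2 h3 h4 h5
      obtain ⟨z', hz', e1, e2, e3⟩ := hleg z hz
      -- the leg of the attached tree is its root
      have hx'' : x' = (hG x.1 q, stm τ p, q.1) := by
        rcases glegs_end τ (hG x.1 q) p hT q.1 x' hx' with h6 | h6
        · exact h6
        · exact absurd (h2.trans h6) (not_le.2 hstm)
      rw [hx''] at h5 ⊢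
      have h6 : meetAt z'.1.1 x.1.1 q.1 := by
        rw [meetAt_comm, e1]
        have h7 : meetAt z.1.1 (hG x.1 q).1 q.1 := meetAt_comm.1 h5
        rw [hG_tilt, meetAt_tilt_self] at h7
        exact meetAt_comm.1 h7
      have hb : z'.2.1 < q.1 := lt_of_le_of_ne (e2 ▸ h3) (Ne.symm (f3 z' hz').1)
      have hd : q.1 < z'.2.2 := by
        rcases e3 with e3 | e3
        · exact lt_of_le_of_ne (e3 ▸ h4) (f3 z' hz').2
        · rw [e3.2]; exact hqt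
      by_cases hzx : z' = x
      · refine ⟨hstm, e2 ▸ hb, ?_⟩
        filter_upwards [ev_pos] with ε hε s hs
        rw [← e1, hzx]
        exact touch_hit f7.1 f7.2 hε hs
      · exact absurd h6 (hF.legs_ne hz' hx hzx q.1 hb hd ((le_max_left _ _).trans_lt hlo) hqx hqt)

end Vale.Agent.P119.KT
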