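import Vale.Agent.P119.KT.Pair

/-!
# P119, block KT (`helper256`): the direction of the change of velocity is generic

For a rotation covariant scattering map the half difference `N` and the half sum `P` of the incoming
and the outgoing velocity avoid a given affine line, unless they vanish.
-/

open MeasureTheory Filter Topology Set
open scoped ENNReal NNReal RealInnerProductSpace

noncomputable section

namespace Vale.Agent.P119.KT

open Vale.Agent.P119.KU

/-! ### Sets which are finite on circles are null -/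

/-- Rotations of the plane. -/
def rot (θ : ℝ) : E2 ≃ₗᵢ[ℝ] E2 :=
  (Complex.orthonormalBasisOneI.repr.symm.trans (rotation (Circle.exp θ))).trans
    Complex.orthonormalBasisOneI.repr

theorem rot_apply (θ : ℝ) (b : E2) : rot θ b =
    Complex.orthonormalBasisOneI.repr ((Circle.exp θ : ℂ) *
      Complex.orthonormalBasisOneI.repr.symm b) := rfl

theorem measurable_rot : Measurable (fun x : ℝ × E2 => rot x.1 x.2) := by
  have h : Continuous (fun x : ℝ × E2 => rot x.1 x.2) := by
    simp only [rot_apply, Circle.coe_exp]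
    refine Complex.orthonormalBasisOneI.repr.continuous.comp ?_
    refine Continuous.mul (by fun_prop) ?_
    exact Complex.orthonormalBasisOneI.repr.symm.continuous.comp continuous_snd
  exact h.measurable

theorem rot_injOn {b : E2} (hb : b ≠ 0) : InjOn (fun θ : ℝ => rot θ b) (Icc 0 1) := by
  intro θ hθ θ' hθ' h
  have h1 := Complex.orthonormalBasisOneI.repr.injective h
  have hz : Complex.orthonormalBasisOneI.repr.symm b ≠ 0 := by
    intro h2
    exact hb ((map_eq_zero_iff _ Complex.orthonormalBasisOneI.repr.symm.injective).1 h2)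
  have h2 : (Circle.exp θ : ℂ) = Circle.exp θ' := mul_right_cancel₀ hz h1
  rw [Circle.coe_exp, Circle.coe_exp] at h2
  have h3 : Real.cos θ = Real.cos θ' := by
    have := congrArg Complex.re h2
    rwa [Complex.exp_ofReal_mul_I_re, Complex.exp_ofReal_mul_I_re] at this
  have hπ : (1 : ℝ) ≤ Real.pi := by linarith [Real.pi_gt_three]
  exact Real.injOn_cos ⟨hθ.1, hθ.2.trans hπ⟩ ⟨hθ'.1, hθ'.2.trans hπ⟩ h3

theorem null_of_circles {B : Set E2} (hB : MeasurableSet B)
    (h : ∀ b : E2, b ≠ 0 → (B ∩ {b' | ‖b'‖ = ‖b‖}).Finite) : volume B = 0 := by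
  have h1 : ∀ θ : ℝ, volume ((fun b => rot θ b) ⁻¹' B) = volume B := fun θ =>
    (rot θ).measurePreserving.measure_preimage hB.nullMeasurableSet
  have hS : MeasurableSet {x : ℝ × E2 | rot x.1 x.2 ∈ B} := measurable_rot hB
  -- for every `b ≠ 0` only finitely many angles
  have h2 : ∀ b : E2, b ≠ 0 →
      (volume.restrict (Icc (0 : ℝ) 1)) {θ : ℝ | rot θ b ∈ B} = 0 := by
    intro b hb
    have hm : MeasurableSet {θ : ℝ | rot θ b ∈ B} :=
      (measurable_rot.comp (measurable_id.prodMk measurable_const)) hB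
    rw [Measure.restrict_apply hm]
    refine Set.Finite.measure_zero ?_ _
    have h3 := h b hb
    refine Set.Finite.of_finite_image (f := fun θ => rot θ b) ?_
      ((rot_injOn hb).mono inter_subset_right)
    refine h3.subset ?_
    rintro _ ⟨θ, hθ, rfl⟩
    exact ⟨hθ.1, (rot θ).norm_map b⟩
  have h3 := Measure.prod_apply (μ := volume.restrict (Icc (0 : ℝ) 1)) (ν := (volume : Measure E2)) hS
  have h4 := Measure.prod_apply_symm (μ := volume.restrict (Icc (0 : ℝ) 1))
    (ν := (volume : Measure E2)) hS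
  have h5 : ∫⁻ θ in Icc (0 : ℝ) 1, volume (Prod.mk θ ⁻¹' {x : ℝ × E2 | rot x.1 x.2 ∈ B}) =
      volume B := by
    have : ∀ θ : ℝ, volume (Prod.mk θ ⁻¹' {x : ℝ × E2 | rot x.1 x.2 ∈ B}) = volume B := h1
    simp only [this, lintegral_const, Measure.restrict_apply_univ, Real.volume_Icc, sub_zero,
      ENNReal.ofReal_one, mul_one]
  have h6 : ∫⁻ b : E2, (volume.restrict (Icc (0 : ℝ) 1))
      ((fun θ => (θ, b)) ⁻¹' {x : ℝ × E2 | rot x.1 x.2 ∈ B}) = 0 := by
    rw [lintegral_eq_zero_iff (measurable_measure_prodMk_right hS)]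
    have h7 : ∀ᵐ b : E2, b ≠ 0 := by
      have h0 : (volume : Measure E2) {0} = 0 := measure_singleton _
      have h8 : ∀ᵐ u : E2, u ∉ ({0} : Set E2) := measure_eq_zero_iff_ae_notMem.1 h0
      filter_upwards [h8] with z hz h
      exact hz h
    filter_upwards [h7] with b hb
    exact h2 b hb
  rw [← h5, ← h3, h4, h6]

/-! ### Affine lines -/

/-- The affine line `c + ℝ e` (a point if `e = 0`). -/
def aff (c e : E3) : Set E3 := {x | x - c ∈ (ℝ ∙ e)}

theorem mem_aff {c e x : E3} : x ∈ aff c e ↔ ∃ r : ℝ, x = c + r • e := by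
  unfold aff
  rw [mem_ofPred_eq, Submodule.mem_span_singleton]
  constructor
  · rintro ⟨r, hr⟩; exact ⟨r, by rw [hr]; abel⟩
  · rintro ⟨r, hr⟩; exact ⟨r, by rw [hr]; abel⟩

theorem isClosed_aff (c e : E3) : IsClosed (aff c e) :=
  (Submodule.closed_of_finiteDimensional _).preimage (continuous_id.sub continuous_const)

theorem measurableSet_aff' : MeasurableSet {x : E3 × E3 × E3 | x.1 ∈ aff x.2.1 x.2.2} := by
  -- `x - c` is parallel to `e`
  have h1 : {x : E3 × E3 × E3 | x.1 ∈ aff x.2.1 x.2.2} =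
      {x | x.1 - x.2.1 = ((inner ℝ x.2.2 (x.1 - x.2.1) : ℝ) / ‖x.2.2‖ ^ 2) • x.2.2} := by
    ext ⟨x, c, e⟩
    simp only [mem_ofPred_eq, aff]
    constructor
    · intro h
      obtain ⟨r, hr⟩ := Submodule.mem_span_singleton.1 h
      rw [← hr, inner_smul_right, real_inner_self_eq_norm_sq]
      by_cases he : e = 0
      · simp [he]
      · have : ‖e‖ ^ 2 ≠ 0 := by
          have := norm_ne_zero_iff.2 he; positivity
        rw [mul_div_assoc, div_self this, mul_one]
    · intro h
      rw [h]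
      exact Submodule.smul_mem _ _ (Submodule.mem_span_singleton_self e)
  rw [h1]
  exact measurableSet_eq_fun (by fun_prop) (by fun_prop)

theorem null_aff (c e : E3) : volume (aff c e) = 0 := by
  have h1 : aff c e = (fun x => x - c) ⁻¹' ((ℝ ∙ e : Submodule ℝ E3) : Set E3) := rfl
  rw [h1]
  have h2 : MeasurePreserving (fun x : E3 => x - c) volume volume :=
    measurePreserving_sub_right volume c
  rw [h2.measure_preimage (Submodule.closed_of_finiteDimensional _).measurableSet.nullMeasurableSet]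
  refine Measure.addHaar_submodule _ _ ?_
  intro h3
  have h4 : Module.finrank ℝ (ℝ ∙ e : Submodule ℝ E3) ≤ 1 := by
    refine (finrank_span_le_card ({e} : Set E3)).trans ?_
    simp
  rw [h3, finrank_top, finrank_euclideanSpace, Fintype.card_fin] at h4
  omega

/-! ### Covariant scattering maps -/

/-- Covariance under linear isometries and conservation of the speed. -/
structure Cov (S : Ph → Ph) : Prop where
  act : ∀ (A : E3 ≃ₗᵢ[ℝ] E3) (p : Ph), S (KU.act A p) = KU.act A (S p)
  norm : ∀ p : Ph, ‖(S p).2‖ = ‖p.2‖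
  meas : Measurable S

theorem cov_scat {Φ : E3 → ℝ} (hΦ : IsPotential Φ) : Cov (scat Φ) :=
  ⟨scat_act hΦ, scat_snd_norm hΦ, measurable_scat hΦ⟩

theorem act_rev (A : E3 ≃ₗᵢ[ℝ] E3) (p : Ph) : act A (rev p) = rev (act A p) := by
  unfold act rev
  simp only [map_neg]

theorem cov_scatI {Φ : E3 → ℝ} (hΦ : IsPotential Φ) : Cov (scatI Φ) := by
  refine ⟨fun A p => ?_, scatI_snd_norm hΦ, measurable_scatI hΦ⟩
  unfold scatI
  rw [← act_rev, scat_act hΦ, act_rev]

/-- The outgoing velocity for the impact parameter `b`. -/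
def ov (S : Ph → Ph) (V : E3) (b : E2) : E3 := (S (fr V b, V)).2

theorem measurable_ov {S : Ph → Ph} (hS : Cov S) : Measurable fun x : E3 × E2 => ov S x.1 x.2 :=
  (hS.meas.comp (measurable_fr.prodMk measurable_fst)).snd

theorem inner_inc (b c : E2) : (inner ℝ (inc b) (inc c) : ℝ) = inner ℝ b c := by
  simp [inc, PiLp.inner_apply, Fin.sum_univ_three, Fin.sum_univ_two]

theorem inner_fr_fr (V : E3) (b c : E2) : (inner ℝ (fr V b) (fr V c) : ℝ) = inner ℝ b c := by
  unfold fr
  rw [inner_hmap, inner_inc]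

theorem exists_fr {V : E3} (hV : V ≠ 0) (W : E3) : ∃ (a : ℝ) (c : E2), W = a • V + fr V c := by
  have hV0 : ‖V‖ ≠ 0 := norm_ne_zero_iff.2 hV
  set u : E3 := ‖V‖⁻¹ • V with hu
  set y := hmap u W with hy
  have h1 : hmap u y = W := by
    rw [hy, hmap_eq, hmap_eq, Submodule.reflection_reflection]
  have h2 : y = inc (dec y).2 + (dec y).1 • e3 := by
    rw [← dec_symm_apply, Prod.mk.eta, MeasurableEquiv.symm_apply_apply]
  refine ⟨(dec y).1 * ‖V‖⁻¹, (dec y).2, ?_⟩
  rw [← h1]
  conv_lhs => rw [h2]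
  rw [hmap_add, hmap_smul, hmap_e3 (norm_normalize hV)]
  unfold fr
  rw [mul_smul, ← hu, add_comm]

/-- On a circle of impact parameters the outgoing velocity is `a V + k ρ`. -/
theorem ov_circle {S : Ph → Ph} (hS : Cov S) {V : E3} (hV : V ≠ 0) {b : E2} (hb : b ≠ 0) :
    ∃ a k : ℝ, ∀ b' : E2, ‖b'‖ = ‖b‖ → ov S V b' = a • V + k • fr V b' := by
  -- the third direction
  set J : E2 := !₂[-b 1, b 0] with hJ
  have hJb : (inner ℝ J b : ℝ) = 0 := by
    simp [hJ, PiLp.inner_apply, Fin.sum_univ_two]; ring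
  set n := fr V J with hn
  have hnV : (inner ℝ n V : ℝ) = 0 := inner_fr J
  have hnρ : (inner ℝ n (fr V b) : ℝ) = 0 := by rw [hn, inner_fr_fr, hJb]
  have hmem : ∀ x : E3, x ∈ (ℝ ∙ n)ᗮ ↔ (inner ℝ n x : ℝ) = 0 := fun x =>
    Submodule.mem_orthogonal_singleton_iff_inner_right
  obtain ⟨a, c, hW⟩ := exists_fr hV (ov S V b)
  have hnW : (inner ℝ n (ov S V b) : ℝ) = 0 := by
    set A := ((ℝ ∙ n)ᗮ).reflection with hA
    have h1 : A V = V := Submodule.reflection_mem_subspace_eq_self ((hmem V).2 hnV)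
    have h2 : A (fr V b) = fr V b := Submodule.reflection_mem_subspace_eq_self ((hmem _).2 hnρ)
    have h3 := hS.act A (fr V b, V)
    have h4 : act A (fr V b, V) = (fr V b, V) := by
      unfold act; simp only [h1, h2]
    rw [h4] at h3
    have h5 : A (ov S V b) = ov S V b := by
      have := congrArg Prod.snd h3
      exact this.symm
    rw [← hmem]
    exact ((ℝ ∙ n)ᗮ).reflection_eq_self_iff _ |>.1 h5
  -- `c` is a multiple of `b`
  have hJc : (inner ℝ J c : ℝ) = 0 := by
    rw [hW, inner_add_right, inner_smul_right, hnV, mul_zero, zero_add, hn, inner_fr_fr] at hnW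
    exact hnW
  have hb2 : b 0 ^ 2 + b 1 ^ 2 ≠ 0 := by
    intro h
    have h0 : b 0 = 0 := by nlinarith [sq_nonneg (b 0), sq_nonneg (b 1)]
    have h1 : b 1 = 0 := by nlinarith [sq_nonneg (b 0), sq_nonneg (b 1)]
    apply hb
    ext i; fin_cases i
    · exact h0
    · exact h1
  have hJc' : -(b 1 * c 0) + b 0 * c 1 = 0 := by
    have := hJc
    simp [hJ, PiLp.inner_apply, Fin.sum_univ_two] at this
    linarith
  obtain ⟨k, hk⟩ : ∃ k : ℝ, c = k • b := by
    refine ⟨(b 0 * c 0 + b 1 * c 1) / (b 0 ^ 2 + b 1 ^ 2), ?_⟩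
    ext i; fin_cases i
    · simp only [Fin.zero_eta, Fin.isValue, PiLp.smul_apply, smul_eq_mul]
      field_simp
      linear_combination (-b 1) * hJc'
    · simp only [Fin.mk_one, Fin.isValue, PiLp.smul_apply, smul_eq_mul]
      field_simp
      linear_combination (b 0) * hJc'
  refine ⟨a, k, fun b' hb' => ?_⟩
  -- exchange `fr V b` and `fr V b'`
  set ρ := fr V b with hρ
  set ρ' := fr V b' with hρ'
  have hn1 : ‖ρ‖ = ‖ρ'‖ := by rw [hρ, hρ', norm_fr, norm_fr, hb']
  set A := (ℝ ∙ (ρ - ρ'))ᗮ.reflection with hA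
  have h1 : A ρ = ρ' := Submodule.reflection_sub hn1
  have h2 : A V = V := by
    refine Submodule.reflection_mem_subspace_eq_self ?_
    rw [Submodule.mem_orthogonal_singleton_iff_inner_right, inner_sub_left, hρ, hρ', inner_fr,
      inner_fr, sub_zero]
  have h3 := hS.act A (ρ, V)
  have h4 : act A (ρ, V) = (ρ', V) := by unfold act; simp only [h1, h2]
  rw [h4] at h3
  have h5 : ov S V b' = A (ov S V b) := congrArg Prod.snd h3
  rw [h5, hW, map_add, map_smul, h2, hk, fr_smul, ← hρ, map_smul, h1]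

theorem finite_quadratic {A B C : ℝ} (hA : A ≠ 0) :
    {x : ℝ | A * x ^ 2 + B * x + C = 0}.Finite := by
  set p : Polynomial ℝ := Polynomial.C A * Polynomial.X ^ 2 + Polynomial.C B * Polynomial.X +
    Polynomial.C C with hp
  have hp0 : p ≠ 0 := by
    intro h
    have h1 : p.coeff 2 = A := by
      simp [hp]
    rw [h, Polynomial.coeff_zero] at h1
    exact hA h1.symm
  refine (Polynomial.finite_setOfPred_isRoot hp0).subset ?_
  intro x hx
  have h2 : A * x ^ 2 + B * x + C = 0 := hx
  change p.IsRoot x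
  rw [Polynomial.IsRoot, hp]
  simpa using h2

/-- A line meets a circle in finitely many points. -/
theorem finite_line_circle {V : E3} (c e : E3) (r : ℝ) :
    {b' : E2 | fr V b' ∈ aff c e ∧ ‖b'‖ = r}.Finite := by
  have hinj : Function.Injective (fr V) := by
    intro x y hxy
    have h1 : fr V (x - y) = 0 := by
      rw [sub_eq_add_neg, ← neg_one_smul ℝ y, fr_add, fr_smul, hxy, neg_one_smul, add_neg_cancel]
    have h2 : ‖x - y‖ = 0 := by rw [← norm_fr V, h1, norm_zero]
    exact sub_eq_zero.1 (norm_eq_zero.1 h2)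
  refine Set.Finite.of_finite_image (f := fr V) ?_ hinj.injOn
  by_cases he : e = 0
  · refine (finite_singleton c).subset ?_
    rintro _ ⟨b', ⟨h1, -⟩, rfl⟩
    obtain ⟨x, hx⟩ := mem_aff.1 h1
    rw [he, smul_zero, add_zero] at hx
    exact hx
  · have hA : ‖e‖ ^ 2 ≠ 0 := by
      have := norm_ne_zero_iff.2 he; positivity
    refine ((finite_quadratic (A := ‖e‖ ^ 2) (B := 2 * inner ℝ c e) (C := ‖c‖ ^ 2 - r ^ 2)
      hA).image (fun x : ℝ => c + x • e)).subset ?_
    rintro _ ⟨b', ⟨h1, h2⟩, rfl⟩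
    obtain ⟨x, hx⟩ := mem_aff.1 h1
    refine ⟨x, ?_, hx.symm⟩
    have h3 : ‖c + x • e‖ ^ 2 = r ^ 2 := by rw [← hx, norm_fr, h2]
    rw [norm_add_sq_real, norm_smul, inner_smul_right, Real.norm_eq_abs, mul_pow, sq_abs] at h3
    change ‖e‖ ^ 2 * x ^ 2 + 2 * inner ℝ c e * x + (‖c‖ ^ 2 - r ^ 2) = 0
    linarith

/-- **The direction of the change of velocity is generic** (fixed incoming relative velocity). -/
theorem ae_half {S : Ph → Ph} (hS : Cov S) {V : E3} (hV : V ≠ 0) {c e : E3} (hVΛ : V ∉ aff c e)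
    {κ : ℝ} (hκ : κ = 1 ∨ κ = -1) :
    ∀ᵐ b : E2, V - κ • ov S V b = 0 ∨ (2 : ℝ)⁻¹ • (V - κ • ov S V b) ∉ aff c e := by
  set B : Set E2 := {b | V - κ • ov S V b ≠ 0 ∧ (2 : ℝ)⁻¹ • (V - κ • ov S V b) ∈ aff c e} with hB
  have hm0 : Measurable fun b : E2 => V - κ • ov S V b :=
    measurable_const.sub (((measurable_ov hS).comp
      (measurable_const.prodMk measurable_id)).const_smul κ)
  have hBm : MeasurableSet B := by
    refine MeasurableSet.inter ?_ ?_
    · exact hm0 (measurableSet_singleton (0 : E3)).compl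
    · exact (hm0.const_smul (2 : ℝ)⁻¹) (isClosed_aff c e).measurableSet
  have hnull : volume B = 0 := by
    refine null_of_circles hBm fun b hb => ?_
    obtain ⟨a, k, hak⟩ := ov_circle hS hV hb
    by_cases hk : k = 0
    · -- the outgoing velocity is `± V`
      refine (finite_empty).subset ?_
      rintro b' ⟨⟨h1, h2⟩, h3⟩
      have h4 := hak b' h3
      rw [hk, zero_smul, add_zero] at h4
      have h5 : ‖ov S V b'‖ = ‖V‖ := hS.norm (fr V b', V)
      rw [h4, norm_smul, Real.norm_eq_abs] at h5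
      have h6 : |a| = 1 := by
        have := norm_ne_zero_iff.2 hV
        field_simp at h5
        exact h5
      have h7 : |κ * a| = 1 := by
        rw [abs_mul, h6]; rcases hκ with h | h <;> simp [h]
      have h8 : V - κ • ov S V b' = (1 - κ * a) • V := by
        rw [h4, sub_smul, one_smul, smul_smul]
      rcases (abs_eq zero_le_one).1 h7 with h | h
      · rw [h8, h, sub_self, zero_smul] at h1
        exact h1 rfl
      · rw [h8, h] at h2
        have : (2 : ℝ)⁻¹ • (1 - (-1) : ℝ) • V = V := by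
          rw [smul_smul]; norm_num
        rw [this] at h2
        exact hVΛ h2
    · have hκ0 : κ ≠ 0 := by rcases hκ with h | h <;> simp [h]
      -- `fr V b'` is on a line
      refine (finite_line_circle (V := V)
        ((-(2 / (κ * k))) • (c - ((2 : ℝ)⁻¹ * (1 - κ * a)) • V)) ((-(2 / (κ * k))) • e)
        ‖b‖).subset ?_
      rintro b' ⟨⟨h1, h2⟩, h3⟩
      refine ⟨?_, h3⟩
      obtain ⟨x, hx⟩ := mem_aff.1 h2
      rw [mem_aff]
      refine ⟨x, ?_⟩
      have h4 := hak b' h3
      have h5 : (2 : ℝ)⁻¹ • (V - κ • ov S V b') =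
          ((2 : ℝ)⁻¹ * (1 - κ * a)) • V - ((2 : ℝ)⁻¹ * (κ * k)) • fr V b' := by
        rw [h4]; module
      rw [h5] at hx
      have h6 : ((2 : ℝ)⁻¹ * (κ * k)) • fr V b' =
          ((2 : ℝ)⁻¹ * (1 - κ * a)) • V - c - x • e := by
        rw [sub_sub, ← hx]; abel
      have h7 : fr V b' = (2 / (κ * k)) • (((2 : ℝ)⁻¹ * (κ * k)) • fr V b') := by
        rw [smul_smul]
        have : (2 / (κ * k)) * ((2 : ℝ)⁻¹ * (κ * k)) = 1 := by field_simp
        rw [this, one_smul]
      rw [h7, h6]
      module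
  have h1 := measure_eq_zero_iff_ae_notMem.1 hnull
  filter_upwards [h1] with b hb
  by_contra hcon
  rw [not_or, not_not] at hcon
  exact hb hcon

theorem ae_ne (v : E3) : ∀ᵐ w : E3, v - w ≠ 0 := by
  have h0 : (volume : Measure E3) {v} = 0 := measure_singleton _
  filter_upwards [measure_eq_zero_iff_ae_notMem.1 h0] with w hw h
  exact hw (sub_eq_zero.1 h).symm

theorem ae_notMem_aff (v c e : E3) : ∀ᵐ w : E3, v - w ∉ aff c e := by
  have h1 : MeasurePreserving (fun w : E3 => v - w) volume volume :=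
    Measure.measurePreserving_sub_left volume v
  have h2 := h1.quasiMeasurePreserving.ae (measure_eq_zero_iff_ae_notMem.1 (null_aff c e))
  exact h2

/-- The displacement of the velocity at a node: `κ = 1` for the first line, `κ = -1` for the
second one. -/
def dsp (S : Ph → Ph) (κ : ℝ) (v w : E3) (b : E2) : E3 :=
  (2 : ℝ)⁻¹ • ((v - w) - κ • ov S (v - w) b)

theorem measurable_dsp {S : Ph → Ph} (hS : Cov S) (κ : ℝ) :
    Measurable fun x : E3 × E3 × E2 => dsp S κ x.1 x.2.1 x.2.2 := by
  have h1 : Measurable fun x : E3 × E3 × E2 => x.1 - x.2.1 := by fun_prop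
  exact ((h1.sub (((measurable_ov hS).comp (h1.prodMk (by fun_prop))).const_smul κ))).const_smul
    (2 : ℝ)⁻¹

theorem dsp_def (S : Ph → Ph) (κ : ℝ) (v w : E3) (b : E2) :
    dsp S κ v w b = (2 : ℝ)⁻¹ • ((v - w) - κ • ov S (v - w) b) := rfl

attribute [irreducible] dsp

/-- The displacement is generic: for almost every velocity and impact parameter. -/
theorem ae_dsp {S : Ph → Ph} (hS : Cov S) {κ : ℝ} (hκ : κ = 1 ∨ κ = -1) (v c e : E3) :
    ∀ᵐ x : E3 × E2, dsp S κ v x.1 x.2 = 0 ∨ dsp S κ v x.1 x.2 ∉ aff c e := by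
  have hm : Measurable fun x : E3 × E2 => dsp S κ v x.1 x.2 :=
    (measurable_dsp hS κ).comp (measurable_const.prodMk measurable_id)
  have hset : MeasurableSet {x : E3 × E2 | dsp S κ v x.1 x.2 = 0 ∨ dsp S κ v x.1 x.2 ∉ aff c e} := by
    have h1 : MeasurableSet {x : E3 × E2 | dsp S κ v x.1 x.2 = 0} :=
      hm (measurableSet_singleton (0 : E3))
    have h2 : MeasurableSet {x : E3 × E2 | dsp S κ v x.1 x.2 ∉ aff c e} :=
      hm (isClosed_aff c e).measurableSet.compl
    exact h1.union h2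
  rw [Measure.volume_eq_prod, Measure.ae_prod_iff_ae_ae hset]
  filter_upwards [ae_ne v, ae_notMem_aff v c e] with w hw hw2
  filter_upwards [ae_half hS hw hw2 hκ] with b hb
  rw [dsp_def]
  refine hb.imp (fun h => ?_) id
  rw [h, smul_zero]

/-! ### Tilted lines -/

/-- The line which meets `L` at time `s`, with the velocity changed by `-D`. -/
def tilt (L : Ph) (s : ℝ) (D : E3) : Ph := (L.1 + s • D, L.2 - D)

theorem free_tilt (L : Ph) (s σ : ℝ) (D : E3) :
    (free σ (tilt L s D)).1 = (free σ L).1 - (σ - s) • D := by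
  unfold free tilt; simp only; module

theorem tilt_zero (L : Ph) (s : ℝ) : tilt L s 0 = L := by
  unfold tilt; simp

/-- Two lines are at the same place at time `σ`. -/
def meetAt (α β : Ph) (σ : ℝ) : Prop := (free σ α).1 = (free σ β).1

theorem meetAt_comm {α β : Ph} {σ : ℝ} : meetAt α β σ ↔ meetAt β α σ := eq_comm

/-- If `α` meets the tilted line at a time `σ ≠ s`, then the displacement is on an affine line. -/
theorem mem_aff_of_meetAt {α L : Ph} {s σ : ℝ} {D : E3} (hσ : σ ≠ s)
    (h : meetAt α (tilt L s D) σ) :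
    D ∈ aff (L.2 - α.2) ((free s L).1 - (free s α).1) := by
  unfold meetAt at h
  rw [free_tilt] at h
  have h1 : σ - s ≠ 0 := sub_ne_zero.2 hσ
  rw [mem_aff]
  refine ⟨(σ - s)⁻¹, ?_⟩
  have h2 : (σ - s) • D = (free σ L).1 - (free σ α).1 := by rw [h]; abel
  have h3 : (free σ L).1 - (free σ α).1 = (σ - s) • (L.2 - α.2) +
      ((free s L).1 - (free s α).1) := by
    unfold free; simp only; module
  have h4 : D = (σ - s)⁻¹ • ((σ - s) • D) := by rw [smul_smul, inv_mul_cancel₀ h1, one_smul]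
  rw [h4, h2, h3, smul_add, smul_smul, inv_mul_cancel₀ h1, one_smul]

theorem meetAt_tilt_self {α L : Ph} {s : ℝ} {D : E3} :
    meetAt α (tilt L s D) s ↔ meetAt α L s := by
  unfold meetAt
  rw [free_tilt, sub_self, zero_smul, sub_zero]

end Vale.Agent.P119.KT
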