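import Vale.Agent.P119.KT.LineChain
import Vale.Agent.P119.ML.CrudeX

/-!
# P119, block KT: velocity bounds for chains of lines (`helper758`)

* `outl_snd_le`, `stl_le`: the speeds after a collision;
* `J_int`: one more collision costs a factor `1 + |v| + |v'|`;
* **`J_le`**: the mass of the chains is at most `C (1 + |v| + |v'|)^m`, uniformly in `ε` and `r`.
-/

open MeasureTheory Filter Topology Set
open scoped ENNReal NNReal

noncomputable section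

namespace Vale.Agent.P119.KT

open KU M CTree ML

variable {Φ : E3 → ℝ} {ε t r b : ℝ}

/-! ### The speeds -/

theorem outl_snd_le (hΦ : IsPotential Φ) (hε : 0 < ε) (o : Bool) (ℓ l : Ph) :
    ‖(outl Φ ε o ℓ l).2‖ ≤ ‖ℓ.2‖ + ‖l.2‖ := by
  have h := energy_sc2 hΦ hε.ne' (ℓ, l)
  simp only at h
  have h1 := norm_nonneg ℓ.2
  have h2 := norm_nonneg l.2
  cases o with
  | true =>
    rw [outl_true]
    refine abs_le_of_sq_le_sq' ?_ (by positivity) |>.2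
    nlinarith [sq_nonneg ‖(sc2 Φ ε (ℓ, l)).2.2‖, mul_nonneg h1 h2]
  | false =>
    rw [outl_false]
    refine abs_le_of_sq_le_sq' ?_ (by positivity) |>.2
    nlinarith [sq_nonneg ‖(sc2 Φ ε (ℓ, l)).1.2‖, mul_nonneg h1 h2]

theorem stl_le (hΦ : IsPotential Φ) (hε : 0 < ε) (k : Bool × Bool) (z : Ph × Ph) (l : Ph) :
    ‖(stl Φ ε k z l).1.2‖ + ‖(stl Φ ε k z l).2.2‖ ≤ ‖z.1.2‖ + ‖z.2.2‖ + ‖l.2‖ := by
  obtain ⟨c, o⟩ := k
  cases c with
  | true =>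
    rw [stl_true]
    simp only
    have h := outl_snd_le hΦ hε o z.1 l
    linarith
  | false =>
    rw [stl_false]
    simp only
    have h := outl_snd_le hΦ hε o z.2 l
    linarith

theorem act_snd_le (k : Bool × Bool) (z : Ph × Ph) :
    ‖(act k z).2‖ ≤ ‖z.1.2‖ + ‖z.2.2‖ := by
  obtain ⟨c, o⟩ := k
  cases c with
  | true =>
    rw [act_true]
    linarith [norm_nonneg z.2.2]
  | false =>
    rw [act_false]
    linarith [norm_nonneg z.1.2]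

/-! ### Gaussian moments -/

/-- Gaussian moment of order `k`. -/
def gMom (b : ℝ) (k : ℕ) : ℝ≥0∞ := ∫⁻ v : E3, PB.CT.g1 b v * ENNReal.ofReal ((1 + ‖v‖) ^ k)

theorem gMom_ne_top {b : ℝ} (hb : 0 < b) (k : ℕ) : gMom b k ≠ ∞ := by
  obtain ⟨C, hC, h⟩ := pw_mul_g1_le k hb
  have h0 : ∀ v : E3, PB.CT.g1 b v * ENNReal.ofReal ((1 + ‖v‖) ^ k) ≤
      (ENNReal.ofReal (2 ^ k) * C) * PB.CT.g1 (b / 2) v := by
    intro v
    have h1 : ENNReal.ofReal ((1 + ‖v‖) ^ k) ≤ ENNReal.ofReal (2 ^ k) * pw k v := by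
      unfold pw
      rw [← ENNReal.ofReal_mul (by positivity), ← mul_pow]
      apply ENNReal.ofReal_le_ofReal
      refine pow_le_pow_left₀ (by positivity) ?_ _
      nlinarith [sq_nonneg (‖v‖ - 1), norm_nonneg v]
    calc PB.CT.g1 b v * ENNReal.ofReal ((1 + ‖v‖) ^ k)
        ≤ PB.CT.g1 b v * (ENNReal.ofReal (2 ^ k) * pw k v) := by gcongr
      _ = ENNReal.ofReal (2 ^ k) * (pw k v * PB.CT.g1 b v) := by ring
      _ ≤ ENNReal.ofReal (2 ^ k) * (C * PB.CT.g1 (b / 2) v) := mul_le_mul_right (h v) _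
      _ = _ := by ring
  have h3 : Integrable (fun u : E3 => Real.exp (-(b / 2) * ‖u‖ ^ 2)) :=
    FL.integrable_gauss (by positivity)
  have h4 : ∫⁻ v : E3, PB.CT.g1 (b / 2) v ≠ ∞ := by
    unfold PB.CT.g1
    exact h3.lintegral_lt_top.ne
  refine ne_top_of_le_ne_top ?_ (lintegral_mono h0)
  rw [lintegral_const_mul' _ _ (ENNReal.mul_ne_top ENNReal.ofReal_ne_top hC)]
  exact ENNReal.mul_ne_top (ENNReal.mul_ne_top ENNReal.ofReal_ne_top hC) h4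

/-- The parameters of a node with a Gaussian velocity and a time in `[0, t]`. -/
theorem lintegral_nvol_vel {G : E3 → ℝ≥0∞} (hG : Measurable G) (t : ℝ) :
    ∫⁻ q : ND, ind (0 ≤ q.1 ∧ q.1 ≤ t) * G q.2.1 ∂nvol =
      ENNReal.ofReal t * ((∫⁻ v, G v) * volume (Metric.ball (0 : E2) 1)) := by
  rw [nvol_eq]
  have hi : Measurable fun s : ℝ => ind (0 ≤ s ∧ s ≤ t) :=
    measurable_ind ((measurableSet_le measurable_const measurable_id).inter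
      (measurableSet_le measurable_id measurable_const))
  have hG2 : Measurable fun y : E3 × E2 => G y.1 := hG.comp measurable_fst
  have h1 := lintegral_prod_mul (μ := (volume : Measure ℝ))
    (ν := (volume : Measure (E3 × E2)).restrict {y | ‖y.2‖ < 1})
    (f := fun s : ℝ => ind (0 ≤ s ∧ s ≤ t)) (g := fun y : E3 × E2 => G y.1)
    hi.aemeasurable hG2.aemeasurable
  refine h1.trans ?_
  congr 1
  · have h2 : ∀ s : ℝ, ind (0 ≤ s ∧ s ≤ t) = (Icc (0 : ℝ) t).indicator 1 s := by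
      intro s
      by_cases h : s ∈ Icc (0 : ℝ) t
      · rw [indicator_of_mem h, ind_of_true (mem_Icc.1 h)]; rfl
      · rw [indicator_of_notMem h, ind_of_false (fun h' => h (mem_Icc.2 h'))]
    simp_rw [h2]
    rw [lintegral_indicator_one measurableSet_Icc, Real.volume_Icc, sub_zero]
  · have hball : MeasurableSet (Metric.ball (0 : E2) 1) := Metric.isOpen_ball.measurableSet
    have hS : {y : E3 × E2 | ‖y.2‖ < 1} = univ ×ˢ Metric.ball (0 : E2) 1 := by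
      ext y
      simp
    rw [hS, Measure.volume_eq_prod, ← Measure.prod_restrict, Measure.restrict_univ]
    have h3 := lintegral_prod_mul (μ := (volume : Measure E3))
      (ν := (volume : Measure E2).restrict (Metric.ball (0 : E2) 1))
      (f := G) (g := fun _ => (1 : ℝ≥0∞)) hG.aemeasurable measurable_const.aemeasurable
    simp only [mul_one] at h3
    rw [h3, lintegral_one, Measure.restrict_apply_univ]

/-- The constant of one more collision. -/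
def cJ (t b : ℝ) (m : ℕ) : ℝ≥0∞ :=
  ENNReal.ofReal t * (gMom b (m + 1) * volume (Metric.ball (0 : E2) 1))

theorem cJ_ne_top (t : ℝ) {b : ℝ} (hb : 0 < b) (m : ℕ) : cJ t b m ≠ ∞ :=
  ENNReal.mul_ne_top ENNReal.ofReal_ne_top
    (ENNReal.mul_ne_top (gMom_ne_top hb (m + 1)) Metric.isBounded_ball.measure_lt_top.ne)

/-- **One more collision**, with an explicit constant. -/
theorem J_int_le (t b : ℝ) (m : ℕ) (k : Bool × Bool) (z : Ph × Ph) :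
    ∫⁻ q : ND, ‖(act k z).2 - q.2.1‖ₑ * (PB.CT.g1 b q.2.1 * ind (0 ≤ q.1 ∧ q.1 ≤ t) *
      ENNReal.ofReal ((1 + ‖z.1.2‖ + ‖z.2.2‖ + ‖q.2.1‖) ^ m)) ∂nvol ≤
      cJ t b m * ENNReal.ofReal ((1 + ‖z.1.2‖ + ‖z.2.2‖) ^ (m + 1)) := by
  set A : ℝ := 1 + ‖z.1.2‖ + ‖z.2.2‖ with hA
  have hA1 : 1 ≤ A := by
    rw [hA]
    linarith [norm_nonneg z.1.2, norm_nonneg z.2.2]
  have h1 : ∀ q : ND, ‖(act k z).2 - q.2.1‖ₑ * (PB.CT.g1 b q.2.1 * ind (0 ≤ q.1 ∧ q.1 ≤ t) *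
      ENNReal.ofReal ((A + ‖q.2.1‖) ^ m)) ≤ ENNReal.ofReal (A ^ (m + 1)) *
        (ind (0 ≤ q.1 ∧ q.1 ≤ t) *
          (PB.CT.g1 b q.2.1 * ENNReal.ofReal ((1 + ‖q.2.1‖) ^ (m + 1)))) := by
    intro q
    have hn := norm_nonneg q.2.1
    have h2 : ‖(act k z).2 - q.2.1‖ ≤ A * (1 + ‖q.2.1‖) := by
      have h3 := norm_sub_le (act k z).2 q.2.1
      have h4 := act_snd_le k z
      nlinarith
    have h5 : A + ‖q.2.1‖ ≤ A * (1 + ‖q.2.1‖) := by nlinarith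
    have h6 : ‖(act k z).2 - q.2.1‖ₑ * ENNReal.ofReal ((A + ‖q.2.1‖) ^ m) ≤
        ENNReal.ofReal (A ^ (m + 1)) * ENNReal.ofReal ((1 + ‖q.2.1‖) ^ (m + 1)) := by
      rw [← ofReal_norm, ← ENNReal.ofReal_mul (norm_nonneg _),
        ← ENNReal.ofReal_mul (by positivity), ← mul_pow]
      apply ENNReal.ofReal_le_ofReal
      calc ‖(act k z).2 - q.2.1‖ * (A + ‖q.2.1‖) ^ m
          ≤ (A * (1 + ‖q.2.1‖)) * (A * (1 + ‖q.2.1‖)) ^ m := by gcongr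
        _ = (A * (1 + ‖q.2.1‖)) ^ (m + 1) := by ring
    calc ‖(act k z).2 - q.2.1‖ₑ * (PB.CT.g1 b q.2.1 * ind (0 ≤ q.1 ∧ q.1 ≤ t) *
          ENNReal.ofReal ((A + ‖q.2.1‖) ^ m))
        = (‖(act k z).2 - q.2.1‖ₑ * ENNReal.ofReal ((A + ‖q.2.1‖) ^ m)) *
          (PB.CT.g1 b q.2.1 * ind (0 ≤ q.1 ∧ q.1 ≤ t)) := by ring
      _ ≤ (ENNReal.ofReal (A ^ (m + 1)) * ENNReal.ofReal ((1 + ‖q.2.1‖) ^ (m + 1))) *
          (PB.CT.g1 b q.2.1 * ind (0 ≤ q.1 ∧ q.1 ≤ t)) := by gcongr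
      _ = _ := by ring
  have hm : Measurable fun v : E3 => PB.CT.g1 b v * ENNReal.ofReal ((1 + ‖v‖) ^ (m + 1)) := by
    unfold PB.CT.g1
    fun_prop
  refine (lintegral_mono h1).trans ?_
  rw [lintegral_const_mul' _ _ ENNReal.ofReal_ne_top, lintegral_nvol_vel hm t]
  unfold cJ gMom
  rw [mul_comm]

theorem J_int (t : ℝ) {b : ℝ} (hb : 0 < b) (m : ℕ) : ∃ C : ℝ≥0∞, C ≠ ∞ ∧
    ∀ (k : Bool × Bool) (z : Ph × Ph),
      ∫⁻ q : ND, ‖(act k z).2 - q.2.1‖ₑ * (PB.CT.g1 b q.2.1 * ind (0 ≤ q.1 ∧ q.1 ≤ t) *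
        ENNReal.ofReal ((1 + ‖z.1.2‖ + ‖z.2.2‖ + ‖q.2.1‖) ^ m)) ∂nvol ≤
        C * ENNReal.ofReal ((1 + ‖z.1.2‖ + ‖z.2.2‖) ^ (m + 1)) :=
  ⟨cJ t b m, cJ_ne_top t hb m, J_int_le t b m⟩

theorem J_int_ne_top (t : ℝ) {b : ℝ} (hb : 0 < b) (m : ℕ) (k : Bool × Bool) (z : Ph × Ph) :
    ∫⁻ q : ND, ‖(act k z).2 - q.2.1‖ₑ * (PB.CT.g1 b q.2.1 * ind (0 ≤ q.1 ∧ q.1 ≤ t) *
      ENNReal.ofReal ((1 + ‖z.1.2‖ + ‖z.2.2‖ + ‖q.2.1‖) ^ m)) ∂nvol ≠ ∞ :=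
  ne_top_of_le_ne_top (ENNReal.mul_ne_top (cJ_ne_top t hb m) ENNReal.ofReal_ne_top)
    (J_int_le t b m k z)

/-! ### The mass of the chains -/

/-- The constant of the bound of `J`. -/
def CJ (t b : ℝ) : ℕ → ℝ≥0∞
  | 0 => 1
  | m + 1 => CJ t b m * cJ t b m

theorem CJ_ne_top (t : ℝ) {b : ℝ} (hb : 0 < b) : ∀ m : ℕ, CJ t b m ≠ ∞
  | 0 => ENNReal.one_ne_top
  | m + 1 => ENNReal.mul_ne_top (CJ_ne_top t hb m) (cJ_ne_top t hb m)

/-- **The mass of the chains is bounded**, with an explicit constant. -/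
theorem J_le_CJ (hΦ : IsPotential Φ) {b : ℝ} (hb : 0 < b) (t : ℝ) : ∀ (m : ℕ)
    (o : Fin m → Bool × Bool) {ε : ℝ} (_ : 0 < ε) (r : ℝ) (z : Ph × Ph),
    J Φ ε t r b m o z ≤ CJ t b m * ENNReal.ofReal ((1 + ‖z.1.2‖ + ‖z.2.2‖) ^ m)
  | 0, o, ε, hε, r, z => by
    rw [J_zero, pow_zero, ENNReal.ofReal_one, mul_one]
    exact ind_le_one _
  | m + 1, o, ε, hε, r, z => by
    rw [J_succ hΦ hε]
    have h1 : ∀ q : ND, ‖(act (o 0) z).2 - q.2.1‖ₑ * (PB.CT.g1 b q.2.1 *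
        ind (0 ≤ q.1 ∧ q.1 ≤ t) *
          J Φ ε t r b m (Fin.tail o) (stl Φ ε (o 0) z (hl ε (act (o 0) z) q))) ≤
        CJ t b m * (‖(act (o 0) z).2 - q.2.1‖ₑ * (PB.CT.g1 b q.2.1 *
          ind (0 ≤ q.1 ∧ q.1 ≤ t) *
            ENNReal.ofReal ((1 + ‖z.1.2‖ + ‖z.2.2‖ + ‖q.2.1‖) ^ m))) := by
      intro q
      have h2 := J_le_CJ hΦ hb t m (Fin.tail o) hε r
        (stl Φ ε (o 0) z (hl ε (act (o 0) z) q))
      have h3 := stl_le hΦ hε (o 0) z (hl ε (act (o 0) z) q)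
      rw [hl_snd] at h3
      have h4 : ENNReal.ofReal ((1 + ‖(stl Φ ε (o 0) z (hl ε (act (o 0) z) q)).1.2‖ +
          ‖(stl Φ ε (o 0) z (hl ε (act (o 0) z) q)).2.2‖) ^ m) ≤
          ENNReal.ofReal ((1 + ‖z.1.2‖ + ‖z.2.2‖ + ‖q.2.1‖) ^ m) := by
        apply ENNReal.ofReal_le_ofReal
        refine pow_le_pow_left₀ (by positivity) ?_ _
        linarith
      calc ‖(act (o 0) z).2 - q.2.1‖ₑ * (PB.CT.g1 b q.2.1 * ind (0 ≤ q.1 ∧ q.1 ≤ t) *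
            J Φ ε t r b m (Fin.tail o) (stl Φ ε (o 0) z (hl ε (act (o 0) z) q)))
          ≤ ‖(act (o 0) z).2 - q.2.1‖ₑ * (PB.CT.g1 b q.2.1 * ind (0 ≤ q.1 ∧ q.1 ≤ t) *
            (CJ t b m * ENNReal.ofReal ((1 + ‖z.1.2‖ + ‖z.2.2‖ + ‖q.2.1‖) ^ m))) := by
            gcongr
            exact h2.trans (by gcongr)
        _ = _ := by ring
    refine (lintegral_mono h1).trans ?_
    rw [lintegral_const_mul' _ _ (CJ_ne_top t hb m)]
    refine (mul_le_mul_right (J_int_le t b m (o 0) z) (CJ t b m)).trans (le_of_eq ?_)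
    rw [← mul_assoc]
    rfl

/-- **The mass of the chains is bounded**, uniformly in `ε` and `r`. -/
theorem J_le (hΦ : IsPotential Φ) {b : ℝ} (hb : 0 < b) (t : ℝ) (m : ℕ)
    (o : Fin m → Bool × Bool) : ∃ C : ℝ≥0∞, C ≠ ∞ ∧ ∀ ε > 0, ∀ (r : ℝ) (z : Ph × Ph),
      J Φ ε t r b m o z ≤ C * ENNReal.ofReal ((1 + ‖z.1.2‖ + ‖z.2.2‖) ^ m) :=
  ⟨CJ t b m, CJ_ne_top t hb m, fun _ hε r z => J_le_CJ hΦ hb t m o hε r z⟩

end Vale.Agent.P119.KT
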