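import Vale.Agent.P119.KT.ChainMass
import Vale.Agent.P119.KT.ChainBound
import Vale.Agent.P119.IND.Tail

/-!
# P119, block KT: the probability of a closed chain (`helper295`)

* `HasCL` : the world contains pairwise disjoint `ok` trees whose root lines are a chain `CL`;
* `mass_CL` : the mass of the chains of trees is at most `C ^ m * J`;
* `prob_CL_le` : the probability of `HasCL` is at most `C ^ m * ∑ o, J`;
* `tendsto_prob` : from finitely many pairs of lines which never meet, the probability of a closed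
  chain of bounded length tends to `0`.
-/

open MeasureTheory Filter Topology Set
open scoped ENNReal NNReal

noncomputable section

namespace Vale.Agent.P119.KT

open KU M CTree ML GC
open IND (Fresh InW okT)

variable {Φ : E3 → ℝ}

/-- Chains of pairwise disjoint trees, after which the two lines come close. -/
structure TCL (Φ : E3 → ℝ) (ε : ℝ) (L : ℕ) (t r : ℝ) (m : ℕ) (o : Fin m → Bool × Bool) (z : Ph × Ph)
    (S : Fin m → CTree) : Prop where
  fresh : Fresh Φ ε L S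
  ext_le : ∀ i, CTree.ext Φ ε (S i) ≤ t
  chain : CL Φ ε t r m o z fun i => ln Φ ε (S i)

/-- The world contains a closed chain of `m` pairwise disjoint trees. -/
def HasCL (Φ : E3 → ℝ) (ε : ℝ) (L : ℕ) (t r : ℝ) (m : ℕ) (W : Set Src) (z : Ph × Ph) : Prop :=
  ∃ (o : Fin m → Bool × Bool) (S : Fin m → CTree), Fresh Φ ε L S ∧
    (∀ i, CTree.ext Φ ε (S i) ≤ t) ∧ CL Φ ε t r m o z (fun i => ln Φ ε (S i)) ∧ InW W S

theorem measurableSet_TCL (hΦ : IsPotential Φ) {ε : ℝ} (hε : ε ≠ 0) (L : ℕ) (t r : ℝ) (m : ℕ)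
    (o : Fin m → Bool × Bool) (z : Ph × Ph) :
    MeasurableSet {S : Fin m → CTree | TCL Φ ε L t r m o z S} := by
  have e : {S : Fin m → CTree | TCL Φ ε L t r m o z S} =
      {S : Fin m → CTree | Fresh Φ ε L S} ∩
      ((⋂ k, {S : Fin m → CTree | CTree.ext Φ ε (S k) ≤ t}) ∩
      {S : Fin m → CTree | CL Φ ε t r m o z fun k => ln Φ ε (S k)}) := by
    ext S
    simp only [mem_inter_iff, mem_iInter, mem_ofPred_eq]
    exact ⟨fun h => ⟨h.1, h.2, h.3⟩, fun h => ⟨h.1, h.2.1, h.2.2⟩⟩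
  rw [e]
  refine (IND.measurableSet_fresh hΦ hε m).inter
    (MeasurableSet.inter (MeasurableSet.iInter fun k => measurableSet_le
      ((M.measurable_ext hΦ hε).comp (measurable_pi_apply k)) measurable_const) ?_)
  have h1 : Measurable fun S : Fin m → CTree => (z, fun k => ln Φ ε (S k)) := by
    refine measurable_const.prodMk ?_
    exact measurable_pi_iff.2 fun k => (M.measurable_ln hΦ hε).comp (measurable_pi_apply k)
  exact h1 (measurableSet_CL hΦ hε m o)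

/-- **The mass of the chains of trees.** -/
theorem mass_CL (hΦ : IsPotential Φ) {f₀ : Ph → ℝ} {κ b t M₀ : ℝ}
    (hg : GoodDatum f₀ κ) (hb : 0 < b) (ht : 0 ≤ t) (hM : 0 ≤ M₀)
    (hf : ∀ z, f₀ z ≤ M₀ * Real.exp (-b * ‖z.2‖ ^ 2)) (L : ℕ) :
    ∃ C : ℝ≥0∞, C ≠ ∞ ∧ ∀ ε : ℝ, 0 < ε → ∀ (r : ℝ) (m : ℕ) (o : Fin m → Bool × Bool) (z : Ph × Ph),
      (Measure.pi fun _ : Fin m => tree (GC.inten f₀ ε) L) {S | TCL Φ ε L t r m o z S} ≤
        C ^ m * J Φ ε t r (b / 2) m o z := by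
  obtain ⟨C, hC, h⟩ := IND.pi_lines_le hΦ hg hb ht hM hf L
  refine ⟨C, hC, fun ε hε r m o z => ?_⟩
  have hGm : Measurable fun p : Fin m → Ph => ind (CL Φ ε t r m o z p) :=
    measurable_ind ((measurable_const.prodMk measurable_id :
      Measurable fun p : Fin m → Ph => (z, p)) (measurableSet_CL hΦ hε.ne' m o))
  have h1 := h ε hε m _ hGm
  rw [← lintegral_indicator_one (measurableSet_TCL hΦ hε.ne' L t r m o z)]
  refine le_trans (lintegral_mono fun S => ?_) h1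
  by_cases hS : TCL Φ ε L t r m o z S
  · rw [indicator_of_mem (show S ∈ {S : Fin m → CTree | TCL Φ ε L t r m o z S} from hS),
      indicator_of_mem (show S ∈ {S : Fin m → CTree | ∀ k, S k ∈ okT Φ ε t} from
        fun k => ⟨hS.fresh.ok k, hS.ext_le k⟩), ind_of_true hS.chain]
    exact le_rfl
  · rw [indicator_of_notMem (show S ∉ {S : Fin m → CTree | TCL Φ ε L t r m o z S} from hS)]
    exact zero_le

/-- **The probability of a closed chain.** -/
theorem prob_CL_le (hΦ : IsPotential Φ) {f₀ : Ph → ℝ} {κ b t M₀ : ℝ}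
    (hg : GoodDatum f₀ κ) (hb : 0 < b) (ht : 0 ≤ t) (hM : 0 ≤ M₀)
    (hf : ∀ z, f₀ z ≤ M₀ * Real.exp (-b * ‖z.2‖ ^ 2)) (L : ℕ) :
    ∃ C : ℝ≥0∞, C ≠ ∞ ∧ ∀ ε : ℝ, 0 < ε → ∀ (r : ℝ) (m : ℕ) (z : Ph × Ph),
      PP f₀ ε {c | HasCL Φ ε L t r m (world (pts c : Set Ph)) z} ≤
        C ^ m * ∑ o : Fin m → Bool × Bool, J Φ ε t r (b / 2) m o z := by
  obtain ⟨C, hC, h⟩ := mass_CL hΦ hg hb ht hM hf L
  refine ⟨C, hC, fun ε hε r m z => ?_⟩
  have hfin : IsFiniteMeasure (inten f₀ ε) := isFiniteMeasure_inten hg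
  rw [Finset.mul_sum]
  refine le_trans ?_ (Finset.sum_le_sum fun o _ => h ε hε r m o z)
  rw [← tsum_fintype (L := .unconditional _)]
  refine IND.prob_diag_le (Φ := Φ) (ε := ε) (L := L) (ν := inten f₀ ε) (C := Cx ε)
    (measurableSet_Cx ε) (Cx_symm ε) (Cx_irrefl hε.le) (κ := Fin m → Bool × Bool) (m := fun _ => m)
    (D := fun o => {S | TCL Φ ε L t r m o z S})
    (fun o => measurableSet_TCL hΦ hε.ne' L t r m o z)
    (fun o S hS => hS.fresh) (Eventually.of_forall fun c hc => ?_)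
  obtain ⟨o, S, h1, h2, h3, h4⟩ := hc
  exact ⟨o, S, ⟨h1, h2, h3⟩, h4⟩

/-- **Closed chains of bounded length from finitely many pairs of lines which never meet.** -/
theorem tendsto_prob_of (hΦ : IsPotential Φ) {f₀ : Ph → ℝ} {κ b t M₀ : ℝ}
    (hg : GoodDatum f₀ κ) (hb : 0 < b) (ht : 0 ≤ t) (hM : 0 ≤ M₀)
    (hf : ∀ z, f₀ z ≤ M₀ * Real.exp (-b * ‖z.2‖ ^ 2)) (L : ℕ) {K : ℝ}
    (hJ : ∀ (m : ℕ) (o : Fin m → Bool × Bool) (z : LG × LG), nev z.1.1 z.2.1 →
      Tendsto (fun ε => J Φ ε t (K * ε) (b / 2) m o (latP ε z)) (𝓝[>] 0) (𝓝 0))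
    {Z : Set (LG × LG)} (hZ : Z.Finite) (hn : ∀ z ∈ Z, nev z.1.1 z.2.1) (N : ℕ) :
    Tendsto (fun ε => PP f₀ ε {c | ∃ z ∈ Z, ∃ m ≤ N,
      HasCL Φ ε L t (K * ε) m (world (pts c : Set Ph)) (latP ε z)}) (𝓝[>] 0) (𝓝 0) := by
  obtain ⟨C, hC, h⟩ := prob_CL_le hΦ hg hb ht hM hf L
  have h0 : ∀ z ∈ Z, ∀ m : ℕ, Tendsto (fun ε => C ^ m * ∑ o : Fin m → Bool × Bool,
      J Φ ε t (K * ε) (b / 2) m o (latP ε z)) (𝓝[>] 0) (𝓝 0) := by
    intro z hz m
    have h1 : Tendsto (fun ε => ∑ o : Fin m → Bool × Bool,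
        J Φ ε t (K * ε) (b / 2) m o (latP ε z)) (𝓝[>] 0) (𝓝 0) := by
      have h2 := tendsto_finsetSum (Finset.univ : Finset (Fin m → Bool × Bool))
        fun o _ => hJ m o z (hn z hz)
      simpa using h2
    have h3 := ENNReal.Tendsto.const_mul h1 (Or.inr (ENNReal.pow_ne_top hC : C ^ m ≠ ∞))
    rwa [mul_zero] at h3
  have h1 : Tendsto (fun ε => ∑ z ∈ hZ.toFinset, ∑ m ∈ Finset.range (N + 1),
      C ^ m * ∑ o : Fin m → Bool × Bool, J Φ ε t (K * ε) (b / 2) m o (latP ε z))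
      (𝓝[>] 0) (𝓝 0) := by
    have h2 := tendsto_finsetSum hZ.toFinset fun z hz =>
      tendsto_finsetSum (Finset.range (N + 1)) fun m _ => h0 z (hZ.mem_toFinset.1 hz) m
    simpa using h2
  refine tendsto_of_tendsto_of_tendsto_of_le_of_le' tendsto_const_nhds h1
    (Eventually.of_forall fun _ => zero_le) ?_
  filter_upwards [self_mem_nhdsWithin] with ε hε
  have e : {c : Conf Ph | ∃ z ∈ Z, ∃ m ≤ N,
      HasCL Φ ε L t (K * ε) m (world (pts c : Set Ph)) (latP ε z)} ⊆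
      ⋃ z ∈ hZ.toFinset, ⋃ m ∈ Finset.range (N + 1), {c : Conf Ph |
        HasCL Φ ε L t (K * ε) m (world (pts c : Set Ph)) (latP ε z)} := by
    rintro c ⟨z, hz, m, hm, hc⟩
    simp only [mem_iUnion]
    exact ⟨z, hZ.mem_toFinset.2 hz, m, Finset.mem_range.2 (Nat.lt_succ_of_le hm), hc⟩
  refine (measure_mono e).trans ((measure_biUnion_finset_le _ _).trans
    (Finset.sum_le_sum fun z _ => ?_))
  refine (measure_biUnion_finset_le _ _).trans (Finset.sum_le_sum fun m _ => ?_)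
  exact h ε hε (K * ε) m (latP ε z)

/-- The mass of the closed chains tends to `0` (`helper860`'s `tendsto_J_of` with `helper758`'s
bounds). -/
theorem CP.tendsto_J (hΦ : IsPotential Φ) {b : ℝ} (hb : 0 < b) (t K : ℝ) (m : ℕ)
    (o : Fin m → Bool × Bool) (z : LG × LG) (hz : nev z.1.1 z.2.1) :
    Tendsto (fun ε => J Φ ε t (K * ε) b m o (latP ε z)) (𝓝[>] 0) (𝓝 0) := by
  refine tendsto_J_of hΦ t K (fun m o => ?_) (fun ε hε k z l => ?_) (fun m k z => ?_) m o z hz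
  · obtain ⟨C, hC, h⟩ := J_le hΦ hb t m o
    exact ⟨C, hC, fun ε hε r z => h ε hε r z⟩
  · have h := stl_le hΦ hε k z l
    linarith
  · have h := J_int_ne_top t hb m k z
    have e : (fun q : ND => Jd t b m k z q) = fun q : ND => ‖(act k z).2 - q.2.1‖ₑ *
        (PB.CT.g1 b q.2.1 * ind (0 ≤ q.1 ∧ q.1 ≤ t) *
          ENNReal.ofReal ((1 + ‖z.1.2‖ + ‖z.2.2‖ + ‖q.2.1‖) ^ m)) := by
      funext q
      unfold Jd
      ring
    rw [e]
    exact h

/-- **Closed chains of bounded length from finitely many pairs of lines which never meet**: the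
probability tends to `0`. -/
theorem tendsto_prob (hΦ : IsPotential Φ) {f₀ : Ph → ℝ} {κ b t M₀ : ℝ}
    (hg : GoodDatum f₀ κ) (hb : 0 < b) (ht : 0 ≤ t) (hM : 0 ≤ M₀)
    (hf : ∀ z, f₀ z ≤ M₀ * Real.exp (-b * ‖z.2‖ ^ 2)) (L : ℕ) (K : ℝ)
    {Z : Set (LG × LG)} (hZ : Z.Finite) (hn : ∀ z ∈ Z, nev z.1.1 z.2.1) (N : ℕ) :
    Tendsto (fun ε => PP f₀ ε {c | ∃ z ∈ Z, ∃ m ≤ N,
      HasCL Φ ε L t (K * ε) m (world (pts c : Set Ph)) (latP ε z)}) (𝓝[>] 0) (𝓝 0) :=
  tendsto_prob_of hΦ hg hb ht hM hf L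
    (fun m o z hz => CP.tendsto_J hΦ (by positivity : 0 < b / 2) t K m o z hz) hZ hn N

end Vale.Agent.P119.KT
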