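import Vale.Agent.P119.KT.RelDet
import Vale.Agent.P119.KT.ChainProb
import Vale.Agent.P119.ML.Exp

/-!
# P119, block KT (`helper256`): the related first hitters of a generic forest vanish

* **`tendsto_RelP`**: `Gen Φ L F t` implies `RelP Φ ε L f₀ (trees Φ ε F) t → 0`;
* **`relZ`**, `relZ_of_kin`: the input `RelZ` of block ML.
-/

open MeasureTheory Filter Topology Set
open scoped ENNReal NNReal

noncomputable section

namespace Vale.Agent.P119.KT

open KU M CTree GC MM ML IND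

variable {Φ : E3 → ℝ} {L : ℕ}

/-- **The probability of a related first hitter of a generic forest tends to `0`.** -/
theorem tendsto_RelP (hΦ : IsPotential Φ) {f₀ : Ph → ℝ} {κ b M₀ : ℝ} (hg : GoodDatum f₀ κ)
    (hb : 0 < b) (hM : 0 ≤ M₀) (hf : ∀ z, f₀ z ≤ M₀ * Real.exp (-b * ‖z.2‖ ^ 2)) {F : List TG}
    {t : ℝ} (h : Gen Φ L F t) :
    Tendsto (fun ε => RelP Φ ε L f₀ (trees Φ ε F) t) (𝓝[>] 0) (𝓝 0) := by
  obtain ⟨K, -, hK⟩ := h.rel_chain hΦ
  have h1 := tendsto_prob hΦ hg hb h.pos.le hM hf L K (finite_LX (Φ := Φ) F t)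
    (fun z hz => hz.2.2) (2 * L)
  refine tendsto_of_tendsto_of_tendsto_of_le_of_le' tendsto_const_nhds h1
    (Eventually.of_forall fun _ => zero_le) ?_
  filter_upwards [hK] with ε hK
  unfold RelP
  calc ∫⁻ c, ind (∃ T', RelEv Φ ε L (trees Φ ε F) t (pts c) T') ∂(PP f₀ ε)
      ≤ ∫⁻ c, {c | ∃ z ∈ LX Φ F t, ∃ m ≤ 2 * L,
          HasCL Φ ε L t (K * ε) m (world (pts c : Set Ph)) (latP ε z)}.indicator 1 c
            ∂(PP f₀ ε) := by
        refine lintegral_mono fun c => ?_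
        by_cases hc : ∃ T', RelEv Φ ε L (trees Φ ε F) t (pts c) T'
        · obtain ⟨z, hz, m, hm, o, S, h2, h3, h4, h5⟩ := hK (pts c) hc
          rw [indicator_of_mem (by exact ⟨z, hz, m, hm, o, S, h2, h3, h4, h5⟩)]
          exact ind_le_one _
        · rw [ind_of_false hc]
          exact zero_le
    _ ≤ _ := lintegral_indicator_one_le _

/-- **`RelZ`**, from the Gaussian bound of the datum. -/
theorem relZ (hΦ : IsPotential Φ) {f₀ : Ph → ℝ} {κ b M₀ : ℝ} (hg : GoodDatum f₀ κ)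
    (hb : 0 < b) (hM : 0 ≤ M₀) (hf : ∀ z, f₀ z ≤ M₀ * Real.exp (-b * ‖z.2‖ ^ 2)) (L : ℕ) :
    RelZ Φ f₀ L := fun _ _ h => tendsto_RelP hΦ hg hb hM hf h

/-- **`RelZ`** for the datum of a kinetic family. -/
theorem relZ_of_kin {hΦ : IsPotential Φ} {f₀ : Ph → ℝ} {κ T : ℝ}
    {m₀ : Measurable fun p : E3 × E3 => K1.f0hat f₀ p.1 p.2} {f : ℝ → Ph → ℝ}
    (K : KE.KinFamily hΦ f₀ m₀ T f) (hg : GoodDatum f₀ κ) (L : ℕ) : RelZ Φ f₀ L :=
  relZ hΦ hg K.b0 K.M0 (f0_bound K) L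

end Vale.Agent.P119.KT
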