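import Vale.Agent.P119.KT.Frame
import Vale.Agent.P119.KU.Scat4

/-!
# P119, block KT (`helper256`): scattering of a pair of lines at scale `ε`

A phase point `(y, v)` codes the line `t ↦ y + t v`. `pm S ε` applies the reduced scattering `S`
at scale `ε` to the relative line of a pair of lines.
-/

open MeasureTheory Filter Topology Set
open scoped ENNReal NNReal RealInnerProductSpace

noncomputable section

namespace Vale.Agent.P119.KT

open Vale.Agent.P119.KU

variable {Φ : E3 → ℝ}

/-- The line `p` meets the open unit ball. -/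
def Hit (p : Ph) : Prop := ‖p.1‖ ^ 2 * ‖p.2‖ ^ 2 - (inner ℝ p.1 p.2 : ℝ) ^ 2 < ‖p.2‖ ^ 2

theorem Hit.ne {p : Ph} (h : Hit p) : p.2 ≠ 0 := by
  intro h0
  unfold Hit at h
  rw [h0] at h
  simp at h

theorem measurableSet_hit : MeasurableSet {p : Ph | Hit p} := by
  unfold Hit
  exact measurableSet_lt (by fun_prop) (by fun_prop)

/-- Lagrange's identity for the angular momentum. -/
theorem ang_sq_sum (p : Ph) :
    ‖p.1‖ ^ 2 * ‖p.2‖ ^ 2 - (inner ℝ p.1 p.2 : ℝ) ^ 2 =
      ang (EuclideanSpace.single 0 1) (EuclideanSpace.single 1 1) p ^ 2 +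
      ang (EuclideanSpace.single 0 1) (EuclideanSpace.single 2 1) p ^ 2 +
      ang (EuclideanSpace.single 1 1) (EuclideanSpace.single 2 1) p ^ 2 := by
  unfold ang
  rw [EuclideanSpace.real_norm_sq_eq, EuclideanSpace.real_norm_sq_eq]
  simp only [PiLp.inner_apply, Fin.sum_univ_three]
  simp
  ring

theorem hit_scat (hΦ : IsPotential Φ) (p : Ph) : Hit (scat Φ p) ↔ Hit p := by
  unfold Hit
  rw [ang_sq_sum, ang_sq_sum p, scat_ang hΦ, scat_ang hΦ, scat_ang hΦ, scat_snd_norm hΦ]

theorem hit_rev (p : Ph) : Hit (rev p) ↔ Hit p := by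
  unfold Hit rev
  simp

theorem hit_free (s : ℝ) (p : Ph) : Hit (free s p) ↔ Hit p := by
  have h : ∀ (a b : E3), ang a b (free s p) = ang a b p := by
    intro a b
    unfold ang free
    simp only [inner_add_right, inner_smul_right]
    ring
  unfold Hit
  rw [ang_sq_sum, ang_sq_sum p, h, h, h, free_snd]

theorem hit_frame {V : E3} (hV : V ≠ 0) (s : ℝ) (b : E2) :
    Hit (fr V b - s • V, V) ↔ ‖b‖ < 1 := by
  have h0 : ((fr V b - s • V, V) : Ph) = free (-s) (fr V b, V) := by
    unfold free; simp only [neg_smul]; rw [sub_eq_add_neg]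
  rw [h0, hit_free]
  unfold Hit
  simp only
  rw [inner_fr, norm_fr]
  have hp : 0 < ‖V‖ ^ 2 := by
    have := norm_pos_iff.2 hV; positivity
  constructor
  · intro h
    have h1 : ‖b‖ ^ 2 < 1 := by
      by_contra hc
      rw [not_lt] at hc
      nlinarith
    nlinarith [norm_nonneg b]
  · intro h
    have h1 : ‖b‖ ^ 2 < 1 := by nlinarith [norm_nonneg b]
    nlinarith

/-- Backward scattering. -/
def scatI (Φ : E3 → ℝ) (q : Ph) : Ph := rev (scat Φ (rev q))

theorem measurable_rev : Measurable rev := rev_preserving.measurable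

theorem measurable_scatI (hΦ : IsPotential Φ) : Measurable (scatI Φ) :=
  measurable_rev.comp ((measurable_scat hΦ).comp measurable_rev)

theorem measurePreserving_scatI (hΦ : IsPotential Φ) :
    MeasurePreserving (scatI Φ) (volume : Measure Ph) volume :=
  rev_preserving.comp ((measurePreserving_scat hΦ).comp rev_preserving)

theorem rev_free (s : ℝ) (p : Ph) : rev (free s p) = free (-s) (rev p) := by
  unfold rev free; simp

theorem scatI_free (hΦ : IsPotential Φ) (s : ℝ) (q : Ph) :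
    scatI Φ (free s q) = free s (scatI Φ q) := by
  unfold scatI
  rw [rev_free, scat_free hΦ, rev_free, neg_neg]

theorem scatI_scat (hΦ : IsPotential Φ) {p : Ph} (h : Exits Φ p) : scatI Φ (scat Φ p) = p := by
  unfold scatI
  rw [scat_rev_scat hΦ h, rev_rev]

theorem scat_scatI (hΦ : IsPotential Φ) {q : Ph} (h : Exits Φ (rev q)) :
    scat Φ (scatI Φ q) = q := by
  unfold scatI
  rw [scat_rev_scat hΦ h, rev_rev]

theorem scatI_snd_norm (hΦ : IsPotential Φ) (q : Ph) : ‖(scatI Φ q).2‖ = ‖q.2‖ := by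
  unfold scatI rev
  simp only [norm_neg]
  rw [scat_snd_norm hΦ]
  simp

theorem hit_scatI (hΦ : IsPotential Φ) (q : Ph) : Hit (scatI Φ q) ↔ Hit q := by
  unfold scatI
  rw [hit_rev, hit_scat hΦ, hit_rev]

/-! ### Dilations -/

/-- Dilation of the positions. -/
def dil (ε : ℝ) (p : Ph) : Ph := (ε • p.1, p.2)

theorem dil_dil {ε : ℝ} (hε : ε ≠ 0) (p : Ph) : dil ε (dil ε⁻¹ p) = p := by
  unfold dil; simp [smul_smul, hε]

theorem dil_dil' {ε : ℝ} (hε : ε ≠ 0) (p : Ph) : dil ε⁻¹ (dil ε p) = p := by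
  unfold dil; simp [smul_smul, hε]

theorem measurable_dil (ε : ℝ) : Measurable (dil ε) := by unfold dil; fun_prop

theorem lintegral_dil {ε : ℝ} (hε : ε ≠ 0) {g : Ph → ℝ≥0∞} (hg : Measurable g) :
    ∫⁻ p, g (dil ε p) = ENNReal.ofReal (|ε|⁻¹ ^ 3) * ∫⁻ p, g p := by
  have h1 : ∀ {f : E3 → ℝ≥0∞}, Measurable f →
      ∫⁻ x : E3, f (ε • x) = ENNReal.ofReal (|ε|⁻¹ ^ 3) * ∫⁻ x, f x := by
    intro f hf
    have h2 := Measure.map_addHaar_smul (volume : Measure E3) hε
    have h3 : ∫⁻ x : E3, f (ε • x) = ∫⁻ x, f x ∂(Measure.map (ε • ·) volume) := by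
      rw [lintegral_map hf (by fun_prop)]
    rw [h3, h2, lintegral_smul_measure, smul_eq_mul]
    congr 2
    rw [finrank_euclideanSpace, Fintype.card_fin, abs_inv, abs_pow, inv_pow]
  have hm : Measurable (fun p : Ph => g (dil ε p)) := hg.comp (measurable_dil ε)
  rw [Measure.volume_eq_prod, lintegral_prod_symm _ hm.aemeasurable,
    lintegral_prod_symm _ hg.aemeasurable, ← lintegral_const_mul _ hg.lintegral_prod_left']
  congr 1; funext v
  exact h1 (hg.comp (measurable_id.prodMk measurable_const))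

/-- Conjugation by a dilation preserves measure preservation. -/
theorem dil_conj {S : Ph → Ph} (hS : MeasurePreserving S (volume : Measure Ph) volume) {ε : ℝ}
    (hε : ε ≠ 0) : MeasurePreserving (fun p => dil ε (S (dil ε⁻¹ p))) (volume : Measure Ph)
      volume := by
  have hm : Measurable (fun p => dil ε (S (dil ε⁻¹ p))) :=
    (measurable_dil ε).comp (hS.measurable.comp (measurable_dil ε⁻¹))
  refine ⟨hm, ?_⟩
  ext B hB
  rw [Measure.map_apply hm hB, ← lintegral_indicator_one hB,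
    ← lintegral_indicator_one (hm hB)]
  have h1 : ((fun p => dil ε (S (dil ε⁻¹ p))) ⁻¹' B).indicator (1 : Ph → ℝ≥0∞) =
      fun p => (B.indicator (1 : Ph → ℝ≥0∞) ∘ dil ε ∘ S) (dil ε⁻¹ p) := by
    funext p; rfl
  have hB1 : Measurable (B.indicator (1 : Ph → ℝ≥0∞)) := measurable_one.indicator hB
  rw [h1, lintegral_dil (inv_ne_zero hε) (hB1.comp ((measurable_dil ε).comp hS.measurable))]
  have h2 : ∫⁻ p, (B.indicator (1 : Ph → ℝ≥0∞) ∘ dil ε ∘ S) p =
      ∫⁻ p, (B.indicator (1 : Ph → ℝ≥0∞) ∘ dil ε) p :=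
    hS.lintegral_comp (f := B.indicator (1 : Ph → ℝ≥0∞) ∘ dil ε) (hB1.comp (measurable_dil ε))
  rw [h2]
  have h3 := lintegral_dil hε hB1
  simp only [Function.comp_def]
  rw [h3, ← mul_assoc, ← ENNReal.ofReal_mul (by positivity), abs_inv, inv_inv, ← mul_pow,
    mul_inv_cancel₀ (abs_ne_zero.2 hε), one_pow, ENNReal.ofReal_one, one_mul]

/-! ### Pairs of lines -/

/-- Centre of mass and relative line. -/
def cr (q : Ph × Ph) : Ph × Ph := (q.1 - (1 / 2 : ℝ) • (q.1 - q.2), q.1 - q.2)

/-- The inverse of `cr`. -/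
def crI (q : Ph × Ph) : Ph × Ph := (q.1 + (1 / 2 : ℝ) • q.2, q.1 - (1 / 2 : ℝ) • q.2)

theorem crI_cr (q : Ph × Ph) : crI (cr q) = q := by
  unfold crI cr
  ext1
  · simp only; module
  · simp only; module

theorem cr_crI (q : Ph × Ph) : cr (crI q) = q := by
  unfold crI cr
  ext1
  · simp only; module
  · simp only; module

instance instHaarPh : (volume : Measure Ph).IsAddHaarMeasure :=
  inferInstanceAs ((volume : Measure E3).prod (volume : Measure E3)).IsAddHaarMeasure

theorem cr_preserving : MeasurePreserving cr (volume : Measure (Ph × Ph)) volume := by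
  have h1 : MeasurePreserving (fun q : Ph × Ph => (q.1, q.2 - q.1)) volume volume := by
    refine MeasurePreserving.skew_product (f := fun x : Ph => x) (g := fun x y => y - x)
      (MeasurePreserving.id _) (by fun_prop) ?_
    exact Eventually.of_forall fun x => (measurePreserving_sub_right volume x).map_eq
  have h2 : MeasurePreserving (fun q : Ph × Ph => (q.1, q.2 + (1 / 2 : ℝ) • q.1)) volume
      volume := by
    refine MeasurePreserving.skew_product (f := fun x : Ph => x)
      (g := fun x y => y + (1 / 2 : ℝ) • x) (MeasurePreserving.id _) (by fun_prop) ?_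
    exact Eventually.of_forall fun x => (measurePreserving_add_right volume _).map_eq
  have h3 : MeasurePreserving (Prod.swap : Ph × Ph → Ph × Ph) volume volume :=
    Measure.measurePreserving_swap
  have h4 := h3.comp (h2.comp (h3.comp (h1.comp h3)))
  have h5 : cr = Prod.swap ∘ (fun q : Ph × Ph => (q.1, q.2 + (1 / 2 : ℝ) • q.1)) ∘ Prod.swap ∘
      (fun q : Ph × Ph => (q.1, q.2 - q.1)) ∘ Prod.swap := by
    funext q
    unfold cr
    simp only [Function.comp_apply, Prod.swap_prod_mk, Prod.fst_swap, Prod.snd_swap]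
    ext1
    · simp only; module
    · simp only
  rw [h5]; exact h4

theorem crI_preserving : MeasurePreserving crI (volume : Measure (Ph × Ph)) volume := by
  have hm : Measurable crI := by unfold crI; fun_prop
  refine ⟨hm, ?_⟩
  nth_rewrite 1 [← cr_preserving.map_eq]
  rw [Measure.map_map hm cr_preserving.measurable]
  have : crI ∘ cr = id := funext crI_cr
  rw [this, Measure.map_id]

/-- The relative line, at unit scale. -/
def rel (ε : ℝ) (q : Ph × Ph) : Ph := dil ε⁻¹ (q.1 - q.2)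

theorem measurable_rel (ε : ℝ) : Measurable (rel ε) := by
  unfold rel; exact (measurable_dil _).comp (by fun_prop)

/-- The map of pairs of lines given by a map of relative lines. -/
def pm (S : Ph → Ph) (ε : ℝ) (q : Ph × Ph) : Ph × Ph :=
  crI ((cr q).1, dil ε (S (dil ε⁻¹ (cr q).2)))

theorem pm_preserving {S : Ph → Ph} (hS : MeasurePreserving S (volume : Measure Ph) volume)
    {ε : ℝ} (hε : ε ≠ 0) : MeasurePreserving (pm S ε) (volume : Measure (Ph × Ph)) volume := by
  have h1 : MeasurePreserving (fun q : Ph × Ph => (q.1, dil ε (S (dil ε⁻¹ q.2))))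
      (volume : Measure (Ph × Ph)) volume :=
    (MeasurePreserving.id (volume : Measure Ph)).prod (dil_conj hS hε)
  exact crI_preserving.comp (h1.comp cr_preserving)

theorem rel_pm {S : Ph → Ph} {ε : ℝ} (hε : ε ≠ 0) (q : Ph × Ph) :
    rel ε (pm S ε q) = S (rel ε q) := by
  have h := cr_crI ((cr q).1, dil ε (S (dil ε⁻¹ (cr q).2)))
  have h2 : (pm S ε q).1 - (pm S ε q).2 = dil ε (S (dil ε⁻¹ (cr q).2)) := congrArg Prod.snd h
  unfold rel
  rw [h2, dil_dil' hε]
  rfl

theorem pm_pm {S S' : Ph → Ph} {ε : ℝ} (hε : ε ≠ 0) {q : Ph × Ph}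
    (h : S' (S (rel ε q)) = rel ε q) : pm S' ε (pm S ε q) = q := by
  unfold pm
  rw [cr_crI]
  simp only [dil_dil' hε]
  have h1 : S' (S (dil ε⁻¹ (cr q).2)) = dil ε⁻¹ (cr q).2 := h
  rw [h1, dil_dil hε]
  exact crI_cr q

theorem ae_dil {ε : ℝ} (hε : ε ≠ 0) {P : Ph → Prop} (h : ∀ᵐ p : Ph, P p) :
    ∀ᵐ p : Ph, P (dil ε p) := by
  obtain ⟨t, ht, htm, ht0⟩ := exists_measurable_superset_of_null (ae_iff.1 h)
  have h1 := lintegral_dil hε (measurable_one.indicator htm : Measurable (t.indicator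
    (1 : Ph → ℝ≥0∞)))
  rw [lintegral_indicator_one htm, ht0, mul_zero] at h1
  have h2 : (volume : Measure Ph) (dil ε ⁻¹' t) = 0 := by
    rw [← lintegral_indicator_one (measurable_dil ε htm)]
    exact h1
  rw [ae_iff]
  refine measure_mono_null (t := dil ε ⁻¹' t) (fun p hp => ?_) h2
  have hp' : ¬ P (dil ε p) := hp
  exact ht hp'

theorem ae_rel {ε : ℝ} (hε : ε ≠ 0) {P : Ph → Prop} (h : ∀ᵐ p : Ph, P p) :
    ∀ᵐ q : Ph × Ph, P (rel ε q) := by
  have h1 : ∀ᵐ r : Ph, P (dil ε⁻¹ r) := ae_dil (inv_ne_zero hε) h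
  have h2 : ∀ᵐ q : Ph × Ph, P (dil ε⁻¹ q.2) :=
    (Measure.quasiMeasurePreserving_snd (μ := (volume : Measure Ph))
      (ν := (volume : Measure Ph))).ae h1
  exact cr_preserving.quasiMeasurePreserving.ae h2

theorem ae_exits_rel (hΦ : IsPotential Φ) {ε : ℝ} (hε : ε ≠ 0) :
    ∀ᵐ q : Ph × Ph, Exits Φ (rel ε q) := ae_rel hε (ae_exits hΦ)

/-- The change of variables between incoming and outgoing pairs of lines. -/
theorem lintegral_pair (hΦ : IsPotential Φ) {ε : ℝ} (hε : ε ≠ 0) {K : Ph × Ph → ℝ≥0∞}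
    (hK : Measurable K) :
    ∫⁻ q, {q | Hit (rel ε q) ∧ Exits Φ (rel ε q)}.indicator K q =
      ∫⁻ q, {q | Hit (rel ε q) ∧ Exits Φ (rev (rel ε q))}.indicator
        (fun q => K (pm (scatI Φ) ε q)) q := by
  have hpI := pm_preserving (measurePreserving_scatI hΦ) hε
  have hp := pm_preserving (measurePreserving_scat hΦ) hε
  have hA' : MeasurableSet {q : Ph × Ph | Hit (rel ε q) ∧ Exits Φ (rev (rel ε q))} :=
    (measurable_rel ε measurableSet_hit).inter
      ((measurable_rev.comp (measurable_rel ε)) (measurableSet_exits hΦ))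
  have hKI : Measurable (fun q => K (pm (scatI Φ) ε q)) := hK.comp hpI.measurable
  rw [← hp.lintegral_comp (hKI.indicator hA')]
  refine lintegral_congr_ae ?_
  filter_upwards [ae_exits_rel hΦ hε] with q h2
  have h3 : Exits Φ (rev (scat Φ (rel ε q))) := exits_rev_scat hΦ h2
  by_cases h1 : Hit (rel ε q)
  · rw [indicator_of_mem (by exact ⟨h1, h2⟩), indicator_of_mem (by
      refine ⟨?_, ?_⟩ <;> rw [rel_pm hε]
      · exact (hit_scat hΦ _).2 h1
      · exact h3), pm_pm hε (scatI_scat hΦ h2)]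
  · rw [indicator_of_notMem (fun h => h1 h.1), indicator_of_notMem (fun h => h1 (by
      have h4 := h.1
      rw [rel_pm hε, hit_scat hΦ] at h4
      exact h4))]

end Vale.Agent.P119.KT
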