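import Vale.Agent.P119.KT.Tree
import Vale.Agent.P119.KU.Scat11
import Vale.Agent.P119.M.Shape

/-!
# P119, block KT (`helper860`): link between the tree measure and the trees of the M-world

* `rel_eq_KU`, `pm_eq_sc2`, `hit_iff_meets`: the pair maps of KT are those of KU;
* `ldEquiv`, `mkL`: leaf data as functions on `Fin card`, and the tree of the leaf data;
* `ln_mkL`, `ln_mkL_bk`: the root line;
* `hitT_inLines`, `sepT_inLines`: contact and separation times at a node;
* `ok_mkL_bk_iff`: the geometric conditions in the backward parameters.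
-/

open MeasureTheory Filter Topology Set
open scoped ENNReal NNReal RealInnerProductSpace

noncomputable section

namespace Vale.Agent.P119.KT

open Vale.Agent.P119.KU
open Vale.Agent.P119.M (Shape)

variable {Φ : E3 → ℝ} {ε : ℝ}

/-! ### Pairs -/

theorem rel_eq_KU (ε : ℝ) (q : Ph × Ph) : rel ε q = KU.rel ε q := rfl

theorem pm_eq_sc2 (ε : ℝ) (q : Ph × Ph) : pm (scat Φ) ε q = sc2 Φ ε q := by
  have h : dil ε⁻¹ (cr q).2 = KU.rel ε q := rfl
  unfold pm sc2
  rw [h]
  unfold crI cr dil mk2 com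
  ext1
  · ext1
    · simp only [Prod.fst_add, Prod.fst_sub, Prod.smul_fst]
      module
    · simp only [Prod.snd_add, Prod.snd_sub, Prod.smul_snd]
      module
  · ext1
    · simp only [Prod.fst_sub, Prod.smul_fst]
      module
    · simp only [Prod.snd_sub, Prod.smul_snd]
      module

theorem hit_iff_perp {p : Ph} : Hit p ↔ p.2 ≠ 0 ∧ ‖perp p‖ < 1 := by
  by_cases h0 : p.2 = 0
  · constructor
    · intro h; exact absurd h0 h.ne
    · intro h; exact absurd h0 h.1
  have hV : 0 < ‖p.2‖ ^ 2 := by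
    have := norm_pos_iff.2 h0; positivity
  have h1 : ‖perp p‖ ^ 2 * ‖p.2‖ ^ 2 = ‖p.1‖ ^ 2 * ‖p.2‖ ^ 2 - (inner ℝ p.1 p.2 : ℝ) ^ 2 := by
    have h2 : ‖perp p‖ ^ 2 = ‖p.1‖ ^ 2 - 2 * (crd p * inner ℝ p.1 p.2) + crd p ^ 2 * ‖p.2‖ ^ 2 := by
      unfold perp
      rw [norm_sub_sq_real, inner_smul_right, norm_smul, mul_pow, Real.norm_eq_abs, sq_abs]
    have h3 : crd p * ‖p.2‖ ^ 2 = inner ℝ p.1 p.2 := by
      unfold crd
      exact div_mul_cancel₀ _ hV.ne'
    rw [h2]
    have h4 : crd p ^ 2 * ‖p.2‖ ^ 2 = crd p * inner ℝ p.1 p.2 := by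
      rw [← h3]; ring
    rw [h4]
    have h5 : crd p * inner ℝ p.1 p.2 * ‖p.2‖ ^ 2 = (inner ℝ p.1 p.2 : ℝ) ^ 2 := by
      rw [← h3]; ring
    linear_combination -h5
  unfold Hit
  rw [← h1]
  constructor
  · intro h
    refine ⟨h0, ?_⟩
    have h2 : ‖perp p‖ ^ 2 < 1 := by
      by_contra hc
      rw [not_lt] at hc
      nlinarith
    nlinarith [norm_nonneg (perp p)]
  · rintro ⟨-, h⟩
    have h2 : ‖perp p‖ ^ 2 < 1 := by nlinarith [norm_nonneg (perp p)]
    nlinarith

theorem hit_iff_meets (ε : ℝ) (q : Ph × Ph) : Hit (rel ε q) ↔ Meets ε q := hit_iff_perp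

/-! ### Leaf data as functions on `Fin card` -/

/-- Concatenation. -/
def joinE (m n : ℕ) : ((Fin m → Ph) × (Fin n → Ph)) ≃ᵐ (Fin (m + n) → Ph) :=
  (MeasurableEquiv.sumPiEquivProdPi (fun _ : Fin m ⊕ Fin n => Ph)).symm.trans
    (MeasurableEquiv.piCongrLeft (fun _ : Fin (m + n) => Ph) finSumFinEquiv)

theorem joinE_castAdd {m n : ℕ} (q : (Fin m → Ph) × (Fin n → Ph)) (i : Fin m) :
    joinE m n q (Fin.castAdd n i) = q.1 i := by
  have h := Equiv.piCongrLeft_apply_apply (fun _ : Fin (m + n) => Ph) finSumFinEquiv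
    ((MeasurableEquiv.sumPiEquivProdPi (fun _ : Fin m ⊕ Fin n => Ph)).symm q) (Sum.inl i)
  rw [finSumFinEquiv_apply_left] at h
  exact h

theorem joinE_natAdd {m n : ℕ} (q : (Fin m → Ph) × (Fin n → Ph)) (i : Fin n) :
    joinE m n q (Fin.natAdd m i) = q.2 i := by
  have h := Equiv.piCongrLeft_apply_apply (fun _ : Fin (m + n) => Ph) finSumFinEquiv
    ((MeasurableEquiv.sumPiEquivProdPi (fun _ : Fin m ⊕ Fin n => Ph)).symm q) (Sum.inr i)
  rw [finSumFinEquiv_apply_right] at h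
  exact h

theorem joinE_preserving (m n : ℕ) :
    MeasurePreserving (joinE m n) ((volume : Measure (Fin m → Ph)).prod volume) volume :=
  (volume_measurePreserving_piCongrLeft (fun _ : Fin (m + n) => Ph) finSumFinEquiv).comp
    (volume_measurePreserving_sumPiEquivProdPi_symm (fun _ : Fin m ⊕ Fin n => Ph))

/-- The leaf data as a function on `Fin card`. -/
def ldEquiv : (τ : Shape) → LD τ ≃ᵐ (Fin τ.card → Ph)
  | .leaf => (MeasurableEquiv.funUnique (Fin 1) Ph).symm
  | .node a b => ((ldEquiv a).prodCongr (ldEquiv b)).trans (joinE a.card b.card)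

theorem ldEquiv_leaf (z : Ph) (i : Fin 1) : ldEquiv .leaf z i = z := rfl

theorem ldEquiv_castAdd (a b : Shape) (z : LD a × LD b) (i : Fin a.card) :
    ldEquiv (.node a b) z (Fin.castAdd b.card i) = ldEquiv a z.1 i :=
  joinE_castAdd (ldEquiv a z.1, ldEquiv b z.2) i

theorem ldEquiv_natAdd (a b : Shape) (z : LD a × LD b) (i : Fin b.card) :
    ldEquiv (.node a b) z (Fin.natAdd a.card i) = ldEquiv b z.2 i :=
  joinE_natAdd (ldEquiv a z.1, ldEquiv b z.2) i

theorem ldEquiv_preserving : ∀ τ : Shape, MeasurePreserving (ldEquiv τ) (vol τ) volume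
  | .leaf => (volume_preserving_funUnique (Fin 1) Ph).symm _
  | .node a b =>
    (joinE_preserving a.card b.card).comp
      ((ldEquiv_preserving a).prod (ldEquiv_preserving b))

/-- The tree of the leaf data. -/
def mkL : (τ : Shape) → LD τ → M.CTree
  | .leaf, z => .leaf (M.src z)
  | .node a b, z => .node (mkL a z.1) (mkL b z.2)

theorem mkL_eq_ord : ∀ (τ : Shape) (z : LD τ), mkL τ z = τ.ord (ldEquiv τ z)
  | .leaf, z => rfl
  | .node a b, z => by
    have h1 : mkL a z.1 =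
        (M.Shape.mk a) fun i => M.src (ldEquiv (.node a b) z (Fin.castAdd b.card i)) :=
      (mkL_eq_ord a z.1).trans
        (congrArg (M.Shape.mk a) (funext fun i => congrArg M.src (ldEquiv_castAdd a b z i).symm))
    have h2 : mkL b z.2 =
        (M.Shape.mk b) fun i => M.src (ldEquiv (.node a b) z (Fin.natAdd a.card i)) :=
      (mkL_eq_ord b z.2).trans
        (congrArg (M.Shape.mk b) (funext fun i => congrArg M.src (ldEquiv_natAdd a b z i).symm))
    exact congrArg₂ M.CTree.node h1 h2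

/-- Integrals over the leaf data. -/
theorem lintegral_ord (τ : Shape) (F : M.CTree → ℝ≥0∞) (g : (Fin τ.card → Ph) → ℝ≥0∞) :
    ∫⁻ z : Fin τ.card → Ph, g z * F (τ.ord z) =
      ∫⁻ z, g (ldEquiv τ z) * F (mkL τ z) ∂vol τ := by
  rw [← (ldEquiv_preserving τ).lintegral_comp_emb (ldEquiv τ).measurableEmbedding]
  refine lintegral_congr fun z => ?_
  rw [mkL_eq_ord]

/-- The product of a function over the leaves. -/
def lprod (g : Ph → ℝ≥0∞) : (τ : Shape) → LD τ → ℝ≥0∞
  | .leaf, z => g z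
  | .node a b, z => lprod g a z.1 * lprod g b z.2

theorem lprod_eq (g : Ph → ℝ≥0∞) : ∀ (τ : Shape) (z : LD τ), lprod g τ z = ∏ i, g (ldEquiv τ z i)
  | .leaf, z => by
    exact (Fin.prod_univ_one (fun i : Fin 1 => g (ldEquiv .leaf z i))).symm
  | .node a b, z => by
    have h1 : lprod g a z.1 =
        ∏ i, g (ldEquiv (.node a b) z (Fin.castAdd b.card i)) :=
      (lprod_eq g a z.1).trans
        (Finset.prod_congr rfl fun i _ => congrArg g (ldEquiv_castAdd a b z i).symm)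
    have h2 : lprod g b z.2 =
        ∏ i, g (ldEquiv (.node a b) z (Fin.natAdd a.card i)) :=
      (lprod_eq g b z.2).trans
        (Finset.prod_congr rfl fun i _ => congrArg g (ldEquiv_natAdd a b z i).symm)
    exact (congrArg₂ (· * ·) h1 h2).trans (Fin.prod_univ_add
      (fun i : Fin (a.card + b.card) => g (ldEquiv (.node a b) z i))).symm

theorem measurable_lprod {g : Ph → ℝ≥0∞} (hg : Measurable g) :
    ∀ τ : Shape, Measurable (lprod g τ)
  | .leaf => hg
  | .node a b => ((measurable_lprod hg a).comp measurable_fst).mul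
      ((measurable_lprod hg b).comp measurable_snd)

/-! ### The root line -/

open M.CTree in
theorem ln_mkL (ε : ℝ) : ∀ (τ : Shape) (z : LD τ), ln Φ ε (mkL τ z) = root Φ ε τ z
  | .leaf, z => rfl
  | .node a b, z => by
    change (sc2 Φ ε (ln Φ ε (mkL a z.1), ln Φ ε (mkL b z.2))).1 =
      (pm (scat Φ) ε (root Φ ε a z.1, root Φ ε b z.2)).1
    rw [ln_mkL ε a, ln_mkL ε b, pm_eq_sc2]

theorem root_bk (hΦ : IsPotential Φ) (hε : ε ≠ 0) :
    ∀ (τ : Shape) (L : Ph) (p : PD τ), good Φ τ L.2 p → root Φ ε τ (bk Φ ε τ L p) = L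
  | .leaf, L, _, _ => rfl
  | .node a b, L, p, h => by
    obtain ⟨h1, h2, h3⟩ := h
    have hv := inLines_vel (Φ := Φ) ε L p.1
    have ha := root_bk hΦ hε a (inLines Φ ε L p.1).1 p.2.1 (by rw [hv.1]; exact h2)
    have hb := root_bk hΦ hε b (inLines Φ ε L p.1).2 p.2.2 (by rw [hv.2]; exact h3)
    change (pm (scat Φ) ε (root Φ ε a (bk Φ ε a (inLines Φ ε L p.1).1 p.2.1),
      root Φ ε b (bk Φ ε b (inLines Φ ε L p.1).2 p.2.2))).1 = L
    rw [ha, hb]
    have h4 := pm_inLines hΦ hε L (q := p.1) h1.2.2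
    rw [show ((inLines Φ ε L p.1).1, (inLines Φ ε L p.1).2) = inLines Φ ε L p.1 from rfl, h4]

open M.CTree in
theorem ln_mkL_bk (hΦ : IsPotential Φ) (hε : ε ≠ 0) (τ : Shape) (L : Ph) (p : PD τ)
    (h : good Φ τ L.2 p) : ln Φ ε (mkL τ (bk Φ ε τ L p)) = L := by
  rw [ln_mkL, root_bk hΦ hε τ L p h]

theorem nw_ne_zero_iff {v : E3} {q : ND} : nw Φ v q ≠ 0 ↔ q ∈ gn Φ v := by
  by_cases h : q ∈ gn Φ v
  · rw [nw_of_mem h]
    exact ⟨fun _ => h, fun _ => by rw [Ne, enorm_eq_zero]; exact h.1⟩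
  · rw [nw_of_notMem h]
    exact ⟨fun h' => absurd rfl h', fun h' => absurd h' h⟩

theorem wt_ne_zero_iff : ∀ (τ : Shape) (v : E3) (p : PD τ), wt Φ τ v p ≠ 0 ↔ good Φ τ v p
  | .leaf, v, p => ⟨fun _ => trivial, fun _ => one_ne_zero⟩
  | .node a b, v, p => by
    change nw Φ v p.1 * (wt Φ a (inVel Φ v p.1).1 p.2.1 * wt Φ b (inVel Φ v p.1).2 p.2.2) ≠ 0 ↔
      (v - p.1.2.1 ≠ 0 ∧ ‖p.1.2.2‖ < 1 ∧ Exits Φ (rev (outRel v p.1))) ∧
      good Φ a (inVel Φ v p.1).1 p.2.1 ∧ good Φ b (inVel Φ v p.1).2 p.2.2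
    rw [mul_ne_zero_iff, mul_ne_zero_iff, wt_ne_zero_iff a, wt_ne_zero_iff b, nw_ne_zero_iff]
    rfl

/-! ### Times at a node -/

theorem rel_inLines (hΦ : IsPotential Φ) (hε : ε ≠ 0) (L : Ph) (q : ND) :
    KU.rel ε (inLines Φ ε L q) = free (-(q.1 / ε)) (inRel Φ L.2 q) := by
  rw [← rel_eq_KU, ← pm_exLine hΦ hε, rel_pm hε, rel_exLine hε, scatI_free hΦ, inRel_def]

theorem norm_inRel (hΦ : IsPotential Φ) (v : E3) (q : ND) :
    ‖(inRel Φ v q).2‖ = ‖v - q.2.1‖ := by
  rw [inRel_def, scatI_snd_norm hΦ, outRel_snd]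

theorem crd_outRel (v : E3) (q : ND) : crd (outRel v q) = 0 := by
  refine crd_of_inner ?_
  rw [outRel_fst, outRel_snd]
  exact inner_fr _

theorem perp_outRel (v : E3) (q : ND) : perp (outRel v q) = fr (v - q.2.1) q.2.2 := by
  have h : (inner ℝ (outRel v q).1 (outRel v q).2 : ℝ) = 0 := by
    rw [outRel_fst, outRel_snd]; exact inner_fr _
  rw [perp_of_inner h, outRel_fst]

theorem half_outRel (v : E3) (q : ND) :
    half (outRel v q) = √(1 - ‖q.2.2‖ ^ 2) / ‖v - q.2.1‖ := by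
  unfold half
  rw [perp_outRel, norm_fr, outRel_snd]

theorem scat_inRel (hΦ : IsPotential Φ) {v : E3} {q : ND} (h : q ∈ gn Φ v) :
    scat Φ (inRel Φ v q) = outRel v q := by
  rw [inRel_def]
  exact scat_scatI hΦ h.2.2

theorem half_inRel (hΦ : IsPotential Φ) {v : E3} {q : ND} (h : q ∈ gn Φ v) :
    half (inRel Φ v q) = half (outRel v q) := by
  rw [← half_scat hΦ, scat_inRel hΦ h]

/-- The contact time at a node. -/
theorem hitT_inLines (hΦ : IsPotential Φ) (hε : ε ≠ 0) {L : Ph} {q : ND} (h : q ∈ gn Φ L.2) :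
    hitT ε (inLines Φ ε L q) = q.1 + ε * tin (inRel Φ L.2 q) := by
  have hne : (inRel Φ L.2 q).2 ≠ 0 := by
    rw [← norm_ne_zero_iff, norm_inRel hΦ]
    exact norm_ne_zero_iff.2 h.1
  unfold hitT
  rw [rel_inLines hΦ hε, tin_free hne]
  field_simp
  ring

/-- The separation time at a node. -/
theorem sepT_inLines (hΦ : IsPotential Φ) (hε : ε ≠ 0) {L : Ph} {q : ND} (h : q ∈ gn Φ L.2) :
    sepT Φ ε (inLines Φ ε L q) = q.1 + ε * half (outRel L.2 q) := by
  have hne : (inRel Φ L.2 q).2 ≠ 0 := by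
    rw [← norm_ne_zero_iff, norm_inRel hΦ]
    exact norm_ne_zero_iff.2 h.1
  have h1 : tout Φ (inRel Φ L.2 q) = half (outRel L.2 q) := by
    unfold tout
    rw [scat_inRel hΦ h, crd_outRel, half_inRel hΦ h, neg_zero, zero_add]
  unfold sepT
  rw [rel_inLines hΦ hε, tout_free hΦ hne, h1]
  field_simp
  ring

theorem tin_inRel (hΦ : IsPotential Φ) {v : E3} {q : ND} (h : q ∈ gn Φ v) :
    tin (inRel Φ v q) = -crd (inRel Φ v q) - half (outRel v q) := by
  unfold tin
  rw [half_inRel hΦ h]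

theorem measurable_half_outRel : Measurable fun x : E3 × ND => half (outRel x.1 x.2) :=
  measurable_half.comp measurable_outRel

theorem measurable_tin_inRel (hΦ : IsPotential Φ) :
    Measurable fun x : E3 × ND => tin (inRel Φ x.1 x.2) :=
  measurable_tin.comp (measurable_inRel hΦ)

/-! ### The geometric conditions -/

/-- The end of the last collision, from the leaf data. -/
def exL (Φ : E3 → ℝ) (ε : ℝ) : (τ : Shape) → LD τ → ℝ
  | .leaf, _ => 0
  | .node a b, z => sepT Φ ε (root Φ ε a z.1, root Φ ε b z.2)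

/-- The conditions on the times, from the leaf data. -/
def tokL (Φ : E3 → ℝ) (ε : ℝ) : (τ : Shape) → LD τ → Prop
  | .leaf, _ => True
  | .node a b, z => (tokL Φ ε a z.1 ∧ tokL Φ ε b z.2) ∧
      exL Φ ε a z.1 < hitT ε (root Φ ε a z.1, root Φ ε b z.2) ∧
      exL Φ ε b z.2 < hitT ε (root Φ ε a z.1, root Φ ε b z.2)

/-- The end of the last collision, in the backward parameters. -/
def ex (ε : ℝ) : (τ : Shape) → E3 → PD τ → ℝ
  | .leaf, _, _ => 0
  | .node _ _, v, p => p.1.1 + ε * half (outRel v p.1)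

/-- The beginning of the last collision, in the backward parameters. -/
def sg (Φ : E3 → ℝ) (ε : ℝ) : (τ : Shape) → E3 → PD τ → ℝ
  | .leaf, _, _ => 0
  | .node _ _, v, p => p.1.1 + ε * tin (inRel Φ v p.1)

/-- The conditions on the times, in the backward parameters. -/
def tok (Φ : E3 → ℝ) (ε : ℝ) : (τ : Shape) → E3 → PD τ → Prop
  | .leaf, _, _ => True
  | .node a b, v, p => (tok Φ ε a (inVel Φ v p.1).1 p.2.1 ∧ tok Φ ε b (inVel Φ v p.1).2 p.2.2) ∧
      ex ε a (inVel Φ v p.1).1 p.2.1 < p.1.1 + ε * tin (inRel Φ v p.1) ∧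
      ex ε b (inVel Φ v p.1).2 p.2.2 < p.1.1 + ε * tin (inRel Φ v p.1)

open M.CTree in
theorem ext_mkL (ε : ℝ) : ∀ (τ : Shape) (z : LD τ), ext Φ ε (mkL τ z) = exL Φ ε τ z
  | .leaf, z => rfl
  | .node a b, z => by
    change sepT Φ ε (ln Φ ε (mkL a z.1), ln Φ ε (mkL b z.2)) =
      sepT Φ ε (root Φ ε a z.1, root Φ ε b z.2)
    rw [ln_mkL, ln_mkL]

theorem exL_bk (hΦ : IsPotential Φ) (hε : ε ≠ 0) :
    ∀ (τ : Shape) (L : Ph) (p : PD τ), good Φ τ L.2 p → exL Φ ε τ (bk Φ ε τ L p) = ex ε τ L.2 p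
  | .leaf, _, _, _ => rfl
  | .node a b, L, p, h => by
    obtain ⟨h1, h2, h3⟩ := h
    have hv := inLines_vel (Φ := Φ) ε L p.1
    have ha := root_bk hΦ hε a (inLines Φ ε L p.1).1 p.2.1 (by rw [hv.1]; exact h2)
    have hb := root_bk hΦ hε b (inLines Φ ε L p.1).2 p.2.2 (by rw [hv.2]; exact h3)
    change sepT Φ ε (root Φ ε a (bk Φ ε a (inLines Φ ε L p.1).1 p.2.1),
      root Φ ε b (bk Φ ε b (inLines Φ ε L p.1).2 p.2.2)) = p.1.1 + ε * half (outRel L.2 p.1)
    rw [ha, hb]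
    exact sepT_inLines hΦ hε h1

theorem tokL_bk (hΦ : IsPotential Φ) (hε : ε ≠ 0) :
    ∀ (τ : Shape) (L : Ph) (p : PD τ), good Φ τ L.2 p →
      (tokL Φ ε τ (bk Φ ε τ L p) ↔ tok Φ ε τ L.2 p)
  | .leaf, _, _, _ => Iff.rfl
  | .node a b, L, p, h => by
    obtain ⟨h1, h2, h3⟩ := h
    have hv := inLines_vel (Φ := Φ) ε L p.1
    have ga : good Φ a (inLines Φ ε L p.1).1.2 p.2.1 := by rw [hv.1]; exact h2
    have gb : good Φ b (inLines Φ ε L p.1).2.2 p.2.2 := by rw [hv.2]; exact h3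
    have ha := root_bk hΦ hε a _ _ ga
    have hb := root_bk hΦ hε b _ _ gb
    have ta := tokL_bk hΦ hε a _ _ ga
    have tb := tokL_bk hΦ hε b _ _ gb
    have ea := exL_bk hΦ hε a _ _ ga
    have eb := exL_bk hΦ hε b _ _ gb
    rw [hv.1] at ta ea
    rw [hv.2] at tb eb
    change (tokL Φ ε a (bk Φ ε a (inLines Φ ε L p.1).1 p.2.1) ∧
      tokL Φ ε b (bk Φ ε b (inLines Φ ε L p.1).2 p.2.2)) ∧
      exL Φ ε a (bk Φ ε a (inLines Φ ε L p.1).1 p.2.1) <
        hitT ε (root Φ ε a (bk Φ ε a (inLines Φ ε L p.1).1 p.2.1),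
          root Φ ε b (bk Φ ε b (inLines Φ ε L p.1).2 p.2.2)) ∧
      exL Φ ε b (bk Φ ε b (inLines Φ ε L p.1).2 p.2.2) <
        hitT ε (root Φ ε a (bk Φ ε a (inLines Φ ε L p.1).1 p.2.1),
          root Φ ε b (bk Φ ε b (inLines Φ ε L p.1).2 p.2.2)) ↔ _
    rw [ha, hb, ta, tb, ea, eb, show ((inLines Φ ε L p.1).1, (inLines Φ ε L p.1).2) =
      inLines Φ ε L p.1 from rfl, hitT_inLines hΦ hε h1]
    rfl

theorem bk_mem_col (hΦ : IsPotential Φ) (hε : ε ≠ 0) :
    ∀ (τ : Shape) (L : Ph) (p : PD τ), good Φ τ L.2 p → bk Φ ε τ L p ∈ col Φ ε τ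
  | .leaf, _, _, _ => mem_univ _
  | .node a b, L, p, h => by
    obtain ⟨h1, h2, h3⟩ := h
    have hv := inLines_vel (Φ := Φ) ε L p.1
    have ga : good Φ a (inLines Φ ε L p.1).1.2 p.2.1 := by rw [hv.1]; exact h2
    have gb : good Φ b (inLines Φ ε L p.1).2.2 p.2.2 := by rw [hv.2]; exact h3
    have ha := root_bk hΦ hε a _ _ ga
    have hb := root_bk hΦ hε b _ _ gb
    refine ⟨⟨bk_mem_col hΦ hε a _ _ ga, bk_mem_col hΦ hε b _ _ gb⟩, ?_⟩
    change Hit (rel ε (root Φ ε a (bk Φ ε a (inLines Φ ε L p.1).1 p.2.1),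
      root Φ ε b (bk Φ ε b (inLines Φ ε L p.1).2 p.2.2))) ∧
      Exits Φ (rel ε (root Φ ε a (bk Φ ε a (inLines Φ ε L p.1).1 p.2.1),
      root Φ ε b (bk Φ ε b (inLines Φ ε L p.1).2 p.2.2)))
    rw [ha, hb, show ((inLines Φ ε L p.1).1, (inLines Φ ε L p.1).2) =
      inLines Φ ε L p.1 from rfl, rel_eq_KU, rel_inLines hΦ hε, hit_free, exits_free hΦ, inRel_def,
      hit_scatI hΦ]
    constructor
    · rw [hit_iff_perp, perp_outRel, norm_fr, outRel_snd]
      exact ⟨h1.1, h1.2.1⟩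
    · have h4 := exits_rev_scat hΦ (p := rev (outRel L.2 p.1)) h1.2.2
      exact h4

theorem leaves_mkL (τ : Shape) (z : LD τ) :
    (mkL τ z).leaves = M.src '' range (ldEquiv τ z) := by
  rw [mkL_eq_ord, M.Shape.leaves_ord]

theorem injective_node_iff (a b : Shape) (z : LD a × LD b) :
    Function.Injective (ldEquiv (.node a b) z) ↔
      Function.Injective (ldEquiv a z.1) ∧ Function.Injective (ldEquiv b z.2) ∧
        Disjoint (mkL a z.1).leaves (mkL b z.2).leaves := by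
  rw [leaves_mkL, leaves_mkL, disjoint_image_iff M.src_injective, disjoint_left]
  constructor
  · intro h
    refine ⟨fun i j hij => ?_, fun i j hij => ?_, ?_⟩
    · refine Fin.castAdd_injective _ _ (h ?_)
      rw [ldEquiv_castAdd, ldEquiv_castAdd, hij]
    · refine Fin.natAdd_injective _ _ (h ?_)
      rw [ldEquiv_natAdd, ldEquiv_natAdd, hij]
    · rintro x ⟨i, rfl⟩ ⟨j, hj⟩
      have h1 : ldEquiv (.node a b) z (Fin.castAdd b.card i) =
          ldEquiv (.node a b) z (Fin.natAdd a.card j) := by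
        rw [ldEquiv_castAdd, ldEquiv_natAdd, hj]
      have h2 := congrArg (fun i : Fin (a.card + b.card) => (i : ℕ)) (h h1)
      simp only [Fin.val_castAdd, Fin.val_natAdd] at h2
      omega
  · rintro ⟨ha, hb, hd⟩
    have key : ∀ i j : Fin (a.card + b.card),
        ldEquiv (.node a b) z i = ldEquiv (.node a b) z j → i = j := by
      intro i j hij
      induction i using Fin.addCases with
      | left i =>
        induction j using Fin.addCases with
        | left j =>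
          rw [ldEquiv_castAdd, ldEquiv_castAdd] at hij
          rw [ha hij]
        | right j =>
          rw [ldEquiv_castAdd, ldEquiv_natAdd] at hij
          exact absurd ⟨j, hij.symm⟩ (hd ⟨i, rfl⟩)
      | right i =>
        induction j using Fin.addCases with
        | left j =>
          rw [ldEquiv_castAdd, ldEquiv_natAdd] at hij
          exact absurd ⟨i, hij⟩ (hd ⟨j, rfl⟩)
        | right j =>
          rw [ldEquiv_natAdd, ldEquiv_natAdd] at hij
          rw [hb hij]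
    exact key

open M.CTree in
theorem ok_mkL_iff (ε : ℝ) : ∀ (τ : Shape) (z : LD τ),
    ok Φ ε (mkL τ z) ↔ z ∈ col Φ ε τ ∧ tokL Φ ε τ z ∧ Function.Injective (ldEquiv τ z)
  | .leaf, z => by
    have h : Function.Injective (ldEquiv .leaf z) :=
      fun i j _ => Subsingleton.elim (α := Fin 1) i j
    exact ⟨fun _ => ⟨mem_univ _, trivial, h⟩, fun _ => le_refl (0 : ℝ)⟩
  | .node a b, z => by
    rw [injective_node_iff a b z]
    change (ok Φ ε (mkL a z.1) ∧ ok Φ ε (mkL b z.2) ∧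
      Disjoint (mkL a z.1).leaves (mkL b z.2).leaves ∧
      Meets ε (ln Φ ε (mkL a z.1), ln Φ ε (mkL b z.2)) ∧
      Exits Φ (KU.rel ε (ln Φ ε (mkL a z.1), ln Φ ε (mkL b z.2))) ∧
      ext Φ ε (mkL a z.1) < hitT ε (ln Φ ε (mkL a z.1), ln Φ ε (mkL b z.2)) ∧
      ext Φ ε (mkL b z.2) < hitT ε (ln Φ ε (mkL a z.1), ln Φ ε (mkL b z.2))) ↔
      ((z.1 ∈ col Φ ε a ∧ z.2 ∈ col Φ ε b) ∧ Hit (rel ε (root Φ ε a z.1, root Φ ε b z.2)) ∧
        Exits Φ (rel ε (root Φ ε a z.1, root Φ ε b z.2))) ∧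
      ((tokL Φ ε a z.1 ∧ tokL Φ ε b z.2) ∧
      exL Φ ε a z.1 < hitT ε (root Φ ε a z.1, root Φ ε b z.2) ∧
      exL Φ ε b z.2 < hitT ε (root Φ ε a z.1, root Φ ε b z.2)) ∧
      (Function.Injective (ldEquiv a z.1) ∧ Function.Injective (ldEquiv b z.2) ∧
        Disjoint (mkL a z.1).leaves (mkL b z.2).leaves)
    rw [ln_mkL, ln_mkL, ext_mkL, ext_mkL, hit_iff_meets, ok_mkL_iff ε a, ok_mkL_iff ε b,
      rel_eq_KU]
    tauto

open M.CTree in
theorem ok_mkL_bk_iff (hΦ : IsPotential Φ) (hε : ε ≠ 0) (τ : Shape) (L : Ph) (p : PD τ)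
    (h : good Φ τ L.2 p) : ok Φ ε (mkL τ (bk Φ ε τ L p)) ↔
      tok Φ ε τ L.2 p ∧ Function.Injective (ldEquiv τ (bk Φ ε τ L p)) := by
  rw [ok_mkL_iff, tokL_bk hΦ hε τ L p h]
  exact ⟨fun h' => h'.2, fun h' => ⟨bk_mem_col hΦ hε τ L p h, h'⟩⟩

theorem ae_injective_pi (n : ℕ) : ∀ᵐ z : Fin n → Ph, Function.Injective z := by
  have h : ∀ i j : Fin n, i ≠ j → ∀ᵐ z : Fin n → Ph, z i ≠ z j := by
    intro i j hij
    set S : Submodule ℝ (Fin n → Ph) :=
      LinearMap.ker (LinearMap.proj (R := ℝ) (φ := fun _ : Fin n => Ph) i -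
        LinearMap.proj (R := ℝ) (φ := fun _ : Fin n => Ph) j) with hS
    have hne : S ≠ ⊤ := by
      intro h0
      obtain ⟨p, hp⟩ := exists_ne (0 : Ph)
      have h1 : Pi.single i p ∈ S := h0 ▸ Submodule.mem_top
      rw [hS, LinearMap.mem_ker, LinearMap.sub_apply, LinearMap.proj_apply, LinearMap.proj_apply,
        Pi.single_eq_same, Pi.single_eq_of_ne hij.symm, sub_zero] at h1
      exact hp h1
    have hH : (Measure.pi fun _ : Fin n => (volume : Measure Ph)).IsAddHaarMeasure :=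
      Measure.pi.isAddHaarMeasure _
    have h1 : (volume : Measure (Fin n → Ph)) (S : Set (Fin n → Ph)) = 0 :=
      Measure.addHaar_submodule (Measure.pi fun _ : Fin n => (volume : Measure Ph)) S hne
    filter_upwards [measure_eq_zero_iff_ae_notMem.1 h1] with z hz h2
    refine hz ?_
    rw [SetLike.mem_coe, hS, LinearMap.mem_ker, LinearMap.sub_apply, LinearMap.proj_apply,
      LinearMap.proj_apply, h2, sub_self]
  have h2 : ∀ᵐ z : Fin n → Ph, ∀ i j : Fin n, i ≠ j → z i ≠ z j := by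
    rw [ae_all_iff]; intro i
    rw [ae_all_iff]; intro j
    by_cases hij : i = j
    · exact Eventually.of_forall fun z h' => absurd hij h'
    · filter_upwards [h i j hij] with z hz _
      exact hz
  filter_upwards [h2] with z hz i j hij
  by_contra hne
  exact hz i j hne hij

theorem ae_injective (τ : Shape) : ∀ᵐ z ∂vol τ, Function.Injective (ldEquiv τ z) :=
  (ldEquiv_preserving τ).quasiMeasurePreserving.ae (ae_injective_pi _)

theorem measurable_exL (hΦ : IsPotential Φ) (hε : ε ≠ 0) :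
    ∀ τ : Shape, Measurable fun z : LD τ => exL Φ ε τ z
  | .leaf => measurable_const
  | .node a b => (measurable_sepT hΦ).comp
      (((measurable_root hΦ hε a).comp measurable_fst).prodMk
        ((measurable_root hΦ hε b).comp measurable_snd))

theorem measurableSet_tokL (hΦ : IsPotential Φ) (hε : ε ≠ 0) :
    ∀ τ : Shape, MeasurableSet {z : LD τ | tokL Φ ε τ z}
  | .leaf => MeasurableSet.univ
  | .node a b => by
    have h1 : Measurable fun z : LD a × LD b => hitT ε (root Φ ε a z.1, root Φ ε b z.2) :=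
      measurable_hitT.comp (((measurable_root hΦ hε a).comp measurable_fst).prodMk
        ((measurable_root hΦ hε b).comp measurable_snd))
    have h2 : Measurable fun z : LD a × LD b => exL Φ ε a z.1 :=
      (measurable_exL hΦ hε a).comp measurable_fst
    have h3 : Measurable fun z : LD a × LD b => exL Φ ε b z.2 :=
      (measurable_exL hΦ hε b).comp measurable_snd
    exact ((measurable_fst (measurableSet_tokL hΦ hε a)).inter
      (measurable_snd (measurableSet_tokL hΦ hε b))).inter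
      ((measurableSet_lt h2 h1).inter (measurableSet_lt h3 h1))

theorem measurable_ex (ε : ℝ) : ∀ τ : Shape, Measurable fun x : E3 × PD τ => ex ε τ x.1 x.2
  | .leaf => measurable_const
  | .node a b => by
    have h0 : Measurable fun x : E3 × (ND × PD a × PD b) => (x.1, x.2.1) := by fun_prop
    have h1 : Measurable fun x : E3 × (ND × PD a × PD b) => x.2.1.1 := by fun_prop
    exact h1.add ((measurable_half_outRel.comp h0).const_mul ε)

theorem measurableSet_tok (hΦ : IsPotential Φ) (ε : ℝ) :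
    ∀ τ : Shape, MeasurableSet {x : E3 × PD τ | tok Φ ε τ x.1 x.2}
  | .leaf => MeasurableSet.univ
  | .node a b => by
    have h0 : Measurable fun x : E3 × (ND × PD a × PD b) => (x.1, x.2.1) := by fun_prop
    have h1 : Measurable fun x : E3 × (ND × PD a × PD b) => x.2.1.1 := by fun_prop
    have hv := (measurable_inVel hΦ).comp h0
    have h2 : Measurable fun x : E3 × (ND × PD a × PD b) =>
      (((inVel Φ x.1 x.2.1).1, x.2.2.1) : E3 × PD a) := hv.fst.prodMk (by fun_prop)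
    have h3 : Measurable fun x : E3 × (ND × PD a × PD b) =>
      (((inVel Φ x.1 x.2.1).2, x.2.2.2) : E3 × PD b) := hv.snd.prodMk (by fun_prop)
    have h4 : Measurable fun x : E3 × (ND × PD a × PD b) =>
        x.2.1.1 + ε * tin (inRel Φ x.1 x.2.1) :=
      h1.add (((measurable_tin_inRel hΦ).comp h0).const_mul ε)
    have h5 : Measurable fun x : E3 × (ND × PD a × PD b) =>
      ex ε a (inVel Φ x.1 x.2.1).1 x.2.2.1 := (measurable_ex ε a).comp h2
    have h6 : Measurable fun x : E3 × (ND × PD a × PD b) =>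
      ex ε b (inVel Φ x.1 x.2.1).2 x.2.2.2 := (measurable_ex ε b).comp h3
    exact ((h2 (measurableSet_tok hΦ ε a)).inter (h3 (measurableSet_tok hΦ ε b))).inter
      ((measurableSet_lt h5 h4).inter (measurableSet_lt h6 h4))

open M.CTree in
/-- **The change of variables for the trees of the M-world.** -/
theorem lintegral_ok (hΦ : IsPotential Φ) (hε : 0 < ε) (τ : Shape) {G : Ph × LD τ → ℝ≥0∞}
    (hG : Measurable G) :
    ∫⁻ z, {z | ok Φ ε (mkL τ z)}.indicator (fun z => G (ln Φ ε (mkL τ z), z)) z ∂vol τ =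
      ENNReal.ofReal (ε ^ 2) ^ (τ.card - 1) *
        ∫⁻ L : Ph, ∫⁻ p, wt Φ τ L.2 p *
          {x : Ph × PD τ | tok Φ ε τ x.1.2 x.2}.indicator
            (fun x => G (x.1, bk Φ ε τ x.1 x.2)) (L, p) ∂pvol τ := by
  have h1 : ∫⁻ z, {z | ok Φ ε (mkL τ z)}.indicator (fun z => G (ln Φ ε (mkL τ z), z)) z ∂vol τ =
      ∫⁻ z, (col Φ ε τ).indicator (fun z => {y : Ph × LD τ | tokL Φ ε τ y.2}.indicator G
        (root Φ ε τ z, z)) z ∂vol τ := by
    refine lintegral_congr_ae ?_
    filter_upwards [ae_injective τ] with z hz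
    by_cases h : ok Φ ε (mkL τ z)
    · have h2 := (ok_mkL_iff ε τ z).1 h
      rw [indicator_of_mem (by exact h), indicator_of_mem h2.1, indicator_of_mem (by exact h2.2.1),
        ln_mkL]
    · rw [indicator_of_notMem (by exact h)]
      by_cases h3 : z ∈ col Φ ε τ
      · rw [indicator_of_mem h3, indicator_of_notMem]
        intro h4
        exact h ((ok_mkL_iff ε τ z).2 ⟨h3, h4, hz⟩)
      · rw [indicator_of_notMem h3]
  rw [h1]
  have hm : MeasurableSet {y : Ph × LD τ | tokL Φ ε τ y.2} :=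
    measurable_snd (measurableSet_tokL hΦ hε.ne' τ)
  rw [lintegral_tree hΦ hε τ (hG.indicator hm)]
  congr 1
  refine lintegral_congr fun L => lintegral_congr fun p => ?_
  by_cases h : wt Φ τ L.2 p = 0
  · rw [h, zero_mul, zero_mul]
  · congr 1
    have h2 := tokL_bk hΦ hε.ne' τ L p ((wt_ne_zero_iff τ L.2 p).1 h)
    by_cases h3 : tok Φ ε τ L.2 p
    · rw [indicator_of_mem (by exact h2.2 h3), indicator_of_mem (by exact h3)]
    · rw [indicator_of_notMem (by exact fun h4 => h3 (h2.1 h4)), indicator_of_notMem (by exact h3)]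

open M.CTree in
/-- The change of variables, for functions of `Fin card → Ph` with a product weight. -/
theorem lintegral_ok_ord (hΦ : IsPotential Φ) (hε : 0 < ε) (τ : Shape) {g : Ph → ℝ≥0∞}
    (hg : Measurable g) {F : Ph × (Fin τ.card → Ph) → ℝ≥0∞} (hF : Measurable F) :
    ∫⁻ z : Fin τ.card → Ph, {z | ok Φ ε (τ.ord z)}.indicator
        (fun z => (∏ i, g (z i)) * F (ln Φ ε (τ.ord z), z)) z =
      ENNReal.ofReal (ε ^ 2) ^ (τ.card - 1) *
        ∫⁻ L : Ph, ∫⁻ p, wt Φ τ L.2 p *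
          {x : Ph × PD τ | tok Φ ε τ x.1.2 x.2}.indicator
            (fun x => lprod g τ (bk Φ ε τ x.1 x.2) * F (x.1, ldEquiv τ (bk Φ ε τ x.1 x.2)))
              (L, p) ∂pvol τ := by
  have hG : Measurable fun y : Ph × LD τ => lprod g τ y.2 * F (y.1, ldEquiv τ y.2) :=
    ((measurable_lprod hg τ).comp measurable_snd).mul
      (hF.comp (measurable_fst.prodMk ((ldEquiv τ).measurable.comp measurable_snd)))
  rw [← lintegral_ok hΦ hε τ hG,
    ← (ldEquiv_preserving τ).lintegral_comp_emb (ldEquiv τ).measurableEmbedding]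
  refine lintegral_congr fun z => ?_
  by_cases h : ok Φ ε (mkL τ z)
  · rw [indicator_of_mem (s := {z | ok Φ ε (mkL τ z)}) (by exact h), indicator_of_mem (by
      change ok Φ ε (τ.ord (ldEquiv τ z))
      rw [← mkL_eq_ord]; exact h), ← mkL_eq_ord, lprod_eq]
  · rw [indicator_of_notMem (s := {z | ok Φ ε (mkL τ z)}) (by exact h), indicator_of_notMem (by
      change ¬ ok Φ ε (τ.ord (ldEquiv τ z))
      rw [← mkL_eq_ord]; exact h)]

end Vale.Agent.P119.KT
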