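import Vale.Agent.P119.KT.Link
import Vale.Agent.P119.KE.Creation

/-!
# P119, block KT (`helper860`): energy and domination in the backward parameters

* `enL`, `enP`, `inVel_energy`, `enL_bk`: conservation of energy;
* `win`: the windows of the times, `win_of_tok`;
* `lintegral_win_le`: the mass of the trees of a given shape with a Gaussian weight.
-/

open MeasureTheory Filter Topology Set
open scoped ENNReal NNReal RealInnerProductSpace

noncomputable section

namespace Vale.Agent.P119.KT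

open Vale.Agent.P119.KU
open Vale.Agent.P119.M (Shape)

variable {Φ : E3 → ℝ} {ε : ℝ}

/-! ### Energy -/

/-- The energy of the leaves. -/
def enL : (τ : Shape) → LD τ → ℝ
  | .leaf, z => ‖z.2‖ ^ 2
  | .node a b, z => enL a z.1 + enL b z.2

/-- The energy of the exhausts. -/
def enP : (τ : Shape) → PD τ → ℝ
  | .leaf, _ => 0
  | .node a b, p => ‖p.1.2.1‖ ^ 2 + (enP a p.2.1 + enP b p.2.2)

theorem enP_nonneg : ∀ (τ : Shape) (p : PD τ), 0 ≤ enP τ p
  | .leaf, _ => le_rfl
  | .node a b, _ => add_nonneg (sq_nonneg _) (add_nonneg (enP_nonneg a _) (enP_nonneg b _))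

theorem enL_nonneg : ∀ (τ : Shape) (z : LD τ), 0 ≤ enL τ z
  | .leaf, _ => sq_nonneg _
  | .node a b, _ => add_nonneg (enL_nonneg a _) (enL_nonneg b _)

theorem measurable_enP : ∀ τ : Shape, Measurable fun p : PD τ => enP τ p
  | .leaf => measurable_const
  | .node a b => by
    have h1 : Measurable fun p : ND × PD a × PD b => ‖p.1.2.1‖ ^ 2 := by fun_prop
    have h2 : Measurable fun p : ND × PD a × PD b => enP a p.2.1 :=
      (measurable_enP a).comp (by fun_prop)
    have h3 : Measurable fun p : ND × PD a × PD b => enP b p.2.2 :=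
      (measurable_enP b).comp (by fun_prop)
    exact h1.add (h2.add h3)

theorem inVel_sum (v : E3) (q : ND) : (inVel Φ v q).1 + (inVel Φ v q).2 = v + q.2.1 := by
  rw [inVel_def, outRel_snd]
  simp only
  module

theorem inVel_sub (v : E3) (q : ND) : (inVel Φ v q).1 - (inVel Φ v q).2 = (inRel Φ v q).2 := by
  rw [inVel_def]
  simp only
  module

theorem inVel_energy (hΦ : IsPotential Φ) (v : E3) (q : ND) :
    ‖(inVel Φ v q).1‖ ^ 2 + ‖(inVel Φ v q).2‖ ^ 2 = ‖v‖ ^ 2 + ‖q.2.1‖ ^ 2 := by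
  have h1 := parallelogram_law_with_norm ℝ (inVel Φ v q).1 (inVel Φ v q).2
  have h2 := parallelogram_law_with_norm ℝ v q.2.1
  rw [inVel_sum, inVel_sub, norm_inRel hΦ] at h1
  nlinarith

theorem enL_bk (hΦ : IsPotential Φ) (ε : ℝ) : ∀ (τ : Shape) (L : Ph) (p : PD τ),
    enL τ (bk Φ ε τ L p) = ‖L.2‖ ^ 2 + enP τ p
  | .leaf, L, _ => (add_zero _).symm
  | .node a b, L, p => by
    have hv := inLines_vel (Φ := Φ) ε L p.1
    have ha := enL_bk hΦ ε a (inLines Φ ε L p.1).1 p.2.1
    have hb := enL_bk hΦ ε b (inLines Φ ε L p.1).2 p.2.2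
    rw [hv.1] at ha
    rw [hv.2] at hb
    change enL a (bk Φ ε a (inLines Φ ε L p.1).1 p.2.1) +
      enL b (bk Φ ε b (inLines Φ ε L p.1).2 p.2.2) =
      ‖L.2‖ ^ 2 + (‖p.1.2.1‖ ^ 2 + (enP a p.2.1 + enP b p.2.2))
    rw [ha, hb]
    linarith [inVel_energy hΦ L.2 p.1]

/-! ### Windows -/

/-- The windows of the times. -/
def win (t : ℝ) : (Φ : E3 → ℝ) → (τ : Shape) → E3 → PD τ → Prop
  | _, .leaf, _, _ => True
  | Φ, .node a b, v, p => (-‖v - p.1.2.1‖⁻¹ ≤ p.1.1 ∧ p.1.1 ≤ t + ‖v - p.1.2.1‖⁻¹) ∧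
      win t Φ a (inVel Φ v p.1).1 p.2.1 ∧ win t Φ b (inVel Φ v p.1).2 p.2.2

theorem measurableSet_win (hΦ : IsPotential Φ) (t : ℝ) :
    ∀ τ : Shape, MeasurableSet {x : E3 × PD τ | win t Φ τ x.1 x.2}
  | .leaf => MeasurableSet.univ
  | .node a b => by
    have h0 : Measurable fun x : E3 × (ND × PD a × PD b) => (x.1, x.2.1) := by fun_prop
    have h1 : Measurable fun x : E3 × (ND × PD a × PD b) => x.2.1.1 := by fun_prop
    have h7 : Measurable fun x : E3 × (ND × PD a × PD b) => ‖x.1 - x.2.1.2.1‖⁻¹ := by fun_prop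
    have hv := (measurable_inVel hΦ).comp h0
    have h2 : Measurable fun x : E3 × (ND × PD a × PD b) =>
      (((inVel Φ x.1 x.2.1).1, x.2.2.1) : E3 × PD a) := hv.fst.prodMk (by fun_prop)
    have h3 : Measurable fun x : E3 × (ND × PD a × PD b) =>
      (((inVel Φ x.1 x.2.1).2, x.2.2.2) : E3 × PD b) := hv.snd.prodMk (by fun_prop)
    exact ((measurableSet_le h7.neg h1).inter (measurableSet_le h1 (h7.const_add t))).inter
      ((h2 (measurableSet_win hΦ t a)).inter (h3 (measurableSet_win hΦ t b)))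

theorem half_outRel_le (v : E3) (q : ND) : half (outRel v q) ≤ ‖v - q.2.1‖⁻¹ := by
  rw [half_outRel, div_eq_mul_inv]
  have h1 : √(1 - ‖q.2.2‖ ^ 2) ≤ 1 := Real.sqrt_le_one.2 (by nlinarith [sq_nonneg ‖q.2.2‖])
  have h2 : 0 ≤ ‖v - q.2.1‖⁻¹ := by positivity
  nlinarith

theorem tin_inRel_lt (hΦ : IsPotential Φ) {v : E3} {q : ND} (h : q ∈ gn Φ v) :
    tin (inRel Φ v q) < half (outRel v q) := by
  have h1 : Exits Φ (inRel Φ v q) := by
    rw [inRel_def]
    exact exits_rev_scat hΦ (p := rev (outRel v q)) h.2.2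
  have h2 : ‖perp (inRel Φ v q)‖ < 1 := by
    rw [← norm_perp_scat hΦ, scat_inRel hΦ h, perp_outRel, norm_fr]
    exact h.2.1
  have h3 := tin_lt_tout hΦ h1 h2
  have h4 : tout Φ (inRel Φ v q) = half (outRel v q) := by
    unfold tout
    rw [scat_inRel hΦ h, crd_outRel, half_inRel hΦ h, neg_zero, zero_add]
  rwa [h4] at h3

theorem ex_nonneg (hΦ : IsPotential Φ) (hε : 0 ≤ ε) : ∀ (τ : Shape) (v : E3) (p : PD τ),
    good Φ τ v p → tok Φ ε τ v p → 0 ≤ ex ε τ v p
  | .leaf, _, _, _, _ => le_rfl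
  | .node a b, v, p, hg, ht => by
    have h1 := ex_nonneg hΦ hε a _ _ hg.2.1 ht.1.1
    have h2 := ht.2.1
    have h3 := mul_le_mul_of_nonneg_left (tin_inRel_lt hΦ (q := p.1) hg.1).le hε
    change 0 ≤ p.1.1 + ε * half (outRel v p.1)
    linarith

theorem win_of_tok (hΦ : IsPotential Φ) (hε : 0 ≤ ε) (hε1 : ε ≤ 1) {t : ℝ} :
    ∀ (τ : Shape) (v : E3) (p : PD τ),
    good Φ τ v p → tok Φ ε τ v p → ex ε τ v p ≤ t → win t Φ τ v p
  | .leaf, _, _, _, _, _ => trivial
  | .node a b, v, p, hg, ht, hx => by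
    have h0 := ex_nonneg hΦ hε (.node a b) v p hg ht
    change 0 ≤ p.1.1 + ε * half (outRel v p.1) at h0
    change p.1.1 + ε * half (outRel v p.1) ≤ t at hx
    have h3 := mul_le_mul_of_nonneg_left (tin_inRel_lt hΦ (q := p.1) hg.1).le hε
    have h4 : ε * half (outRel v p.1) ≤ ‖v - p.1.2.1‖⁻¹ := by
      have := half_nonneg (outRel v p.1)
      nlinarith [half_outRel_le v p.1]
    have h5 : 0 ≤ ε * half (outRel v p.1) := mul_nonneg hε (half_nonneg _)
    have h6 : 0 ≤ ‖v - p.1.2.1‖⁻¹ := by positivity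
    refine ⟨⟨by linarith, by linarith⟩, ?_, ?_⟩
    · exact win_of_tok hΦ hε hε1 a _ _ hg.2.1 ht.1.1 (by linarith [ht.2.1])
    · exact win_of_tok hΦ hε hε1 b _ _ hg.2.2 ht.1.2 (by linarith [ht.2.2])

/-! ### Domination -/

/-- The window of a node. -/
def winN (t : ℝ) (v : E3) : Set ND :=
  {q : ND | -‖v - q.2.1‖⁻¹ ≤ q.1 ∧ q.1 ≤ t + ‖v - q.2.1‖⁻¹}

theorem measurableSet_winN (t : ℝ) (v : E3) : MeasurableSet (winN t v) := by
  have h1 : Measurable fun q : ND => ‖v - q.2.1‖⁻¹ := by fun_prop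
  have h2 : Measurable fun q : ND => q.1 := by fun_prop
  exact (measurableSet_le h1.neg h2).inter (measurableSet_le h2 (h1.const_add t))

theorem volume_disc_lt_top : (volume : Measure E2) {b | ‖b‖ < 1} < ∞ := by
  have h : {b : E2 | ‖b‖ < 1} = Metric.ball 0 1 := by
    ext b; simp
  rw [h]
  exact measure_ball_lt_top

/-- Integration over the parameters of a node of a product. -/
theorem lintegral_nd {D : E2 → ℝ≥0∞} (hD : Measurable D) {g : ℝ × E3 → ℝ≥0∞}
    (hg : Measurable g) :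
    ∫⁻ q : ND, D q.2.2 * g (q.1, q.2.1) = (∫⁻ b, D b) * ∫⁻ w : E3, ∫⁻ s : ℝ, g (s, w) := by
  have hm0 : Measurable fun q : ℝ × (E3 × E2) => D q.2.2 * g (q.1, q.2.1) :=
    (hD.comp (by fun_prop)).mul (hg.comp (by fun_prop))
  have h1 : ∫⁻ q : ND, D q.2.2 * g (q.1, q.2.1) =
      ∫⁻ s : ℝ, ∫⁻ y : E3 × E2, D y.2 * g (s, y.1) := by
    rw [Measure.volume_eq_prod, lintegral_prod _ hm0.aemeasurable]
  have h2 : ∀ s : ℝ, ∫⁻ y : E3 × E2, D y.2 * g (s, y.1) = (∫⁻ b, D b) * ∫⁻ w, g (s, w) := by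
    intro s
    have hm1 : Measurable fun y : E3 × E2 => D y.2 * g (s, y.1) :=
      (hD.comp measurable_snd).mul (hg.comp (by fun_prop))
    have hgs : Measurable fun w : E3 => g (s, w) := hg.comp (by fun_prop)
    rw [Measure.volume_eq_prod, lintegral_prod _ hm1.aemeasurable, ← lintegral_const_mul _ hgs]
    exact lintegral_congr fun w => lintegral_mul_const (g (s, w)) hD
  rw [h1]
  simp only [h2]
  rw [lintegral_const_mul _ hg.lintegral_prod_right',
    lintegral_lintegral_swap (f := fun s w => g (s, w)) hg.aemeasurable]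

theorem lintegral_nvol_le (t : ℝ) (v : E3) {h : E3 → ℝ≥0∞} (hh : Measurable h) :
    ∫⁻ q, nw Φ v q * (winN t v).indicator (fun q => h q.2.1) q ∂nvol ≤
      volume {b : E2 | ‖b‖ < 1} * ∫⁻ w, ENNReal.ofReal (‖v - w‖ * t + 2) * h w := by
  have hball : MeasurableSet {b : E2 | ‖b‖ < 1} := measurableSet_lt (by fun_prop) (by fun_prop)
  have hb3 : MeasurableSet {q : ND | ‖q.2.2‖ < 1} := measurableSet_lt (by fun_prop) (by fun_prop)
  set W : Set (ℝ × E3) := {x | -‖v - x.2‖⁻¹ ≤ x.1 ∧ x.1 ≤ t + ‖v - x.2‖⁻¹} with hW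
  have hWm : MeasurableSet W := by
    have h3 : Measurable fun x : ℝ × E3 => ‖v - x.2‖⁻¹ := by fun_prop
    exact (measurableSet_le h3.neg measurable_fst).inter
      (measurableSet_le measurable_fst (h3.const_add t))
  set g : ℝ × E3 → ℝ≥0∞ := fun x => ‖v - x.2‖ₑ * W.indicator (fun x => h x.2) x with hg
  have hgm : Measurable g := by
    have h1 : Measurable fun x : ℝ × E3 => ‖v - x.2‖ₑ := by fun_prop
    exact h1.mul ((hh.comp measurable_snd).indicator hWm)
  have e1 : ∫⁻ q, nw Φ v q * (winN t v).indicator (fun q => h q.2.1) q ∂nvol ≤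
      ∫⁻ q : ND, {b : E2 | ‖b‖ < 1}.indicator 1 q.2.2 * g (q.1, q.2.1) := by
    unfold nvol
    rw [← lintegral_indicator hb3]
    refine lintegral_mono fun q => ?_
    by_cases hq : ‖q.2.2‖ < 1
    · have h1 : {b : E2 | ‖b‖ < 1}.indicator (1 : E2 → ℝ≥0∞) q.2.2 = 1 := indicator_of_mem (by exact hq) _
      rw [indicator_of_mem (s := {q : ND | ‖q.2.2‖ < 1}) (by exact hq), h1, one_mul]
      exact mul_le_mul' (nw_le v q) le_rfl
    · rw [indicator_of_notMem (s := {q : ND | ‖q.2.2‖ < 1}) (by exact hq)]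
      exact bot_le
  refine e1.trans ?_
  rw [lintegral_nd (measurable_one.indicator hball) hgm, lintegral_indicator_one hball]
  refine mul_le_mul' le_rfl (lintegral_mono fun w => ?_)
  have e3 : ∫⁻ s : ℝ, g (s, w) =
      ‖v - w‖ₑ * (h w * ENNReal.ofReal (t + ‖v - w‖⁻¹ - -‖v - w‖⁻¹)) := by
    rw [← Real.volume_Icc, ← setLIntegral_const, ← lintegral_indicator measurableSet_Icc,
      ← lintegral_const_mul _ (measurable_const.indicator measurableSet_Icc)]
    rfl
  rw [e3, mul_comm (h w), ← mul_assoc, ← ofReal_norm, ← ENNReal.ofReal_mul (norm_nonneg _)]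
  refine mul_le_mul' (ENNReal.ofReal_le_ofReal ?_) le_rfl
  by_cases h0 : ‖v - w‖ = 0
  · rw [h0]; norm_num
  · have : ‖v - w‖ * ‖v - w‖⁻¹ = 1 := mul_inv_cancel₀ h0
    nlinarith

theorem one_add_le_exp_sq {γ : ℝ} (hγ : 0 < γ) (r : ℝ) :
    1 + r ≤ Real.exp (1 / (4 * γ)) * Real.exp (γ * r ^ 2) := by
  rw [← Real.exp_add]
  have h1 : 1 + r ≤ Real.exp r := by linarith [Real.add_one_le_exp r]
  refine h1.trans (Real.exp_le_exp.2 ?_)
  have h2 : 0 ≤ γ * (r - 1 / (2 * γ)) ^ 2 := by positivity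
  have h3 : γ * (r - 1 / (2 * γ)) ^ 2 = γ * r ^ 2 - r + 1 / (4 * γ) := by
    field_simp
    ring
  linarith

/-- The weighted mass of the trees of a given shape in the backward parameters. -/
theorem lintegral_win_le (hΦ : IsPotential Φ) {β t : ℝ} (hβ : 0 < β) (ht : 0 ≤ t) :
    ∀ (τ : Shape) (γ : ℝ), 0 < γ → ∃ C : ℝ, 0 ≤ C ∧ ∀ v : E3,
      ∫⁻ p, wt Φ τ v p * {x : E3 × PD τ | win t Φ τ x.1 x.2}.indicator
        (fun x => ENNReal.ofReal (Real.exp (-β * enP τ x.2))) (v, p) ∂pvol τ ≤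
      ENNReal.ofReal (C * Real.exp (γ * ‖v‖ ^ 2))
  | .leaf, γ, hγ => by
    refine ⟨1, zero_le_one, fun v => ?_⟩
    have h1 : ∫⁻ p : Unit, wt Φ .leaf v p * {x : E3 × PD .leaf | win t Φ .leaf x.1 x.2}.indicator
        (fun x => ENNReal.ofReal (Real.exp (-β * enP .leaf x.2))) (v, p) ∂(Measure.dirac ()) ≤
        ENNReal.ofReal (1 * Real.exp (γ * ‖v‖ ^ 2)) := by
      rw [lintegral_dirac, indicator_of_mem (by exact trivial)]
      change 1 * ENNReal.ofReal (Real.exp (-β * 0)) ≤ _
      rw [one_mul, one_mul, mul_zero, Real.exp_zero]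
      exact ENNReal.ofReal_le_ofReal (Real.one_le_exp (by positivity))
    exact h1
  | .node a b, γ, hγ => by
    obtain ⟨γ', hγ'⟩ : ∃ γ', γ' = min γ β / 2 := ⟨_, rfl⟩
    have hγ0 : 0 < γ' := by rw [hγ']; have := lt_min hγ hβ; positivity
    have hγγ : 2 * γ' ≤ γ := by rw [hγ']; linarith [min_le_left γ β]
    have hγβ : 2 * γ' ≤ β := by rw [hγ']; linarith [min_le_right γ β]
    obtain ⟨Ca, hCa, ha⟩ := lintegral_win_le hΦ hβ ht a γ' hγ0
    obtain ⟨Cb, hCb, hb⟩ := lintegral_win_le hΦ hβ ht b γ' hγ0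
    obtain ⟨δ, hδ⟩ : ∃ δ, δ = (β - γ') / 2 := ⟨_, rfl⟩
    have hδ0 : 0 < δ := by rw [hδ]; linarith
    obtain ⟨K, hK⟩ : ∃ K : ℝ, K = (t + 2) * Real.exp (1 / (4 * γ')) * Real.exp (1 / (4 * δ)) :=
      ⟨_, rfl⟩
    have hK0 : 0 ≤ K := by rw [hK]; positivity
    set D : ℝ≥0∞ := volume {b : E2 | ‖b‖ < 1} with hD
    refine ⟨D.toReal * (Ca * Cb * K * (Real.pi / δ) ^ (3 / 2 : ℝ)), by positivity, fun v => ?_⟩
    -- the integrand of the node
    set A : E3 → PD a → ℝ≥0∞ := fun v p => wt Φ a v p *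
      {x : E3 × PD a | win t Φ a x.1 x.2}.indicator
        (fun x => ENNReal.ofReal (Real.exp (-β * enP a x.2))) (v, p) with hA
    set B : E3 → PD b → ℝ≥0∞ := fun v p => wt Φ b v p *
      {x : E3 × PD b | win t Φ b x.1 x.2}.indicator
        (fun x => ENNReal.ofReal (Real.exp (-β * enP b x.2))) (v, p) with hB
    set F : ND → ℝ≥0∞ := fun q => nw Φ v q * (winN t v).indicator
      (fun q => ENNReal.ofReal (Real.exp (-β * ‖q.2.1‖ ^ 2))) q with hF
    have hAm : Measurable fun x : E3 × PD a => A x.1 x.2 :=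
      (measurable_wt hΦ a).mul (((measurable_enP a).comp measurable_snd |>.const_mul (-β)
        |> Real.measurable_exp.comp |> ENNReal.measurable_ofReal.comp).indicator
        (measurableSet_win hΦ t a))
    have hBm : Measurable fun x : E3 × PD b => B x.1 x.2 :=
      (measurable_wt hΦ b).mul (((measurable_enP b).comp measurable_snd |>.const_mul (-β)
        |> Real.measurable_exp.comp |> ENNReal.measurable_ofReal.comp).indicator
        (measurableSet_win hΦ t b))
    have hpt : ∀ p : ND × PD a × PD b, wt Φ (.node a b) v p *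
        {x : E3 × PD (.node a b) | win t Φ (.node a b) x.1 x.2}.indicator
          (fun x => ENNReal.ofReal (Real.exp (-β * enP (.node a b) x.2))) (v, p) =
        F p.1 * (A (inVel Φ v p.1).1 p.2.1 * B (inVel Φ v p.1).2 p.2.2) := by
      intro p
      have hw : wt Φ (.node a b) v p = nw Φ v p.1 * (wt Φ a (inVel Φ v p.1).1 p.2.1 *
        wt Φ b (inVel Φ v p.1).2 p.2.2) := rfl
      rw [hF, hA, hB, hw]
      simp only
      by_cases h1 : p.1 ∈ winN t v
      · by_cases h2 : win t Φ a (inVel Φ v p.1).1 p.2.1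
        · by_cases h3 : win t Φ b (inVel Φ v p.1).2 p.2.2
          · rw [indicator_of_mem (by exact ⟨h1, h2, h3⟩), indicator_of_mem h1,
              indicator_of_mem (by exact h2), indicator_of_mem (by exact h3)]
            have e : Real.exp (-β * enP (.node a b) p) = Real.exp (-β * ‖p.1.2.1‖ ^ 2) *
                (Real.exp (-β * enP a p.2.1) * Real.exp (-β * enP b p.2.2)) := by
              rw [← Real.exp_add, ← Real.exp_add]
              congr 1
              change -β * (‖p.1.2.1‖ ^ 2 + (enP a p.2.1 + enP b p.2.2)) = _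
              ring
            rw [e, ENNReal.ofReal_mul (Real.exp_nonneg _), ENNReal.ofReal_mul (Real.exp_nonneg _)]
            ring
          · rw [indicator_of_notMem (by exact fun h => h3 h.2.2),
              indicator_of_notMem (s := {x : E3 × PD b | win t Φ b x.1 x.2}) (by exact h3)]
            simp only [mul_zero]
        · rw [indicator_of_notMem (by exact fun h => h2 h.2.1),
            indicator_of_notMem (s := {x : E3 × PD a | win t Φ a x.1 x.2}) (by exact h2)]
          simp only [mul_zero, zero_mul]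
      · rw [indicator_of_notMem (by exact fun h => h1 h.1), indicator_of_notMem h1]
        simp only [mul_zero, zero_mul]
    have hvm : Measurable fun q : ND => inVel Φ v q :=
      (measurable_inVel hΦ).comp (measurable_const.prodMk measurable_id)
    have hFm : Measurable F := by
      have h1 : Measurable fun q : ND => nw Φ v q :=
        (measurable_nw hΦ).comp (measurable_const.prodMk measurable_id)
      have h2 : Measurable fun q : ND => ENNReal.ofReal (Real.exp (-β * ‖q.2.1‖ ^ 2)) := by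
        fun_prop
      exact h1.mul (h2.indicator (measurableSet_winN t v))
    have hm : Measurable fun p : ND × PD a × PD b =>
        F p.1 * (A (inVel Φ v p.1).1 p.2.1 * B (inVel Φ v p.1).2 p.2.2) := by
      have h1 : Measurable fun p : ND × PD a × PD b => ((inVel Φ v p.1).1, p.2.1) :=
        (measurable_fst.comp (hvm.comp measurable_fst)).prodMk (by fun_prop)
      have h2 : Measurable fun p : ND × PD a × PD b => ((inVel Φ v p.1).2, p.2.2) :=
        (measurable_snd.comp (hvm.comp measurable_fst)).prodMk (by fun_prop)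
      exact (hFm.comp measurable_fst).mul ((hAm.comp h1).mul (hBm.comp h2))
    calc ∫⁻ p, wt Φ (.node a b) v p *
          {x : E3 × PD (.node a b) | win t Φ (.node a b) x.1 x.2}.indicator
          (fun x => ENNReal.ofReal (Real.exp (-β * enP (.node a b) x.2))) (v, p)
            ∂pvol (.node a b)
        = ∫⁻ p : ND × PD a × PD b,
            F p.1 * (A (inVel Φ v p.1).1 p.2.1 * B (inVel Φ v p.1).2 p.2.2)
            ∂(nvol.prod ((pvol a).prod (pvol b))) := lintegral_congr hpt
      _ = ∫⁻ q, F q * ((∫⁻ pa, A (inVel Φ v q).1 pa ∂pvol a) *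
            ∫⁻ pb, B (inVel Φ v q).2 pb ∂pvol b) ∂nvol := by
          rw [lintegral_prod _ hm.aemeasurable]
          refine lintegral_congr fun q => ?_
          have hAq : Measurable fun pa => A (inVel Φ v q).1 pa :=
            hAm.comp (measurable_const.prodMk measurable_id)
          have hBq : Measurable fun pb => B (inVel Φ v q).2 pb :=
            hBm.comp (measurable_const.prodMk measurable_id)
          have hAB : Measurable fun y : PD a × PD b =>
              A (inVel Φ v q).1 y.1 * B (inVel Φ v q).2 y.2 :=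
            (hAq.comp measurable_fst).mul (hBq.comp measurable_snd)
          have e4 := lintegral_prod_mul (μ := pvol a) (ν := pvol b) hAq.aemeasurable
            hBq.aemeasurable
          rw [← e4]
          exact lintegral_const_mul (μ := (pvol a).prod (pvol b)) (F q) hAB
      _ ≤ ∫⁻ q, nw Φ v q * (winN t v).indicator (fun q => ENNReal.ofReal
            (Ca * Cb * Real.exp (γ' * ‖v‖ ^ 2) * Real.exp (-(β - γ') * ‖q.2.1‖ ^ 2))) q
              ∂nvol := by
          refine lintegral_mono fun q => ?_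
          have h1 := mul_le_mul' (ha (inVel Φ v q).1) (hb (inVel Φ v q).2)
          refine (mul_le_mul' le_rfl h1).trans ?_
          rw [← ENNReal.ofReal_mul (by positivity)]
          rw [hF]
          simp only
          rw [mul_assoc]
          refine mul_le_mul' le_rfl ?_
          by_cases h2 : q ∈ winN t v
          · rw [indicator_of_mem h2, indicator_of_mem h2, ← ENNReal.ofReal_mul (Real.exp_nonneg _)]
            refine ENNReal.ofReal_le_ofReal (le_of_eq ?_)
            have h3 : Real.exp (γ' * ‖(inVel Φ v q).1‖ ^ 2) * Real.exp (γ' * ‖(inVel Φ v q).2‖ ^ 2)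
                = Real.exp (γ' * ‖v‖ ^ 2) * Real.exp (γ' * ‖q.2.1‖ ^ 2) := by
              rw [← Real.exp_add, ← Real.exp_add, ← mul_add, ← mul_add, inVel_energy hΦ]
            have h4 : Real.exp (-(β - γ') * ‖q.2.1‖ ^ 2) =
                Real.exp (-β * ‖q.2.1‖ ^ 2) * Real.exp (γ' * ‖q.2.1‖ ^ 2) := by
              rw [← Real.exp_add]; congr 1; ring
            rw [h4]
            calc Real.exp (-β * ‖q.2.1‖ ^ 2) * (Ca * Real.exp (γ' * ‖(inVel Φ v q).1‖ ^ 2) *
                  (Cb * Real.exp (γ' * ‖(inVel Φ v q).2‖ ^ 2)))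
                = Real.exp (-β * ‖q.2.1‖ ^ 2) * Ca * Cb *
                  (Real.exp (γ' * ‖(inVel Φ v q).1‖ ^ 2) *
                    Real.exp (γ' * ‖(inVel Φ v q).2‖ ^ 2)) := by ring
              _ = _ := by rw [h3]; ring
          · rw [indicator_of_notMem h2, indicator_of_notMem h2, zero_mul]
      _ ≤ D * ∫⁻ w, ENNReal.ofReal (‖v - w‖ * t + 2) * ENNReal.ofReal
            (Ca * Cb * Real.exp (γ' * ‖v‖ ^ 2) * Real.exp (-(β - γ') * ‖w‖ ^ 2)) :=
          lintegral_nvol_le t v (h := fun w => ENNReal.ofReal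
            (Ca * Cb * Real.exp (γ' * ‖v‖ ^ 2) * Real.exp (-(β - γ') * ‖w‖ ^ 2))) (by fun_prop)
      _ ≤ D * ∫⁻ w, KE.gs (Ca * Cb * K * Real.exp (γ * ‖v‖ ^ 2)) δ w := by
          refine mul_le_mul' le_rfl (lintegral_mono fun w => ?_)
          rw [← ENNReal.ofReal_mul (by positivity)]
          unfold KE.gs
          refine ENNReal.ofReal_le_ofReal ?_
          have h1 : ‖v - w‖ * t + 2 ≤ (t + 2) * ((1 + ‖v‖) * (1 + ‖w‖)) := by
            have h2 := norm_sub_le v w
            have h3 := norm_nonneg v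
            have h4 := norm_nonneg w
            have h5 : ‖v - w‖ * t ≤ (‖v‖ + ‖w‖) * t := mul_le_mul_of_nonneg_right h2 ht
            nlinarith [mul_nonneg h3 h4, mul_nonneg (mul_nonneg h3 h4) ht]
          have h6 : (1 + ‖v‖) * (1 + ‖w‖) ≤ (Real.exp (1 / (4 * γ')) * Real.exp (γ' * ‖v‖ ^ 2)) *
              (Real.exp (1 / (4 * δ)) * Real.exp (δ * ‖w‖ ^ 2)) :=
            mul_le_mul (one_add_le_exp_sq hγ0 _) (one_add_le_exp_sq hδ0 _) (by positivity)
              (by positivity)
          calc (‖v - w‖ * t + 2) *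
              (Ca * Cb * Real.exp (γ' * ‖v‖ ^ 2) * Real.exp (-(β - γ') * ‖w‖ ^ 2))
              ≤ ((t + 2) * ((Real.exp (1 / (4 * γ')) * Real.exp (γ' * ‖v‖ ^ 2)) *
              (Real.exp (1 / (4 * δ)) * Real.exp (δ * ‖w‖ ^ 2)))) *
              (Ca * Cb * Real.exp (γ' * ‖v‖ ^ 2) * Real.exp (-(β - γ') * ‖w‖ ^ 2)) := by
                refine mul_le_mul_of_nonneg_right (h1.trans ?_) (by positivity)
                exact mul_le_mul_of_nonneg_left h6 (by positivity)
            _ = Ca * Cb * K * (Real.exp (γ' * ‖v‖ ^ 2) * Real.exp (γ' * ‖v‖ ^ 2)) *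
                (Real.exp (δ * ‖w‖ ^ 2) * Real.exp (-(β - γ') * ‖w‖ ^ 2)) := by
                rw [hK]; ring
            _ = Ca * Cb * K * Real.exp (2 * γ' * ‖v‖ ^ 2) * Real.exp (-δ * ‖w‖ ^ 2) := by
                rw [← Real.exp_add, ← Real.exp_add]
                congr 2
                · congr 1; ring
                · rw [hδ]; ring
            _ ≤ Ca * Cb * K * Real.exp (γ * ‖v‖ ^ 2) * Real.exp (-δ * ‖w‖ ^ 2) := by
                have h7 : Real.exp (2 * γ' * ‖v‖ ^ 2) ≤ Real.exp (γ * ‖v‖ ^ 2) :=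
                  Real.exp_le_exp.2 (mul_le_mul_of_nonneg_right hγγ (by positivity))
                gcongr
      _ = ENNReal.ofReal (D.toReal * (Ca * Cb * K * (Real.pi / δ) ^ (3 / 2 : ℝ)) *
            Real.exp (γ * ‖v‖ ^ 2)) := by
          rw [KE.lintegral_gs (by positivity) hδ0]
          have hDt : D = ENNReal.ofReal D.toReal :=
            (ENNReal.ofReal_toReal volume_disc_lt_top.ne).symm
          nth_rewrite 1 [hDt]
          rw [← ENNReal.ofReal_mul ENNReal.toReal_nonneg]
          congr 1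
          ring

end Vale.Agent.P119.KT
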