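import Vale.Agent.P119.KT.Legs

/-!
# P119, block KT (`helper860`): the initial positions of the leaves of a kinetic tree

* `ld_bk_shift`: translations;
* `ae_apt`: the initial positions of the leaves of a kinetic tree are different, for almost all
  parameters;
* `ae_far`: the initial positions of the leaves of a kinetic tree which hits a given line are
  different from a given point;
* `tendsto_bk_fst`: continuity of the initial positions as `ε → 0`.
-/

open MeasureTheory Filter Topology Set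
open scoped ENNReal NNReal RealInnerProductSpace

noncomputable section

namespace Vale.Agent.P119.KT

open Vale.Agent.P119.KU
open Vale.Agent.P119.M (Shape)

variable {Φ : E3 → ℝ} {ε : ℝ}

/-! ### Translations -/

theorem inLines_shift (ε : ℝ) (y h v : E3) (q : ND) : inLines Φ ε (y + h, v) q =
    (((inLines Φ ε (y, v) q).1.1 + h, (inLines Φ ε (y, v) q).1.2),
      ((inLines Φ ε (y, v) q).2.1 + h, (inLines Φ ε (y, v) q).2.2)) := by
  simp only [inLines_def]
  ext1
  · ext1
    · simp only; abel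
    · rfl
  · ext1
    · simp only; abel
    · rfl

/-- Translation of the root line. -/
theorem ld_bk_shift (ε : ℝ) (h : E3) : ∀ (τ : Shape) (L : Ph) (p : PD τ) (i : Fin τ.card),
    ldEquiv τ (bk Φ ε τ (L.1 + h, L.2) p) i =
      ((ldEquiv τ (bk Φ ε τ L p) i).1 + h, (ldEquiv τ (bk Φ ε τ L p) i).2)
  | .leaf, _, _, _ => rfl
  | .node a b, L, p, i => by
    have e0 := inLines_shift (Φ := Φ) ε L.1 h L.2 p.1
    have e1 : bk Φ ε (.node a b) (L.1 + h, L.2) p =
        (bk Φ ε a ((inLines Φ ε L p.1).1.1 + h, (inLines Φ ε L p.1).1.2) p.2.1,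
          bk Φ ε b ((inLines Φ ε L p.1).2.1 + h, (inLines Φ ε L p.1).2.2) p.2.2) := by
      change (bk Φ ε a (inLines Φ ε (L.1 + h, L.2) p.1).1 p.2.1,
        bk Φ ε b (inLines Φ ε (L.1 + h, L.2) p.1).2 p.2.2) = _
      rw [e0]
    rw [e1]
    have key : ∀ i : Fin (a.card + b.card), ldEquiv (.node a b)
        (bk Φ ε a ((inLines Φ ε L p.1).1.1 + h, (inLines Φ ε L p.1).1.2) p.2.1,
          bk Φ ε b ((inLines Φ ε L p.1).2.1 + h, (inLines Φ ε L p.1).2.2) p.2.2) i =
      ((ldEquiv (.node a b) (bk Φ ε a (inLines Φ ε L p.1).1 p.2.1,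
          bk Φ ε b (inLines Φ ε L p.1).2 p.2.2) i).1 + h,
        (ldEquiv (.node a b) (bk Φ ε a (inLines Φ ε L p.1).1 p.2.1,
          bk Φ ε b (inLines Φ ε L p.1).2 p.2.2) i).2) := by
      intro i
      induction i using Fin.addCases with
      | left i =>
        rw [ldEquiv_castAdd, ldEquiv_castAdd]
        exact ld_bk_shift ε h a _ _ i
      | right i =>
        rw [ldEquiv_natAdd, ldEquiv_natAdd]
        exact ld_bk_shift ε h b _ _ i
    exact key i

/-! ### At `ε = 0` -/

theorem inRel_congr (v : E3) (s s' : ℝ) (y : E3 × E2) :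
    inRel Φ v (s, y) = inRel Φ v (s', y) := by
  rw [inRel_def, inRel_def, outRel_congr v s s' y]

theorem inVel_congr (v : E3) (s s' : ℝ) (y : E3 × E2) :
    inVel Φ v (s, y) = inVel Φ v (s', y) := by
  rw [inVel_def, inVel_def, outRel_congr v s s' y, inRel_congr v s s' y]

theorem inLines_zero_fst (L : Ph) (q : ND) :
    (inLines Φ 0 L q).1 = (L.1 + q.1 • (L.2 - (inVel Φ L.2 q).1), (inVel Φ L.2 q).1) := by
  rw [inLines_def, inVel_def]
  ext1
  · simp only [zero_div, zero_smul, add_zero]
    congr 1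
    module
  · rfl

theorem inLines_zero_snd (L : Ph) (q : ND) :
    (inLines Φ 0 L q).2 = (L.1 + q.1 • (L.2 - (inVel Φ L.2 q).2), (inVel Φ L.2 q).2) := by
  rw [inLines_def, inVel_def]
  ext1
  · simp only [zero_div, zero_smul, sub_zero]
    congr 1
    module
  · rfl

theorem hl_zero (ℓ : Ph) (q : ND) : hl 0 ℓ q = (ℓ.1 + q.1 • (ℓ.2 - q.2.1), q.2.1) := by
  ext1
  · rw [hl_fst, zero_smul, add_zero]
  · rw [hl_snd]

/-- The position of the leaf of index `i` of the kinetic tree with root line `(0, v)`. -/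
def ps (Φ : E3 → ℝ) (τ : Shape) (v : E3) (p : PD τ) (i : Fin τ.card) : E3 :=
  (ldEquiv τ (bk Φ 0 τ (0, v) p) i).1

theorem measurable_ps (hΦ : IsPotential Φ) (τ : Shape) (i : Fin τ.card) :
    Measurable fun x : E3 × PD τ => ps Φ τ x.1 x.2 i := by
  have h1 : Measurable fun x : E3 × PD τ => (((0 : E3), x.1), x.2) := by fun_prop
  have h2 := (ldEquiv τ).measurable.comp ((measurable_bk hΦ 0 τ).comp h1)
  exact ((measurable_pi_apply i).comp h2).fst

theorem bk_zero_fst (τ : Shape) (L : Ph) (p : PD τ) (i : Fin τ.card) :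
    (ldEquiv τ (bk Φ 0 τ L p) i).1 = ps Φ τ L.2 p i + L.1 := by
  have h := ld_bk_shift (Φ := Φ) 0 L.1 τ (0, L.2) p i
  simp only [zero_add] at h
  exact congrArg Prod.fst h

theorem ps_left (a b : Shape) (v : E3) (p : ND × PD a × PD b) (i : Fin a.card) :
    ps Φ (.node a b) v p (Fin.castAdd b.card i) =
      ps Φ a (inVel Φ v p.1).1 p.2.1 i + p.1.1 • (v - (inVel Φ v p.1).1) := by
  have h1 : ps Φ (.node a b) v p (Fin.castAdd b.card i) =
      (ldEquiv a (bk Φ 0 a (inLines Φ 0 (0, v) p.1).1 p.2.1) i).1 :=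
    congrArg Prod.fst (ldEquiv_castAdd a b (bk Φ 0 a (inLines Φ 0 (0, v) p.1).1 p.2.1,
      bk Φ 0 b (inLines Φ 0 (0, v) p.1).2 p.2.2) i)
  rw [h1, bk_zero_fst, inLines_zero_fst]
  simp only [zero_add]

theorem ps_right (a b : Shape) (v : E3) (p : ND × PD a × PD b) (i : Fin b.card) :
    ps Φ (.node a b) v p (Fin.natAdd a.card i) =
      ps Φ b (inVel Φ v p.1).2 p.2.2 i + p.1.1 • (v - (inVel Φ v p.1).2) := by
  have h1 : ps Φ (.node a b) v p (Fin.natAdd a.card i) =
      (ldEquiv b (bk Φ 0 b (inLines Φ 0 (0, v) p.1).2 p.2.2) i).1 :=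
    congrArg Prod.fst (ldEquiv_natAdd a b (bk Φ 0 a (inLines Φ 0 (0, v) p.1).1 p.2.1,
      bk Φ 0 b (inLines Φ 0 (0, v) p.1).2 p.2.2) i)
  rw [h1, bk_zero_fst, inLines_zero_snd]
  simp only [zero_add]

/-! ### Almost all parameters -/

theorem sub_ss {d e : E3} (hd : d ≠ 0) : {s : ℝ | e + s • d = 0}.Subsingleton := by
  intro s hs s' hs'
  have h : (s - s') • d = 0 := by
    rw [sub_smul]
    have h1 : s • d = -e := by
      rw [eq_neg_iff_add_eq_zero, add_comm]; exact hs
    have h2 : s' • d = -e := by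
      rw [eq_neg_iff_add_eq_zero, add_comm]; exact hs'
    rw [h1, h2, sub_self]
  rcases smul_eq_zero.1 h with h | h
  · exact sub_eq_zero.1 h
  · exact absurd h hd

/-- A set all of whose time sections have at most one element is null. -/
theorem null_of_sections {β : Type*} [MeasurableSpace β] {ν : Measure β} [SFinite ν]
    {S : Set (ND × β)} (hS : MeasurableSet S) (c : E3)
    (h : ∀ (r : E3 × E2) (y : β), r.1 ≠ c → {s : ℝ | ((s, r), y) ∈ S}.Subsingleton) :
    (nvol.prod ν) S = 0 := by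
  rw [Measure.prod_apply_symm hS]
  have h1 : ∀ y : β, nvol ((fun q : ND => (q, y)) ⁻¹' S) = 0 := by
    intro y
    have hSy : MeasurableSet ((fun q : ND => (q, y)) ⁻¹' S) :=
      (measurable_id.prodMk measurable_const) hS
    rw [nvol_eq, Measure.prod_apply_symm hSy]
    have h2 : ∀ᵐ r ∂((volume : Measure (E3 × E2)).restrict {y | ‖y.2‖ < 1}), r.1 ≠ c := by
      refine ae_restrict_of_ae ?_
      have h3 : (volume : Measure (E3 × E2)) {r | r.1 = c} = 0 := by
        have h4 : {r : E3 × E2 | r.1 = c} = {c} ×ˢ (univ : Set E2) := by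
          ext r; simp
        rw [h4, Measure.volume_eq_prod, Measure.prod_prod]
        have h5 : (volume : Measure E3) {c} = 0 := measure_singleton c
        rw [h5, zero_mul]
      exact measure_eq_zero_iff_ae_notMem.1 h3
    refine (lintegral_congr_ae (g := fun _ => 0) ?_).trans lintegral_zero
    filter_upwards [h2] with r hr
    exact (h r y hr).measure_zero _
  simp only [h1, lintegral_zero]

/-- The initial positions of the leaves are different. -/
def apt (Φ : E3 → ℝ) (τ : Shape) (v : E3) (p : PD τ) : Prop :=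
  ∀ i j : Fin τ.card, i ≠ j → ps Φ τ v p i ≠ ps Φ τ v p j

theorem measurableSet_apt (hΦ : IsPotential Φ) (τ : Shape) :
    MeasurableSet {x : E3 × PD τ | apt Φ τ x.1 x.2} := by
  have h1 : {x : E3 × PD τ | apt Φ τ x.1 x.2} =
      ⋂ i : Fin τ.card, ⋂ j : Fin τ.card, {x | i ≠ j → ps Φ τ x.1 x.2 i ≠ ps Φ τ x.1 x.2 j} := by
    ext x
    simp only [apt, mem_iInter, Set.mem_ofPred_eq]
  rw [h1]
  refine MeasurableSet.iInter fun i => MeasurableSet.iInter fun j => ?_
  by_cases hij : i = j
  · have h2 : {x : E3 × PD τ | i ≠ j → ps Φ τ x.1 x.2 i ≠ ps Φ τ x.1 x.2 j} = univ := by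
      ext x
      simp [hij]
    rw [h2]
    exact MeasurableSet.univ
  · have h2 : {x : E3 × PD τ | i ≠ j → ps Φ τ x.1 x.2 i ≠ ps Φ τ x.1 x.2 j} =
        {x | ps Φ τ x.1 x.2 i = ps Φ τ x.1 x.2 j}ᶜ := by
      ext x
      simp only [Set.mem_ofPred_eq, mem_compl_iff]
      exact ⟨fun h => h hij, fun h _ => h⟩
    rw [h2]
    exact (measurableSet_eq_fun (measurable_ps hΦ τ i) (measurable_ps hΦ τ j)).compl

/-- **The initial positions of the leaves of a kinetic tree are different**, for almost all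
parameters. -/
theorem ae_apt (hΦ : IsPotential Φ) : ∀ (τ : Shape) (v : E3), ∀ᵐ p ∂pvol τ, apt Φ τ v p
  | .leaf, _ => Eventually.of_forall fun _ i j hij => absurd (Subsingleton.elim (α := Fin 1) i j) hij
  | .node a b, v => by
    have hv1 : Measurable fun p : ND × (PD a × PD b) => (v, p.1) := by fun_prop
    have hv0 : Measurable fun p : ND × (PD a × PD b) => inVel Φ v p.1 :=
      (measurable_inVel hΦ).comp hv1
    -- pairs in the first subtree
    have ha : ∀ᵐ p : ND × (PD a × PD b) ∂(nvol.prod ((pvol a).prod (pvol b))),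
        apt Φ a (inVel Φ v p.1).1 p.2.1 := by
      have hm : MeasurableSet {p : ND × (PD a × PD b) | apt Φ a (inVel Φ v p.1).1 p.2.1} :=
        (hv0.fst.prodMk (by fun_prop) : Measurable fun p : ND × (PD a × PD b) =>
          ((inVel Φ v p.1).1, p.2.1)) (measurableSet_apt hΦ a)
      rw [Measure.ae_prod_iff_ae_ae hm]
      refine Eventually.of_forall fun q => ?_
      exact Measure.quasiMeasurePreserving_fst.ae (ae_apt hΦ a (inVel Φ v q).1)
    have hb : ∀ᵐ p : ND × (PD a × PD b) ∂(nvol.prod ((pvol a).prod (pvol b))),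
        apt Φ b (inVel Φ v p.1).2 p.2.2 := by
      have hm : MeasurableSet {p : ND × (PD a × PD b) | apt Φ b (inVel Φ v p.1).2 p.2.2} :=
        (hv0.snd.prodMk (by fun_prop) : Measurable fun p : ND × (PD a × PD b) =>
          ((inVel Φ v p.1).2, p.2.2)) (measurableSet_apt hΦ b)
      rw [Measure.ae_prod_iff_ae_ae hm]
      refine Eventually.of_forall fun q => ?_
      exact Measure.quasiMeasurePreserving_snd.ae (ae_apt hΦ b (inVel Φ v q).2)
    -- a leaf in each subtree
    have hab : ∀ (i : Fin a.card) (j : Fin b.card),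
        ∀ᵐ p : ND × (PD a × PD b) ∂(nvol.prod ((pvol a).prod (pvol b))),
        ps Φ a (inVel Φ v p.1).1 p.2.1 i + p.1.1 • (v - (inVel Φ v p.1).1) ≠
          ps Φ b (inVel Φ v p.1).2 p.2.2 j + p.1.1 • (v - (inVel Φ v p.1).2) := by
      intro i j
      have m1 : Measurable fun p : ND × (PD a × PD b) =>
          ps Φ a (inVel Φ v p.1).1 p.2.1 i + p.1.1 • (v - (inVel Φ v p.1).1) := by
        have h1 : Measurable fun p : ND × (PD a × PD b) => ((inVel Φ v p.1).1, p.2.1) :=
          hv0.fst.prodMk (by fun_prop)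
        have h2 : Measurable fun p : ND × (PD a × PD b) => p.1.1 := by fun_prop
        exact ((measurable_ps hΦ a i).comp h1).add (h2.smul (measurable_const.sub hv0.fst))
      have m2 : Measurable fun p : ND × (PD a × PD b) =>
          ps Φ b (inVel Φ v p.1).2 p.2.2 j + p.1.1 • (v - (inVel Φ v p.1).2) := by
        have h1 : Measurable fun p : ND × (PD a × PD b) => ((inVel Φ v p.1).2, p.2.2) :=
          hv0.snd.prodMk (by fun_prop)
        have h2 : Measurable fun p : ND × (PD a × PD b) => p.1.1 := by fun_prop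
        exact ((measurable_ps hΦ b j).comp h1).add (h2.smul (measurable_const.sub hv0.snd))
      refine measure_eq_zero_iff_ae_notMem.1 (null_of_sections
        (S := {p : ND × (PD a × PD b) | ps Φ a (inVel Φ v p.1).1 p.2.1 i +
          p.1.1 • (v - (inVel Φ v p.1).1) = ps Φ b (inVel Φ v p.1).2 p.2.2 j +
          p.1.1 • (v - (inVel Φ v p.1).2)}) (measurableSet_eq_fun m1 m2) v ?_)
      intro r y hr
      have hd : (inRel Φ v (0, r)).2 ≠ 0 := by
        rw [← norm_ne_zero_iff, norm_inRel hΦ, norm_ne_zero_iff]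
        exact sub_ne_zero.2 hr.symm
      refine (sub_ss (e := ps Φ b (inVel Φ v (0, r)).2 y.2 j - ps Φ a (inVel Φ v (0, r)).1 y.1 i)
        hd).anti ?_
      intro s hs
      have hs' : ps Φ a (inVel Φ v (s, r)).1 y.1 i + s • (v - (inVel Φ v (s, r)).1) =
        ps Φ b (inVel Φ v (s, r)).2 y.2 j + s • (v - (inVel Φ v (s, r)).2) := hs
      rw [inVel_congr v s 0 r] at hs'
      rw [Set.mem_ofPred_eq, ← inVel_sub]
      have h3 : s • ((inVel Φ v (0, r)).1 - (inVel Φ v (0, r)).2) =
          s • (v - (inVel Φ v (0, r)).2) - s • (v - (inVel Φ v (0, r)).1) := by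
        rw [← smul_sub]; congr 1; abel
      rw [h3]
      have h4 := sub_eq_zero.2 hs'
      rw [← neg_eq_zero, ← h4]
      abel
    have hab' : ∀ᵐ p : ND × (PD a × PD b) ∂(nvol.prod ((pvol a).prod (pvol b))),
        ∀ (i : Fin a.card) (j : Fin b.card),
        ps Φ a (inVel Φ v p.1).1 p.2.1 i + p.1.1 • (v - (inVel Φ v p.1).1) ≠
          ps Φ b (inVel Φ v p.1).2 p.2.2 j + p.1.1 • (v - (inVel Φ v p.1).2) := by
      rw [ae_all_iff]; intro i
      rw [ae_all_iff]; intro j
      exact hab i j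
    have key : ∀ᵐ p : ND × (PD a × PD b) ∂(nvol.prod ((pvol a).prod (pvol b))),
        apt Φ (.node a b) v p := by
      filter_upwards [ha, hb, hab'] with p h1 h2 h3
      have key : ∀ i j : Fin (a.card + b.card), i ≠ j →
          ps Φ (.node a b) v p i ≠ ps Φ (.node a b) v p j := by
        intro i j hij
        induction i using Fin.addCases with
        | left i =>
          induction j using Fin.addCases with
          | left j =>
            rw [ps_left, ps_left]
            intro h4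
            exact h1 i j (fun h5 => hij (by rw [h5])) (add_right_cancel h4)
          | right j =>
            rw [ps_left, ps_right]
            exact h3 i j
        | right i =>
          induction j using Fin.addCases with
          | left j =>
            rw [ps_left, ps_right]
            exact (h3 j i).symm
          | right j =>
            rw [ps_right, ps_right]
            intro h4
            exact h2 i j (fun h5 => hij (by rw [h5])) (add_right_cancel h4)
      exact key
    exact key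

/-- **The initial positions of the leaves of a kinetic tree which hits a given line are different
from a given point.** -/
theorem ae_far (hΦ : IsPotential Φ) (τ : Shape) (ℓ : Ph) (P : E3) :
    ∀ᵐ x : ND × PD τ ∂(nvol.prod (pvol τ)), ∀ i : Fin τ.card,
      (ldEquiv τ (bk Φ 0 τ (hl 0 ℓ x.1) x.2) i).1 ≠ P := by
  rw [ae_all_iff]
  intro i
  have hm : MeasurableSet {x : ND × PD τ | (ldEquiv τ (bk Φ 0 τ (hl 0 ℓ x.1) x.2) i).1 = P} := by
    have h2 := (ldEquiv τ).measurable.comp (measurable_bk_hl hΦ 0 τ ℓ)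
    exact measurableSet_eq_fun ((measurable_pi_apply i).comp h2).fst measurable_const
  refine measure_eq_zero_iff_ae_notMem.1 (null_of_sections hm ℓ.2 ?_)
  intro r y hr
  refine (sub_ss (e := ps Φ τ r.1 y i + ℓ.1 - P) (sub_ne_zero.2 hr.symm)).anti ?_
  intro s hs
  have hs' : (ldEquiv τ (bk Φ 0 τ (hl 0 ℓ (s, r)) y) i).1 = P := hs
  rw [bk_zero_fst, hl_zero] at hs'
  simp only at hs'
  rw [Set.mem_ofPred_eq, ← sub_eq_zero.2 hs']
  abel

theorem ae_apt_hit (hΦ : IsPotential Φ) (τ : Shape) :
    ∀ᵐ x : ND × PD τ ∂(nvol.prod (pvol τ)), apt Φ τ x.1.2.1 x.2 := by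
  have hm : MeasurableSet {x : ND × PD τ | apt Φ τ x.1.2.1 x.2} :=
    (by fun_prop : Measurable fun x : ND × PD τ => (x.1.2.1, x.2)) (measurableSet_apt hΦ τ)
  rw [Measure.ae_prod_iff_ae_ae hm]
  exact Eventually.of_forall fun q => ae_apt hΦ τ q.2.1

section Limits

variable {ι : Type*} {l : Filter ι} {εs : ι → ℝ}

/-- Continuity of the initial positions. -/
theorem tendsto_bk_fst (hε : Tendsto εs l (𝓝 0)) : ∀ (τ : Shape) (p : PD τ) {Ls : ι → Ph} {L : Ph},
    (∀ i, (Ls i).2 = L.2) → Tendsto (fun i => (Ls i).1) l (𝓝 L.1) → ∀ j : Fin τ.card,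
    Tendsto (fun i => (ldEquiv τ (bk Φ (εs i) τ (Ls i) p) j).1) l
      (𝓝 (ldEquiv τ (bk Φ 0 τ L p) j).1)
  | .leaf, _, _, _, _, h2, _ => h2
  | .node a b, p, Ls, L, h1, h2, j => by
    obtain ⟨h4, h5⟩ := tendsto_inLines (Φ := Φ) hε h1 h2 p.1
    have h7 : ∀ i, (inLines Φ (εs i) (Ls i) p.1).1.2 = (inLines Φ 0 L p.1).1.2 := fun i => by
      rw [(inLines_vel (Φ := Φ) (εs i) (Ls i) p.1).1, (inLines_vel (Φ := Φ) 0 L p.1).1, h1]
    have h8 : ∀ i, (inLines Φ (εs i) (Ls i) p.1).2.2 = (inLines Φ 0 L p.1).2.2 := fun i => by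
      rw [(inLines_vel (Φ := Φ) (εs i) (Ls i) p.1).2, (inLines_vel (Φ := Φ) 0 L p.1).2, h1]
    have key : ∀ j : Fin (a.card + b.card), Tendsto (fun i => (ldEquiv (.node a b)
        (bk Φ (εs i) a (inLines Φ (εs i) (Ls i) p.1).1 p.2.1,
          bk Φ (εs i) b (inLines Φ (εs i) (Ls i) p.1).2 p.2.2) j).1) l
        (𝓝 (ldEquiv (.node a b) (bk Φ 0 a (inLines Φ 0 L p.1).1 p.2.1,
          bk Φ 0 b (inLines Φ 0 L p.1).2 p.2.2) j).1) := by
      intro j
      induction j using Fin.addCases with
      | left j =>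
        simp only [ldEquiv_castAdd]
        exact tendsto_bk_fst hε a p.2.1 h7 h4 j
      | right j =>
        simp only [ldEquiv_natAdd]
        exact tendsto_bk_fst hε b p.2.2 h8 h5 j
    exact key j

end Limits

end Vale.Agent.P119.KT
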