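import Vale.Agent.P119.KT.HitLine

/-!
# P119, block KT (`helper860`): convergence of the density of the regular hits

* `gent`, `ae_gent`: generic times; `tok_eventually`;
* `tendsto_lprod_bk`: continuity of the product of the datum along the backward trees;
* `lintegral_regw_le`: the weighted mass of the regular hits;
* `tendsto_regw`: convergence of `regw` in `L¹`.
-/

open MeasureTheory Filter Topology Set
open scoped ENNReal NNReal RealInnerProductSpace

noncomputable section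

namespace Vale.Agent.P119.KT

open Vale.Agent.P119.KU
open Vale.Agent.P119.M (Shape)

variable {Φ : E3 → ℝ} {ε : ℝ}

/-! ### Generic times -/

/-- The time of the last node (`0` for a leaf). -/
def stm : (τ : Shape) → PD τ → ℝ
  | .leaf, _ => 0
  | .node _ _, p => p.1.1

/-- The times of a node and of its children are different. -/
def gent : (τ : Shape) → PD τ → Prop
  | .leaf, _ => True
  | .node a b, p => (stm a p.2.1 ≠ p.1.1 ∧ stm b p.2.2 ≠ p.1.1) ∧ gent a p.2.1 ∧ gent b p.2.2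

theorem measurable_stm : ∀ τ : Shape, Measurable fun p : PD τ => stm τ p
  | .leaf => measurable_const
  | .node a b => by
    have h : Measurable fun p : ND × PD a × PD b => p.1.1 := by fun_prop
    exact h

theorem ex_zero : ∀ (τ : Shape) (v : E3) (p : PD τ), ex 0 τ v p = stm τ p
  | .leaf, _, _ => rfl
  | .node a b, v, p => by
    change p.1.1 + 0 * half (outRel v p.1) = p.1.1
    rw [zero_mul, add_zero]

theorem nvol_time_null (c : ℝ) : nvol {q : ND | q.1 = c} = 0 := by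
  rw [nvol_eq]
  have h : {q : ND | q.1 = c} = {c} ×ˢ (univ : Set (E3 × E2)) := by
    ext q; simp
  rw [h, Measure.prod_prod, Real.volume_singleton, zero_mul]

theorem ae_time_ne {β : Type*} [MeasurableSpace β] {ν : Measure β} [SFinite ν] {c : β → ℝ}
    (hc : Measurable c) : ∀ᵐ x : ND × β ∂(nvol.prod ν), x.1.1 ≠ c x.2 := by
  have hm : MeasurableSet {x : ND × β | x.1.1 = c x.2} :=
    measurableSet_eq_fun (by fun_prop) (hc.comp measurable_snd)
  have h1 : (nvol.prod ν) {x : ND × β | x.1.1 = c x.2} = 0 := by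
    rw [Measure.prod_apply_symm hm]
    have h2 : ∀ y : β, nvol ((fun x : ND => (x, y)) ⁻¹' {x : ND × β | x.1.1 = c x.2}) = 0 :=
      fun y => nvol_time_null (c y)
    simp only [h2, lintegral_zero]
  exact measure_eq_zero_iff_ae_notMem.1 h1

theorem ae_gent : ∀ τ : Shape, ∀ᵐ p ∂pvol τ, gent τ p
  | .leaf => Eventually.of_forall fun _ => trivial
  | .node a b => by
    have h1 : ∀ᵐ p : ND × (PD a × PD b) ∂(nvol.prod ((pvol a).prod (pvol b))),
        p.1.1 ≠ stm a p.2.1 :=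
      ae_time_ne (c := fun y : PD a × PD b => stm a y.1) ((measurable_stm a).comp measurable_fst)
    have h2 : ∀ᵐ p : ND × (PD a × PD b) ∂(nvol.prod ((pvol a).prod (pvol b))),
        p.1.1 ≠ stm b p.2.2 :=
      ae_time_ne (c := fun y : PD a × PD b => stm b y.2) ((measurable_stm b).comp measurable_snd)
    have h3 : ∀ᵐ y : PD a × PD b ∂((pvol a).prod (pvol b)), gent a y.1 ∧ gent b y.2 := by
      filter_upwards [Measure.quasiMeasurePreserving_fst.ae (ae_gent a),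
        Measure.quasiMeasurePreserving_snd.ae (ae_gent b)] with y ha hb
      exact ⟨ha, hb⟩
    have h4 : ∀ᵐ p : ND × (PD a × PD b) ∂(nvol.prod ((pvol a).prod (pvol b))),
        gent a p.2.1 ∧ gent b p.2.2 := Measure.quasiMeasurePreserving_snd.ae h3
    have h5 : ∀ᵐ p : ND × (PD a × PD b) ∂(nvol.prod ((pvol a).prod (pvol b))),
        gent (.node a b) p := by
      filter_upwards [h1, h2, h4] with p h1 h2 h4
      exact ⟨⟨h1.symm, h2.symm⟩, h4⟩
    exact h5

section Limits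

variable {ι : Type*} {l : Filter ι} {εs : ι → ℝ}

theorem tendsto_ex (hε : Tendsto εs l (𝓝 0)) : ∀ (τ : Shape) (v : E3) (p : PD τ),
    Tendsto (fun i => ex (εs i) τ v p) l (𝓝 (stm τ p))
  | .leaf, _, _ => tendsto_const_nhds
  | .node a b, v, p => by
    have h := (hε.mul_const (half (outRel v p.1))).const_add p.1.1
    rw [zero_mul, add_zero] at h
    exact h

theorem lt_iff_eventually {f g : ι → ℝ} {a b : ℝ} (hf : Tendsto f l (𝓝 a))
    (hg : Tendsto g l (𝓝 b)) (hab : a ≠ b) : ∀ᶠ i in l, (f i < g i ↔ a < b) := by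
  rcases lt_or_gt_of_ne hab with h | h
  · filter_upwards [hf.eventually_lt hg h] with i hi
    exact ⟨fun _ => h, fun _ => hi⟩
  · filter_upwards [hg.eventually_lt hf h] with i hi
    exact ⟨fun h' => absurd h' (not_lt.2 hi.le), fun h' => absurd h' (not_lt.2 h.le)⟩

theorem le_iff_eventually {f g : ι → ℝ} {a b : ℝ} (hf : Tendsto f l (𝓝 a))
    (hg : Tendsto g l (𝓝 b)) (hab : a ≠ b) : ∀ᶠ i in l, (f i ≤ g i ↔ a ≤ b) := by
  filter_upwards [lt_iff_eventually hg hf hab.symm] with i hi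
  rw [← not_lt, ← not_lt, hi]

theorem tok_eventually (hε : Tendsto εs l (𝓝 0)) : ∀ (τ : Shape) (v : E3) (p : PD τ),
    gent τ p → ∀ᶠ i in l, (tok Φ (εs i) τ v p ↔ tok Φ 0 τ v p)
  | .leaf, _, _, _ => Eventually.of_forall fun _ => Iff.rfl
  | .node a b, v, p, h => by
    have h1 : Tendsto (fun i => p.1.1 + εs i * tin (inRel Φ v p.1)) l (𝓝 p.1.1) := by
      have h := (hε.mul_const (tin (inRel Φ v p.1))).const_add p.1.1
      rw [zero_mul, add_zero] at h
      exact h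
    filter_upwards [tok_eventually hε a (inVel Φ v p.1).1 p.2.1 h.2.1,
      tok_eventually hε b (inVel Φ v p.1).2 p.2.2 h.2.2,
      lt_iff_eventually (tendsto_ex hε a (inVel Φ v p.1).1 p.2.1) h1 h.1.1,
      lt_iff_eventually (tendsto_ex hε b (inVel Φ v p.1).2 p.2.2) h1 h.1.2] with i h2 h3 h4 h5
    change ((tok Φ (εs i) a (inVel Φ v p.1).1 p.2.1 ∧ tok Φ (εs i) b (inVel Φ v p.1).2 p.2.2) ∧
      ex (εs i) a (inVel Φ v p.1).1 p.2.1 < p.1.1 + εs i * tin (inRel Φ v p.1) ∧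
      ex (εs i) b (inVel Φ v p.1).2 p.2.2 < p.1.1 + εs i * tin (inRel Φ v p.1)) ↔
      ((tok Φ 0 a (inVel Φ v p.1).1 p.2.1 ∧ tok Φ 0 b (inVel Φ v p.1).2 p.2.2) ∧
      ex 0 a (inVel Φ v p.1).1 p.2.1 < p.1.1 + 0 * tin (inRel Φ v p.1) ∧
      ex 0 b (inVel Φ v p.1).2 p.2.2 < p.1.1 + 0 * tin (inRel Φ v p.1))
    rw [h2, h3, h4, h5, ex_zero, ex_zero, zero_mul, add_zero]

theorem lprod_ne_top {g : Ph → ℝ≥0∞} (hg : ∀ z, g z ≠ ∞) : ∀ (τ : Shape) (z : LD τ),
    lprod g τ z ≠ ∞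
  | .leaf, z => hg z
  | .node a b, z => ENNReal.mul_ne_top (lprod_ne_top hg a z.1) (lprod_ne_top hg b z.2)

theorem wt_ne_top : ∀ (τ : Shape) (v : E3) (p : PD τ), wt Φ τ v p ≠ ∞
  | .leaf, _, _ => ENNReal.one_ne_top
  | .node a b, v, p => ENNReal.mul_ne_top (nw_ne_top v p.1)
      (ENNReal.mul_ne_top (wt_ne_top a _ _) (wt_ne_top b _ _))

/-- Continuity of the product of the datum along the backward trees. -/
theorem tendsto_lprod_bk {g : Ph → ℝ≥0∞} (hc : ∀ v : E3, Continuous fun x : E3 => g (x, v))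
    (hfin : ∀ z, g z ≠ ∞) {ε0 : ℝ} (hε : Tendsto εs l (𝓝 ε0)) :
    ∀ (τ : Shape) (v : E3) (p : PD τ) (xs : ι → E3) (x0 : E3), Tendsto xs l (𝓝 x0) →
    Tendsto (fun i => lprod g τ (bk Φ (εs i) τ (xs i, v) p)) l
      (𝓝 (lprod g τ (bk Φ ε0 τ (x0, v) p)))
  | .leaf, v, _, xs, x0, hx => ((hc v).tendsto x0).comp hx
  | .node a b, v, p, xs, x0, hx => by
    have hL : ∀ (ε' : ℝ) (x : E3), inLines Φ ε' (x, v) p.1 =
        ((x + (p.1.1 / 2) • ((outRel v p.1).2 - (inRel Φ v p.1).2) +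
          (ε' / 2) • ((inRel Φ v p.1).1 - (outRel v p.1).1), (inVel Φ v p.1).1),
        (x + (p.1.1 / 2) • ((outRel v p.1).2 + (inRel Φ v p.1).2) -
          (ε' / 2) • ((inRel Φ v p.1).1 + (outRel v p.1).1), (inVel Φ v p.1).2)) :=
      fun ε' x => inLines_def ε' (x, v) p.1
    have hε2 : Tendsto (fun i => εs i / 2) l (𝓝 (ε0 / 2)) := hε.div_const 2
    have ha := tendsto_lprod_bk hc hfin hε a (inVel Φ v p.1).1 p.2.1
      (fun i => xs i + (p.1.1 / 2) • ((outRel v p.1).2 - (inRel Φ v p.1).2) +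
          (εs i / 2) • ((inRel Φ v p.1).1 - (outRel v p.1).1))
      (x0 + (p.1.1 / 2) • ((outRel v p.1).2 - (inRel Φ v p.1).2) +
          (ε0 / 2) • ((inRel Φ v p.1).1 - (outRel v p.1).1))
      ((hx.add tendsto_const_nhds).add (hε2.smul_const _))
    have hb := tendsto_lprod_bk hc hfin hε b (inVel Φ v p.1).2 p.2.2
      (fun i => xs i + (p.1.1 / 2) • ((outRel v p.1).2 + (inRel Φ v p.1).2) -
          (εs i / 2) • ((inRel Φ v p.1).1 + (outRel v p.1).1))
      (x0 + (p.1.1 / 2) • ((outRel v p.1).2 + (inRel Φ v p.1).2) -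
          (ε0 / 2) • ((inRel Φ v p.1).1 + (outRel v p.1).1))
      ((hx.add tendsto_const_nhds).sub (hε2.smul_const _))
    have h := ENNReal.Tendsto.mul ha (Or.inr (lprod_ne_top hfin b _)) hb
      (Or.inr (lprod_ne_top hfin a _))
    have e : ∀ (ε' : ℝ) (x : E3), lprod g (.node a b) (bk Φ ε' (.node a b) (x, v) p) =
        lprod g a (bk Φ ε' a (inLines Φ ε' (x, v) p.1).1 p.2.1) *
          lprod g b (bk Φ ε' b (inLines Φ ε' (x, v) p.1).2 p.2.2) := fun _ _ => rfl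
    simp only [e, hL]
    exact h

end Limits

/-! ### Domination -/

theorem lprod_le {g : Ph → ℝ≥0∞} {M β : ℝ} (hM : 0 ≤ M) (hg : ∀ x v, g (x, v) ≤ KE.gs M β v) :
    ∀ (τ : Shape) (z : LD τ), lprod g τ z ≤
      ENNReal.ofReal (M ^ τ.card * Real.exp (-β * enL τ z))
  | .leaf, z => by
    have h := hg z.1 z.2
    unfold KE.gs at h
    have e : M ^ (Shape.card .leaf) = M := pow_one M
    rw [e]
    exact h
  | .node a b, z => by
    have h := mul_le_mul' (lprod_le hM hg a z.1) (lprod_le hM hg b z.2)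
    rw [← ENNReal.ofReal_mul (by positivity)] at h
    refine h.trans (ENNReal.ofReal_le_ofReal (le_of_eq ?_))
    have e1 : M ^ (Shape.card (.node a b)) = M ^ a.card * M ^ b.card := pow_add M _ _
    have e2 : Real.exp (-β * enL (.node a b) z) =
        Real.exp (-β * enL a z.1) * Real.exp (-β * enL b z.2) := by
      rw [← Real.exp_add, ← mul_add]
      rfl
    rw [e1, e2]
    ring

/-- The dominating function. -/
def domw (Φ : E3 → ℝ) (T M γ : ℝ) (τ : Shape) (v : E3) (h : ℝ → ℝ≥0∞) (x : ND × PD τ) : ℝ≥0∞ :=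
  ‖v - x.1.2.1‖ₑ * (h x.1.1 * ENNReal.ofReal (M ^ τ.card * Real.exp (-γ * ‖x.1.2.1‖ ^ 2))) *
    (wt Φ τ x.1.2.1 x.2 * {y : E3 × PD τ | win T Φ τ y.1 y.2}.indicator
      (fun y => ENNReal.ofReal (Real.exp (-γ * enP τ y.2))) (x.1.2.1, x.2))

theorem measurable_domw (hΦ : IsPotential Φ) (T M γ : ℝ) (τ : Shape) (v : E3) {h : ℝ → ℝ≥0∞}
    (hm : Measurable h) : Measurable (domw Φ T M γ τ v h) := by
  have e1 : Measurable fun x : ND × PD τ => ‖v - x.1.2.1‖ₑ := by fun_prop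
  have e2 : Measurable fun x : ND × PD τ => h x.1.1 := hm.comp (by fun_prop)
  have e3 : Measurable fun x : ND × PD τ =>
      ENNReal.ofReal (M ^ τ.card * Real.exp (-γ * ‖x.1.2.1‖ ^ 2)) := by fun_prop
  have hvm : Measurable fun x : ND × PD τ => (x.1.2.1, x.2) := by fun_prop
  have hWm : Measurable fun x : E3 × PD τ => wt Φ τ x.1 x.2 *
      {y : E3 × PD τ | win T Φ τ y.1 y.2}.indicator
      (fun y => ENNReal.ofReal (Real.exp (-γ * enP τ y.2))) (x.1, x.2) :=
    (measurable_wt hΦ τ).mul (((measurable_enP τ).comp measurable_snd |>.const_mul (-γ)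
        |> Real.measurable_exp.comp |> ENNReal.measurable_ofReal.comp).indicator
        (measurableSet_win hΦ T τ))
  exact (e1.mul (e2.mul e3)).mul (hWm.comp hvm)

/-- The pointwise bound of `regw`. -/
theorem regw_le {g : Ph → ℝ≥0∞} {M β T : ℝ} (hΦ : IsPotential Φ) (hM : 0 ≤ M)
    (hg : ∀ x v, g (x, v) ≤ KE.gs M β v) (hε : 0 ≤ ε) (hε1 : ε ≤ 1) (τ : Shape) (ℓ : Ph)
    {a b : ℝ} (hbT : b ≤ T) (x : ND × PD τ) :
    regw g Φ ε τ ℓ a b x ≤ domw Φ T M β τ ℓ.2 ((Ico a b).indicator 1) x := by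
  unfold regw domw
  by_cases hw : wt Φ τ x.1.2.1 x.2 = 0
  · rw [hw, zero_mul, mul_zero]; exact bot_le
  have hgood := (wt_ne_zero_iff τ x.1.2.1 x.2).1 hw
  by_cases hx : x ∈ regset Φ ε τ a b
  · have hwin : win T Φ τ x.1.2.1 x.2 :=
      win_of_tok hΦ hε hε1 τ _ _ hgood hx.1 (hx.2.1.trans (hx.2.2.2.le.trans hbT))
    have h1 : (Ico a b).indicator (1 : ℝ → ℝ≥0∞) x.1.1 = 1 :=
      indicator_of_mem (by exact hx.2.2) _
    have h1' : {y : E3 × PD τ | win T Φ τ y.1 y.2}.indicator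
        (fun y => ENNReal.ofReal (Real.exp (-β * enP τ y.2))) (x.1.2.1, x.2) =
        ENNReal.ofReal (Real.exp (-β * enP τ x.2)) := indicator_of_mem (by exact hwin) _
    rw [indicator_of_mem hx, h1', h1, one_mul]
    have h2 := lprod_le hM hg τ (bk Φ ε τ (hl ε ℓ x.1) x.2)
    rw [enL_bk hΦ, hl_snd] at h2
    have h3 : M ^ τ.card * Real.exp (-β * (‖x.1.2.1‖ ^ 2 + enP τ x.2)) =
        M ^ τ.card * Real.exp (-β * ‖x.1.2.1‖ ^ 2) * Real.exp (-β * enP τ x.2) := by
      rw [mul_add, Real.exp_add]; ring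
    rw [h3, ENNReal.ofReal_mul (by positivity)] at h2
    calc ‖ℓ.2 - x.1.2.1‖ₑ * (wt Φ τ x.1.2.1 x.2 * lprod g τ (bk Φ ε τ (hl ε ℓ x.1) x.2))
        ≤ ‖ℓ.2 - x.1.2.1‖ₑ * (wt Φ τ x.1.2.1 x.2 *
          (ENNReal.ofReal (M ^ τ.card * Real.exp (-β * ‖x.1.2.1‖ ^ 2)) *
            ENNReal.ofReal (Real.exp (-β * enP τ x.2)))) := by gcongr
      _ = _ := by ring
  · rw [indicator_of_notMem hx, mul_zero, mul_zero]; exact bot_le

theorem lintegral_enorm_sub_gauss {γ K : ℝ} (hγ : 0 < γ) (hK : 0 ≤ K) (v : E3) :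
    ∫⁻ w : E3, ‖v - w‖ₑ * ENNReal.ofReal (K * Real.exp (-γ * ‖w‖ ^ 2)) ≤
      ENNReal.ofReal (K * Real.exp (1 / (4 * (γ / 2))) * (Real.pi / (γ / 2)) ^ (3 / 2 : ℝ) *
        (1 + ‖v‖)) := by
  have hγ2 : 0 < γ / 2 := by positivity
  have h1 : ∀ w : E3, ‖v - w‖ₑ * ENNReal.ofReal (K * Real.exp (-γ * ‖w‖ ^ 2)) ≤
      KE.gs (K * Real.exp (1 / (4 * (γ / 2))) * (1 + ‖v‖)) (γ / 2) w := by
    intro w
    unfold KE.gs
    rw [← ofReal_norm, ← ENNReal.ofReal_mul (norm_nonneg _)]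
    refine ENNReal.ofReal_le_ofReal ?_
    have h2 : ‖v - w‖ ≤ (1 + ‖v‖) * (1 + ‖w‖) := by
      have := norm_sub_le v w
      nlinarith [norm_nonneg v, norm_nonneg w, mul_nonneg (norm_nonneg v) (norm_nonneg w)]
    have h3 := one_add_le_exp_sq hγ2 ‖w‖
    calc ‖v - w‖ * (K * Real.exp (-γ * ‖w‖ ^ 2))
        ≤ ((1 + ‖v‖) * (Real.exp (1 / (4 * (γ / 2))) * Real.exp (γ / 2 * ‖w‖ ^ 2))) *
          (K * Real.exp (-γ * ‖w‖ ^ 2)) := by
          refine mul_le_mul_of_nonneg_right (h2.trans ?_) (by positivity)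
          exact mul_le_mul_of_nonneg_left h3 (by positivity)
      _ = K * Real.exp (1 / (4 * (γ / 2))) * (1 + ‖v‖) *
          (Real.exp (γ / 2 * ‖w‖ ^ 2) * Real.exp (-γ * ‖w‖ ^ 2)) := by ring
      _ = K * Real.exp (1 / (4 * (γ / 2))) * (1 + ‖v‖) * Real.exp (-(γ / 2) * ‖w‖ ^ 2) := by
          rw [← Real.exp_add]
          congr 2
          ring
  refine (lintegral_mono h1).trans ?_
  rw [KE.lintegral_gs (by positivity) hγ2]
  refine ENNReal.ofReal_le_ofReal (le_of_eq ?_)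
  ring

/-- **The mass of the dominating function**, for every weight `h` in time. -/
theorem lintegral_domw_le (hΦ : IsPotential Φ) {γ T M : ℝ} (hγ : 0 < γ) (hT : 0 ≤ T) (hM : 0 ≤ M)
    (τ : Shape) : ∃ C : ℝ, 0 ≤ C ∧ ∀ (v : E3) (h : ℝ → ℝ≥0∞), Measurable h →
      ∫⁻ x, domw Φ T M γ τ v h x ∂(nvol.prod (pvol τ)) ≤
        ENNReal.ofReal (C * (1 + ‖v‖)) * ∫⁻ s, h s := by
  obtain ⟨C₁, hC₁, h1⟩ := lintegral_win_le hΦ (β := γ) (t := T) hγ hT τ (γ / 2) (by positivity)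
  set K : ℝ := M ^ τ.card * C₁ with hK
  have hK0 : 0 ≤ K := by positivity
  set D : ℝ≥0∞ := volume {b : E2 | ‖b‖ < 1} with hD
  refine ⟨D.toReal * (K * Real.exp (1 / (4 * (γ / 2 / 2))) *
    (Real.pi / (γ / 2 / 2)) ^ (3 / 2 : ℝ)), by positivity, ?_⟩
  intro v h hm
  have hball : MeasurableSet {b : E2 | ‖b‖ < 1} := measurableSet_lt (by fun_prop) (by fun_prop)
  set W : E3 → PD τ → ℝ≥0∞ := fun v p => wt Φ τ v p *
    {y : E3 × PD τ | win T Φ τ y.1 y.2}.indicator
      (fun y => ENNReal.ofReal (Real.exp (-γ * enP τ y.2))) (v, p) with hW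
  have hWm : Measurable fun x : E3 × PD τ => W x.1 x.2 :=
    (measurable_wt hΦ τ).mul (((measurable_enP τ).comp measurable_snd |>.const_mul (-γ)
        |> Real.measurable_exp.comp |> ENNReal.measurable_ofReal.comp).indicator
        (measurableSet_win hΦ T τ))
  set A : ND → ℝ≥0∞ := fun q => ‖v - q.2.1‖ₑ * (h q.1 *
    ENNReal.ofReal (M ^ τ.card * Real.exp (-γ * ‖q.2.1‖ ^ 2))) with hA
  have hAm : Measurable A := by
    have e1 : Measurable fun q : ND => ‖v - q.2.1‖ₑ := by fun_prop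
    have e2 : Measurable fun q : ND => h q.1 := hm.comp (by fun_prop)
    exact e1.mul (e2.mul (by fun_prop))
  have hvm : Measurable fun x : ND × PD τ => (x.1.2.1, x.2) := by fun_prop
  have hm2 : Measurable fun x : ND × PD τ => A x.1 * W x.1.2.1 x.2 :=
    (hAm.comp measurable_fst).mul (hWm.comp hvm)
  calc ∫⁻ x, domw Φ T M γ τ v h x ∂(nvol.prod (pvol τ))
      = ∫⁻ x, A x.1 * W x.1.2.1 x.2 ∂(nvol.prod (pvol τ)) := rfl
    _ = ∫⁻ q, A q * ∫⁻ p, W q.2.1 p ∂pvol τ ∂nvol := by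
        rw [lintegral_prod _ hm2.aemeasurable]
        refine lintegral_congr fun q => ?_
        have e1 : Measurable fun p : PD τ => W q.2.1 p :=
          hWm.comp (measurable_const.prodMk measurable_id : Measurable fun p : PD τ => (q.2.1, p))
        exact lintegral_const_mul (A q) e1
    _ ≤ ∫⁻ q, ‖v - q.2.1‖ₑ * (h q.1 *
          ENNReal.ofReal (K * Real.exp (-(γ / 2) * ‖q.2.1‖ ^ 2))) ∂nvol := by
        refine lintegral_mono fun q => ?_
        refine (mul_le_mul' le_rfl (h1 q.2.1)).trans (le_of_eq ?_)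
        rw [hA]
        simp only
        rw [mul_assoc, mul_assoc, ← ENNReal.ofReal_mul (by positivity)]
        congr 3
        rw [hK]
        have e : Real.exp (-(γ / 2) * ‖q.2.1‖ ^ 2) =
            Real.exp (-γ * ‖q.2.1‖ ^ 2) * Real.exp (γ / 2 * ‖q.2.1‖ ^ 2) := by
          rw [← Real.exp_add]; congr 1; ring
        rw [e]; ring
    _ = D * ((∫⁻ s, h s) * ∫⁻ w : E3, ‖v - w‖ₑ *
          ENNReal.ofReal (K * Real.exp (-(γ / 2) * ‖w‖ ^ 2))) := by
        have e1 : Measurable fun x : ℝ × E3 => ‖v - x.2‖ₑ * (h x.1 *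
          ENNReal.ofReal (K * Real.exp (-(γ / 2) * ‖x.2‖ ^ 2))) := by
          have e2 : Measurable fun x : ℝ × E3 => ‖v - x.2‖ₑ := by fun_prop
          exact e2.mul ((hm.comp measurable_fst).mul (by fun_prop))
        have e3 := lintegral_nd (measurable_one.indicator hball) e1
        rw [lintegral_indicator_one hball] at e3
        have e4 : ∫⁻ q, ‖v - q.2.1‖ₑ * (h q.1 *
          ENNReal.ofReal (K * Real.exp (-(γ / 2) * ‖q.2.1‖ ^ 2))) ∂nvol =
          ∫⁻ q : ND, {b : E2 | ‖b‖ < 1}.indicator 1 q.2.2 * (‖v - q.2.1‖ₑ *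
            (h q.1 * ENNReal.ofReal (K * Real.exp (-(γ / 2) * ‖q.2.1‖ ^ 2)))) := by
          have hb3 : MeasurableSet {q : ND | ‖q.2.2‖ < 1} :=
            measurableSet_lt (by fun_prop) (by fun_prop)
          unfold nvol
          rw [← lintegral_indicator hb3]
          refine lintegral_congr fun q => ?_
          by_cases hq : ‖q.2.2‖ < 1
          · have h1 : {b : E2 | ‖b‖ < 1}.indicator (1 : E2 → ℝ≥0∞) q.2.2 = 1 :=
              indicator_of_mem (by exact hq) _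
            rw [indicator_of_mem (s := {q : ND | ‖q.2.2‖ < 1}) (by exact hq), h1, one_mul]
          · have h1 : {b : E2 | ‖b‖ < 1}.indicator (1 : E2 → ℝ≥0∞) q.2.2 = 0 :=
              indicator_of_notMem (by exact hq) _
            rw [indicator_of_notMem (s := {q : ND | ‖q.2.2‖ < 1}) (by exact hq), h1, zero_mul]
        rw [e4, e3]
        congr 1
        rw [← lintegral_const_mul _ (by
          have e2 : Measurable fun w : E3 => ‖v - w‖ₑ := by fun_prop
          exact e2.mul (by fun_prop))]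
        refine lintegral_congr fun w => ?_
        have e5 : ∫⁻ s : ℝ, ‖v - w‖ₑ * (h s *
            ENNReal.ofReal (K * Real.exp (-(γ / 2) * ‖w‖ ^ 2))) =
            ‖v - w‖ₑ * ((∫⁻ s, h s) *
              ENNReal.ofReal (K * Real.exp (-(γ / 2) * ‖w‖ ^ 2))) := by
          rw [lintegral_const_mul _ (hm.mul_const _), lintegral_mul_const _ hm]
        refine e5.trans ?_
        ring
    _ ≤ D * ((∫⁻ s, h s) * ENNReal.ofReal (K * Real.exp (1 / (4 * (γ / 2 / 2))) *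
          (Real.pi / (γ / 2 / 2)) ^ (3 / 2 : ℝ) * (1 + ‖v‖))) := by
        gcongr
        exact lintegral_enorm_sub_gauss (by positivity) hK0 v
    _ = _ := by
        have hDt : D = ENNReal.ofReal D.toReal :=
            (ENNReal.ofReal_toReal volume_disc_lt_top.ne).symm
        nth_rewrite 1 [hDt]
        rw [mul_comm (∫⁻ s, h s), ← mul_assoc, ← ENNReal.ofReal_mul
          ENNReal.toReal_nonneg]
        congr 2
        ring

theorem domw_mul_exp (T M β : ℝ) (τ : Shape) (v : E3) (hM : 0 ≤ M) (h h' : ℝ → ℝ≥0∞)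
    (x : ND × PD τ) : domw Φ T M β τ v h x *
      (h' x.1.1 * ENNReal.ofReal (Real.exp (β / 2 * (‖x.1.2.1‖ ^ 2 + enP τ x.2)))) =
      domw Φ T M (β / 2) τ v (fun s => h s * h' s) x := by
  unfold domw
  have e1 : Real.exp (β / 2 * (‖x.1.2.1‖ ^ 2 + enP τ x.2)) =
      Real.exp (β / 2 * ‖x.1.2.1‖ ^ 2) * Real.exp (β / 2 * enP τ x.2) := by
    rw [mul_add, Real.exp_add]
  have e2 : M ^ τ.card * Real.exp (-(β / 2) * ‖x.1.2.1‖ ^ 2) =
      M ^ τ.card * Real.exp (-β * ‖x.1.2.1‖ ^ 2) * Real.exp (β / 2 * ‖x.1.2.1‖ ^ 2) := by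
    rw [mul_assoc, ← Real.exp_add]; congr 2; ring
  have e3 : {y : E3 × PD τ | win T Φ τ y.1 y.2}.indicator
      (fun y => ENNReal.ofReal (Real.exp (-(β / 2) * enP τ y.2))) (x.1.2.1, x.2) =
      {y : E3 × PD τ | win T Φ τ y.1 y.2}.indicator
      (fun y => ENNReal.ofReal (Real.exp (-β * enP τ y.2))) (x.1.2.1, x.2) *
        ENNReal.ofReal (Real.exp (β / 2 * enP τ x.2)) := by
    by_cases hx : win T Φ τ x.1.2.1 x.2
    · rw [indicator_of_mem (by exact hx), indicator_of_mem (by exact hx),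
        ← ENNReal.ofReal_mul (Real.exp_nonneg _), ← Real.exp_add]
      congr 2
      ring
    · rw [indicator_of_notMem (by exact hx), indicator_of_notMem (by exact hx), zero_mul]
  rw [e1, e2, e3, ENNReal.ofReal_mul (Real.exp_nonneg _),
    ENNReal.ofReal_mul (p := M ^ τ.card * Real.exp (-β * ‖x.1.2.1‖ ^ 2)) (by positivity)]
  ring

/-- **The weighted mass of the regular hits of a line**, uniformly in `ε ∈ [0, 1]`, in the line and
in the interval. -/
theorem lintegral_regw_le (hΦ : IsPotential Φ) {β T M : ℝ} (hβ : 0 < β) (hT : 0 ≤ T) (hM : 0 ≤ M)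
    (τ : Shape) : ∃ C : ℝ, 0 ≤ C ∧ ∀ (g : Ph → ℝ≥0∞), (∀ x v, g (x, v) ≤ KE.gs M β v) →
      ∀ (ε : ℝ), 0 ≤ ε → ε ≤ 1 → ∀ (ℓ : Ph) (a b : ℝ), b ≤ T → ∀ h : ℝ → ℝ≥0∞, Measurable h →
      ∫⁻ x, regw g Φ ε τ ℓ a b x *
        (h x.1.1 * ENNReal.ofReal (Real.exp (β / 2 * (‖x.1.2.1‖ ^ 2 + enP τ x.2))))
          ∂(nvol.prod (pvol τ)) ≤
      ENNReal.ofReal (C * (1 + ‖ℓ.2‖)) * ∫⁻ s in Ico a b, h s := by
  obtain ⟨C, hC, h1⟩ := lintegral_domw_le hΦ (γ := β / 2) (by positivity) hT hM τ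
  refine ⟨C, hC, ?_⟩
  intro g hg ε hε hε1 ℓ a b hb h hm
  refine (lintegral_mono fun x => mul_le_mul' (regw_le hΦ hM hg hε hε1 τ ℓ hb x) le_rfl).trans ?_
  simp only [domw_mul_exp T M β τ ℓ.2 hM]
  refine (h1 ℓ.2 (fun s => (Ico a b).indicator 1 s * h s)
    ((measurable_one.indicator measurableSet_Ico).mul hm)).trans (le_of_eq ?_)
  rw [← lintegral_indicator measurableSet_Ico]
  congr 1
  refine lintegral_congr fun s => ?_
  by_cases hs : s ∈ Ico a b
  · rw [indicator_of_mem hs, indicator_of_mem hs, Pi.one_apply, one_mul]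
  · rw [indicator_of_notMem hs, indicator_of_notMem hs, zero_mul]

/-! ### Convergence -/

section Limits

variable {ι : Type*} {l : Filter ι} {εs : ι → ℝ}

theorem tendsto_hl (hε : Tendsto εs l (𝓝 0)) {ys : ι → E3} {y v : E3} (hy : Tendsto ys l (𝓝 y))
    (q : ND) : Tendsto (fun i => (hl (εs i) (ys i, v) q).1) l (𝓝 (hl 0 (y, v) q).1) := by
  simp only [hl_fst]
  exact (hy.add tendsto_const_nhds).add (hε.smul_const _)

/-- Pointwise convergence of the density. -/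
theorem tendsto_regw_point {g : Ph → ℝ≥0∞} (hc : ∀ v : E3, Continuous fun x : E3 => g (x, v))
    (hfin : ∀ z, g z ≠ ∞) (τ : Shape) (hε : Tendsto εs l (𝓝 0)) {ys : ι → E3} {y v : E3}
    (hy : Tendsto ys l (𝓝 y)) {as bs : ι → ℝ} {a b : ℝ} (ha : Tendsto as l (𝓝 a))
    (hb : Tendsto bs l (𝓝 b)) {x : ND × PD τ} (h1 : gent τ x.2) (h2 : x.1.1 ≠ stm τ x.2)
    (h3 : x.1.1 ≠ a) (h4 : x.1.1 ≠ b) :
    Tendsto (fun i => regw g Φ (εs i) τ (ys i, v) (as i) (bs i) x) l
      (𝓝 (regw g Φ 0 τ (y, v) a b x)) := by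
  have hset : ∀ᶠ i in l, (x ∈ regset Φ (εs i) τ (as i) (bs i) ↔ x ∈ regset Φ 0 τ a b) := by
    filter_upwards [tok_eventually (Φ := Φ) hε τ x.1.2.1 x.2 h1,
      le_iff_eventually (tendsto_ex hε τ x.1.2.1 x.2) (tendsto_const_nhds (x := x.1.1)) h2.symm,
      le_iff_eventually ha (tendsto_const_nhds (x := x.1.1)) h3.symm,
      lt_iff_eventually (tendsto_const_nhds (x := x.1.1)) hb h4] with i e1 e2 e3 e4
    change (tok Φ (εs i) τ x.1.2.1 x.2 ∧ ex (εs i) τ x.1.2.1 x.2 ≤ x.1.1 ∧ as i ≤ x.1.1 ∧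
      x.1.1 < bs i) ↔ (tok Φ 0 τ x.1.2.1 x.2 ∧ ex 0 τ x.1.2.1 x.2 ≤ x.1.1 ∧ a ≤ x.1.1 ∧
      x.1.1 < b)
    rw [e1, e2, e3, e4, ex_zero]
  have hbk : Tendsto (fun i => lprod g τ (bk Φ (εs i) τ (hl (εs i) (ys i, v) x.1) x.2)) l
      (𝓝 (lprod g τ (bk Φ 0 τ (hl 0 (y, v) x.1) x.2))) := by
    have e1 : ∀ (ε' : ℝ) (y' : E3), hl ε' (y', v) x.1 = ((hl ε' (y', v) x.1).1, x.1.2.1) := by
      intro ε' y'
      ext1
      · rfl
      · exact hl_snd _ _ _
    have e2 := tendsto_lprod_bk (Φ := Φ) hc hfin hε τ x.1.2.1 x.2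
      (fun i => (hl (εs i) (ys i, v) x.1).1) (hl 0 (y, v) x.1).1 (tendsto_hl hε hy x.1)
    simp only [← e1] at e2
    exact e2
  unfold regw
  refine ENNReal.Tendsto.const_mul (ENNReal.Tendsto.const_mul ?_ (Or.inr (wt_ne_top τ _ _)))
    (Or.inr enorm_ne_top)
  by_cases hx : x ∈ regset Φ 0 τ a b
  · rw [indicator_of_mem hx]
    refine hbk.congr' ?_
    filter_upwards [hset] with i hi
    rw [indicator_of_mem (hi.2 hx)]
  · rw [indicator_of_notMem hx]
    refine tendsto_const_nhds.congr' ?_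
    filter_upwards [hset] with i hi
    rw [indicator_of_notMem (fun h => hx (hi.1 h))]

/-- **Convergence of the density of the regular hits in `L¹`.** -/
theorem tendsto_regw [l.IsCountablyGenerated] (hΦ : IsPotential Φ) {g : Ph → ℝ≥0∞}
    (hgm : Measurable g) (hc : ∀ v : E3, Continuous fun x : E3 => g (x, v)) {M β : ℝ}
    (hβ : 0 < β) (hM : 0 ≤ M) (hg : ∀ x v, g (x, v) ≤ KE.gs M β v) (τ : Shape)
    (hε : Tendsto εs l (𝓝 0)) (hε0 : ∀ᶠ i in l, 0 ≤ εs i) {ys : ι → E3} {y v : E3}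
    (hy : Tendsto ys l (𝓝 y)) {as bs : ι → ℝ} {a b : ℝ} (ha : Tendsto as l (𝓝 a))
    (hb : Tendsto bs l (𝓝 b)) :
    Tendsto (fun i => ∫⁻ x, ((regw g Φ (εs i) τ (ys i, v) (as i) (bs i) x -
        regw g Φ 0 τ (y, v) a b x) + (regw g Φ 0 τ (y, v) a b x -
        regw g Φ (εs i) τ (ys i, v) (as i) (bs i) x)) ∂(nvol.prod (pvol τ))) l (𝓝 0) := by
  have hfin : ∀ z, g z ≠ ∞ := fun z => ((hg z.1 z.2).trans_lt (KE.gs_lt_top _ _ _)).ne
  set T : ℝ := max 0 (b + 1) with hT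
  have hT0 : 0 ≤ T := le_max_left _ _
  have hbT : b + 1 ≤ T := le_max_right _ _
  obtain ⟨C, hC, h1⟩ := lintegral_domw_le hΦ hβ hT0 hM τ
  set D : ND × PD τ → ℝ≥0∞ := domw Φ T M β τ v ((Ico (a - 1) (b + 1)).indicator 1) with hD
  have hmono : ∀ {a' b' : ℝ}, a - 1 ≤ a' → b' ≤ b + 1 → ∀ x,
      domw Φ T M β τ v ((Ico a' b').indicator 1) x ≤ D x := by
    intro a' b' ha' hb' x
    rw [hD]
    unfold domw
    gcongr
  have hDm : Measurable D := measurable_domw hΦ T M β τ v (measurable_one.indicator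
    measurableSet_Ico)
  have hDfin : ∫⁻ x, (D x + D x) ∂(nvol.prod (pvol τ)) ≠ ∞ := by
    have h2 := h1 v ((Ico (a - 1) (b + 1)).indicator 1) (measurable_one.indicator measurableSet_Ico)
    rw [lintegral_indicator_one measurableSet_Ico, Real.volume_Ico] at h2
    have h3 : ∫⁻ x, D x ∂(nvol.prod (pvol τ)) ≠ ∞ := ne_top_of_le_ne_top (by finiteness) h2
    rw [lintegral_add_left hDm]
    exact ENNReal.add_ne_top.2 ⟨h3, h3⟩
  have hmeas : ∀ (ε' : ℝ) (ℓ : Ph) (a' b' : ℝ), Measurable (regw g Φ ε' τ ℓ a' b') :=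
    fun ε' ℓ a' b' => measurable_regw hgm hΦ ε' τ ℓ a' b'
  have h0D : ∀ x, regw g Φ 0 τ (y, v) a b x ≤ D x := fun x =>
    (regw_le hΦ hM hg le_rfl zero_le_one τ (y, v) ((by linarith : b ≤ b + 1).trans hbT) x).trans
      (hmono (by linarith) (by linarith) x)
  have key := tendsto_lintegral_filter_of_dominated_convergence (μ := nvol.prod (pvol τ))
    (F := fun i x => (regw g Φ (εs i) τ (ys i, v) (as i) (bs i) x -
        regw g Φ 0 τ (y, v) a b x) + (regw g Φ 0 τ (y, v) a b x -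
        regw g Φ (εs i) τ (ys i, v) (as i) (bs i) x)) (f := fun _ => 0) (l := l)
    (fun x => D x + D x) (Eventually.of_forall fun i => by
      have e1 := hmeas (εs i) (ys i, v) (as i) (bs i)
      have e2 := hmeas 0 (y, v) a b
      exact (e1.sub e2).add (e2.sub e1)) ?_ hDfin ?_
  · rw [lintegral_zero] at key
    exact key
  · filter_upwards [hε0, hε.eventually (ge_mem_nhds zero_lt_one),
      ha.eventually (lt_mem_nhds (show a - 1 < a by linarith)),
      hb.eventually (gt_mem_nhds (show b < b + 1 by linarith))] with i e0 e1 e2 e3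
    refine Eventually.of_forall fun x => ?_
    have hiD : regw g Φ (εs i) τ (ys i, v) (as i) (bs i) x ≤ D x :=
      (regw_le hΦ hM hg e0 e1 τ (ys i, v) (e3.le.trans hbT) x).trans
        (hmono e2.le e3.le x)
    exact add_le_add (tsub_le_self.trans hiD) (tsub_le_self.trans (h0D x))
  · have g1 : ∀ᵐ x ∂(nvol.prod (pvol τ)), gent τ x.2 :=
      Measure.quasiMeasurePreserving_snd.ae (ae_gent τ)
    filter_upwards [g1, ae_time_ne (ν := pvol τ) (measurable_stm τ),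
      ae_time_ne (ν := pvol τ) (c := fun _ => a) measurable_const,
      ae_time_ne (ν := pvol τ) (c := fun _ => b) measurable_const] with x e1 e2 e3 e4
    have e5 := tendsto_regw_point (Φ := Φ) (v := v) hc hfin τ hε hy ha hb e1 e2 e3 e4
    have e6 : regw g Φ 0 τ (y, v) a b x ≠ ∞ := by
      unfold regw
      refine ENNReal.mul_ne_top enorm_ne_top (ENNReal.mul_ne_top (wt_ne_top τ _ _) ?_)
      by_cases hx : x ∈ regset Φ 0 τ a b
      · rw [indicator_of_mem hx]; exact lprod_ne_top hfin τ _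
      · rw [indicator_of_notMem hx]; exact ENNReal.zero_ne_top
    have e7 := (ENNReal.Tendsto.sub e5 (tendsto_const_nhds (x := regw g Φ 0 τ (y, v) a b x))
      (Or.inr e6)).add (ENNReal.Tendsto.sub (tendsto_const_nhds
        (x := regw g Φ 0 τ (y, v) a b x)) e5 (Or.inl e6))
    rw [tsub_self, add_zero] at e7
    exact e7

end Limits

end Vale.Agent.P119.KT
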