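import Vale.Agent.P119.KT.Shape

/-!
# P119, block KT (`helper256`): the change of variables for trees (KT1)
-/

open MeasureTheory Filter Topology Set
open scoped ENNReal NNReal RealInnerProductSpace
noncomputable section
namespace Vale.Agent.P119.KT
open Vale.Agent.P119.KU
open Vale.Agent.P119.M (Shape)
variable {Φ : E3 → ℝ}

theorem pm_inLines (hΦ : IsPotential Φ) {ε : ℝ} (hε : ε ≠ 0) (L : Ph) {q : ND}
    (h : Exits Φ (rev (outRel L.2 q))) :
    pm (scat Φ) ε (inLines Φ ε L q) = (L, exLine ε L q) := by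
  rw [← pm_exLine hΦ hε]
  apply pm_pm hε
  apply scat_scatI hΦ
  rw [rel_exLine hε, rev_free, exits_free hΦ]
  exact h

/-- The good parameters of a node. -/
def gn (Φ : E3 → ℝ) (v : E3) : Set ND :=
  {q : ND | v - q.2.1 ≠ 0 ∧ ‖q.2.2‖ < 1 ∧ Exits Φ (rev (outRel v q))}

/-- The weight of a node: the relative speed on the set of good parameters. -/
def nw (Φ : E3 → ℝ) (v : E3) (q : ND) : ℝ≥0∞ := (gn Φ v).indicator (fun q => ‖v - q.2.1‖ₑ) q

theorem measurableSet_gn (hΦ : IsPotential Φ) :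
    MeasurableSet {x : E3 × ND | x.2 ∈ gn Φ x.1} := by
  have h1 : Measurable fun x : E3 × ND => x.1 - x.2.2.1 := by fun_prop
  have h2 : Measurable fun x : E3 × ND => ‖x.2.2.2‖ := by fun_prop
  have h3 : MeasurableSet {x : E3 × ND | x.1 - x.2.2.1 ≠ 0} :=
    h1 (measurableSet_singleton (0 : E3)).compl
  have h4 : MeasurableSet {x : E3 × ND | ‖x.2.2.2‖ < 1} := measurableSet_lt h2 measurable_const
  have h5 : MeasurableSet {x : E3 × ND | Exits Φ (rev (outRel x.1 x.2))} :=
    (measurable_rev.comp measurable_outRel) (measurableSet_exits hΦ)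
  exact h3.inter (h4.inter h5)

theorem measurable_nw (hΦ : IsPotential Φ) : Measurable fun x : E3 × ND => nw Φ x.1 x.2 := by
  have h1 : Measurable fun x : E3 × ND => ‖x.1 - x.2.2.1‖ₑ := by fun_prop
  have h2 : (fun x : E3 × ND => nw Φ x.1 x.2) = {x : E3 × ND | x.2 ∈ gn Φ x.1}.indicator
      (fun x => ‖x.1 - x.2.2.1‖ₑ) := by
    funext x
    by_cases h : x.2 ∈ gn Φ x.1
    · rw [indicator_of_mem (by exact h)]; unfold nw; rw [indicator_of_mem h]
    · rw [indicator_of_notMem (by exact h)]; unfold nw; rw [indicator_of_notMem h]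
  rw [h2]
  exact h1.indicator (measurableSet_gn hΦ)

theorem nw_of_mem {v : E3} {q : ND} (h : q ∈ gn Φ v) : nw Φ v q = ‖v - q.2.1‖ₑ :=
  indicator_of_mem h _

theorem nw_of_notMem {v : E3} {q : ND} (h : q ∉ gn Φ v) : nw Φ v q = 0 :=
  indicator_of_notMem h _

theorem nw_le (v : E3) (q : ND) : nw Φ v q ≤ ‖v - q.2.1‖ₑ := indicator_le_self _ _ _

theorem nw_ne_top (v : E3) (q : ND) : nw Φ v q ≠ ∞ := ((nw_le v q).trans_lt enorm_lt_top).ne

attribute [irreducible] nw

/-- The change of variables for a node, with the weight `nw`. -/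
theorem lintegral_node' (hΦ : IsPotential Φ) {ε : ℝ} (hε : 0 < ε) {K : Ph × Ph → ℝ≥0∞}
    (hK : Measurable K) :
    ∫⁻ q, {q | Hit (rel ε q) ∧ Exits Φ (rel ε q)}.indicator K q =
      ENNReal.ofReal (ε ^ 2) * ∫⁻ L : Ph, ∫⁻ q, nw Φ L.2 q * K (inLines Φ ε L q) ∂nvol := by
  rw [lintegral_node hΦ hε hK]
  congr 2; funext L
  have hball : MeasurableSet {q : ND | ‖q.2.2‖ < 1} :=
    measurableSet_lt (by fun_prop) measurable_const
  unfold nvol
  refine setLIntegral_congr_fun hball fun q hq => ?_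
  have hq' : ‖q.2.2‖ < 1 := hq
  by_cases hX : Exits Φ (rev (outRel L.2 q))
  · rw [indicator_of_mem (by exact hX)]
    by_cases hV : L.2 - q.2.1 = 0
    · rw [nw_of_notMem (fun h => h.1 hV), hV, enorm_zero]
    · rw [nw_of_mem ⟨hV, hq', hX⟩]
  · rw [indicator_of_notMem (by exact hX), mul_zero, nw_of_notMem (fun h => hX h.2.2), zero_mul]

section aux

variable {ε : ℝ} {A B PA PB : Type*} [MeasurableSpace A] [MeasurableSpace B] [MeasurableSpace PA]
    [MeasurableSpace PB] {μa : Measure A} {μb : Measure B} [SFinite μb]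
    {πa : Measure PA} {πb : Measure PB} [SFinite πa] [SFinite πb]

theorem node_aux1 {R : Ph × Ph → Ph} (hRm : Measurable R) {HE : Set (Ph × Ph)}
    (hHE : MeasurableSet HE)
    {ra : A → Ph} {rb : B → Ph} (hra : Measurable ra) (hrb : Measurable rb)
    {ca : Set A} {cb : Set B} (hca : MeasurableSet ca) (hcb : MeasurableSet cb)
    {wa : Ph → PA → ℝ≥0∞} {wb : Ph → PB → ℝ≥0∞} (hwa : Measurable fun x : Ph × PA => wa x.1 x.2)
    (hwb : Measurable fun x : Ph × PB => wb x.1 x.2)
    {ba : Ph → PA → A} {bb : Ph → PB → B} (hba : Measurable fun x : Ph × PA => ba x.1 x.2)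
    (hbb : Measurable fun x : Ph × PB => bb x.1 x.2) {ka kb : ℝ≥0∞} (hkb : kb ≠ ∞)
    (IHa : ∀ {G : Ph × A → ℝ≥0∞}, Measurable G →
      ∫⁻ z, ca.indicator (fun z => G (ra z, z)) z ∂μa =
        ka * ∫⁻ L, ∫⁻ p, wa L p * G (L, ba L p) ∂πa)
    (IHb : ∀ {G : Ph × B → ℝ≥0∞}, Measurable G →
      ∫⁻ z, cb.indicator (fun z => G (rb z, z)) z ∂μb =
        kb * ∫⁻ L, ∫⁻ p, wb L p * G (L, bb L p) ∂πb)
    {G : Ph × (A × B) → ℝ≥0∞} (hG : Measurable G) :
    ∫⁻ z, {z : A × B | (z.1 ∈ ca ∧ z.2 ∈ cb) ∧ (ra z.1, rb z.2) ∈ HE}.indicator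
        (fun z => G (R (ra z.1, rb z.2), z)) z ∂(μa.prod μb) =
      ka * kb * ∫⁻ q, HE.indicator (fun M : Ph × Ph => ∫⁻ p1, ∫⁻ p2, wa M.1 p1 * wb M.2 p2 *
        G (R M, (ba M.1 p1, bb M.2 p2)) ∂πb ∂πa) q := by
  set H : Ph × Ph → ℝ≥0∞ := HE.indicator (fun _ => 1) with hH
  have hHm : Measurable H := measurable_const.indicator hHE
  -- pointwise form
  have hpt : ∀ z : A × B, {z : A × B | (z.1 ∈ ca ∧ z.2 ∈ cb) ∧ (ra z.1, rb z.2) ∈ HE}.indicator
        (fun z => G (R (ra z.1, rb z.2), z)) z =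
      ca.indicator (fun z1 => cb.indicator (fun z2 => H (ra z1, rb z2) *
        G (R (ra z1, rb z2), (z1, z2))) z.2) z.1 := by
    intro z
    by_cases h1 : z.1 ∈ ca
    · rw [indicator_of_mem h1]
      by_cases h2 : z.2 ∈ cb
      · rw [indicator_of_mem h2]
        by_cases h3 : (ra z.1, rb z.2) ∈ HE
        · rw [indicator_of_mem (by exact ⟨⟨h1, h2⟩, h3⟩), hH,
            indicator_of_mem h3, one_mul]
        · rw [indicator_of_notMem (fun h => h3 h.2), hH,
            indicator_of_notMem h3, zero_mul]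
      · rw [indicator_of_notMem h2, indicator_of_notMem (fun h => h2 h.1.2)]
    · rw [indicator_of_notMem h1, indicator_of_notMem (fun h => h1 h.1.1)]
  simp only [hpt]
  -- measurability of the integrand
  have hm1 : Measurable fun z : A × B => H (ra z.1, rb z.2) *
      G (R (ra z.1, rb z.2), (z.1, z.2)) := by
    have h1 : Measurable fun z : A × B => (ra z.1, rb z.2) :=
      (hra.comp measurable_fst).prodMk (hrb.comp measurable_snd)
    exact (hHm.comp h1).mul (hG.comp ((hRm.comp h1).prodMk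
      (measurable_fst.prodMk measurable_snd)))
  have hm2 : Measurable fun z : A × B => ca.indicator (fun z1 => cb.indicator
      (fun z2 => H (ra z1, rb z2) * G (R (ra z1, rb z2), (z1, z2))) z.2) z.1 := by
    have h1 : (fun z : A × B => ca.indicator (fun z1 => cb.indicator
      (fun z2 => H (ra z1, rb z2) * G (R (ra z1, rb z2), (z1, z2))) z.2) z.1) =
      (ca ×ˢ cb).indicator (fun z : A × B => H (ra z.1, rb z.2) *
      G (R (ra z.1, rb z.2), (z.1, z.2))) := by
      funext z
      by_cases h1 : z.1 ∈ ca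
      · by_cases h2 : z.2 ∈ cb
        · rw [indicator_of_mem h1, indicator_of_mem h2, indicator_of_mem (by exact ⟨h1, h2⟩)]
        · rw [indicator_of_mem h1, indicator_of_notMem h2, indicator_of_notMem (fun h => h2 h.2)]
      · rw [indicator_of_notMem h1, indicator_of_notMem (fun h => h1 h.1)]
    rw [h1]
    exact hm1.indicator (hca.prod hcb)
  rw [lintegral_prod _ hm2.aemeasurable]
  -- second subtree
  have hGb : ∀ z1 : A, Measurable fun y : Ph × B => H (ra z1, y.1) *
      G (R (ra z1, y.1), (z1, y.2)) := by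
    intro z1
    have h1 : Measurable fun y : Ph × B => (ra z1, y.1) := measurable_const.prodMk measurable_fst
    exact (hHm.comp h1).mul (hG.comp ((hRm.comp h1).prodMk
      (measurable_const.prodMk measurable_snd)))
  set G2 : Ph × A → ℝ≥0∞ := fun y => kb * ∫⁻ M, ∫⁻ p, wb M p *
    (H (y.1, M) * G (R (y.1, M), (y.2, bb M p))) ∂πb with hG2
  have hstep1 : ∀ z1 : A, ∫⁻ z2, ca.indicator (fun z1 => cb.indicator
      (fun z2 => H (ra z1, rb z2) * G (R (ra z1, rb z2), (z1, z2))) z2) z1 ∂μb =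
      ca.indicator (fun z1 => G2 (ra z1, z1)) z1 := by
    intro z1
    by_cases h1 : z1 ∈ ca
    · simp only [indicator_of_mem h1]
      exact IHb (hGb z1)
    · simp only [indicator_of_notMem h1, lintegral_zero]
  simp only [hstep1]
  -- measurability of G2
  have hmI : Measurable fun x : ((Ph × A) × Ph) × PB => wb x.1.2 x.2 *
      (H (x.1.1.1, x.1.2) * G (R (x.1.1.1, x.1.2), (x.1.1.2, bb x.1.2 x.2))) := by
    have h1 : Measurable fun x : ((Ph × A) × Ph) × PB => (x.1.2, x.2) := by fun_prop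
    have h2 : Measurable fun x : ((Ph × A) × Ph) × PB => (x.1.1.1, x.1.2) := by fun_prop
    have h3 : Measurable fun x : ((Ph × A) × Ph) × PB => x.1.1.2 := by fun_prop
    exact (hwb.comp h1).mul ((hHm.comp h2).mul (hG.comp ((hRm.comp h2).prodMk
      (h3.prodMk (hbb.comp h1)))))
  have hG2m : Measurable G2 := by
    rw [hG2]
    exact (hmI.lintegral_prod_right'.lintegral_prod_right').const_mul kb
  rw [IHa hG2m]
  -- reorganise
  set K : Ph × Ph → ℝ≥0∞ := fun M => ∫⁻ p1, ∫⁻ p2, wa M.1 p1 * wb M.2 p2 *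
    G (R M, (ba M.1 p1, bb M.2 p2)) ∂πb ∂πa with hK
  have hmJ : Measurable fun x : ((Ph × Ph) × PA) × PB => wa x.1.1.1 x.1.2 * wb x.1.1.2 x.2 *
      G (R x.1.1, (ba x.1.1.1 x.1.2, bb x.1.1.2 x.2)) := by
    have h1 : Measurable fun x : ((Ph × Ph) × PA) × PB => (x.1.1.1, x.1.2) := by fun_prop
    have h2 : Measurable fun x : ((Ph × Ph) × PA) × PB => (x.1.1.2, x.2) := by fun_prop
    have h3 : Measurable fun x : ((Ph × Ph) × PA) × PB => x.1.1 := by fun_prop
    exact ((hwa.comp h1).mul (hwb.comp h2)).mul (hG.comp ((hRm.comp h3).prodMk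
      ((hba.comp h1).prodMk (hbb.comp h2))))
  have hKm : Measurable K := hmJ.lintegral_prod_right'.lintegral_prod_right'
  rw [mul_assoc]
  congr 1
  have h1 : ∀ q : Ph × Ph, HE.indicator K q = H q * K q := by
    intro q
    by_cases h2 : q ∈ HE
    · rw [indicator_of_mem h2, hH, indicator_of_mem h2, one_mul]
    · rw [indicator_of_notMem h2, hH, indicator_of_notMem h2, zero_mul]
  simp only [h1]
  have h0 : ∫⁻ q, H q * K q = ∫⁻ L, ∫⁻ M, H (L, M) * K (L, M) := by
    have := lintegral_prod (μ := (volume : Measure Ph)) (ν := (volume : Measure Ph))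
      (fun q => H q * K q) (hHm.mul hKm).aemeasurable
    exact this
  rw [h0, ← lintegral_const_mul' _ _ hkb]
  congr 1; funext L
  have h2 : ∀ p, wa L p * G2 (L, ba L p) = kb * ∫⁻ M, ∫⁻ p2, wa L p * (wb M p2 *
      (H (L, M) * G (R (L, M), (ba L p, bb M p2)))) ∂πb := by
    intro p
    rw [hG2]
    simp only
    rw [mul_left_comm]
    congr 1
    have hx : Measurable fun x : Ph × PB => wb x.1 x.2 *
        (H (L, x.1) * G (R (L, x.1), (ba L p, bb x.1 x.2))) :=
      hmI.comp ((measurable_const.prodMk measurable_fst).prodMk measurable_snd :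
        Measurable fun x : Ph × PB => (((L, ba L p), x.1), x.2))
    rw [← lintegral_const_mul _ hx.lintegral_prod_right']
    congr 1; funext M
    rw [← lintegral_const_mul]
    exact hx.comp (measurable_const.prodMk measurable_id)
  simp only [h2]
  rw [lintegral_const_mul' _ _ hkb]
  congr 1
  have hy : Measurable fun x : (PA × Ph) × PB => wa L x.1.1 * (wb x.1.2 x.2 *
      (H (L, x.1.2) * G (R (L, x.1.2), (ba L x.1.1, bb x.1.2 x.2)))) := by
    have h3 : Measurable fun x : (PA × Ph) × PB => (L, x.1.1) := by fun_prop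
    have h4 : Measurable fun x : (PA × Ph) × PB => (((L, ba L x.1.1), x.1.2), x.2) :=
      (((measurable_const.prodMk (hba.comp h3))).prodMk (by fun_prop)).prodMk measurable_snd
    exact (hwa.comp h3).mul (hmI.comp h4)
  rw [lintegral_lintegral_swap hy.lintegral_prod_right'.aemeasurable]
  congr 1; funext M
  rw [hK]
  simp only
  have hz : Measurable fun x : PA × PB => wa L x.1 * wb M x.2 *
      G (R (L, M), (ba L x.1, bb M x.2)) :=
    hmJ.comp ((measurable_const.prodMk measurable_fst).prodMk measurable_snd :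
      Measurable fun x : PA × PB => (((L, M), x.1), x.2))
  rw [← lintegral_const_mul _ hz.lintegral_prod_right']
  congr 1; funext p1
  rw [← lintegral_const_mul]
  · congr 1; funext p2
    ring
  · exact hz.comp (measurable_const.prodMk measurable_id)

theorem node_aux2 (hΦ : IsPotential Φ) (hε : 0 < ε)
    {wa : Ph → PA → ℝ≥0∞} {wb : Ph → PB → ℝ≥0∞} (hwa : Measurable fun x : Ph × PA => wa x.1 x.2)
    (hwb : Measurable fun x : Ph × PB => wb x.1 x.2)
    {ba : Ph → PA → A} {bb : Ph → PB → B} (hba : Measurable fun x : Ph × PA => ba x.1 x.2)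
    (hbb : Measurable fun x : Ph × PB => bb x.1 x.2)
    {G : Ph × (A × B) → ℝ≥0∞} (hG : Measurable G) :
    ∫⁻ q, {q : Ph × Ph | Hit (rel ε q) ∧ Exits Φ (rel ε q)}.indicator
      (fun M : Ph × Ph => ∫⁻ p1, ∫⁻ p2, wa M.1 p1 * wb M.2 p2 *
        G ((pm (scat Φ) ε M).1, (ba M.1 p1, bb M.2 p2)) ∂πb ∂πa) q =
      ENNReal.ofReal (ε ^ 2) * ∫⁻ L : Ph, ∫⁻ p : ND × PA × PB,
        (nw Φ L.2 p.1 * (wa (inLines Φ ε L p.1).1 p.2.1 *
            wb (inLines Φ ε L p.1).2 p.2.2)) *
          G (L, (ba (inLines Φ ε L p.1).1 p.2.1, bb (inLines Φ ε L p.1).2 p.2.2))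
        ∂(nvol.prod (πa.prod πb)) := by
  have hε0 : ε ≠ 0 := hε.ne'
  have hpm := pm_preserving (measurePreserving_scat hΦ) hε0
  have hRm : Measurable (fun q : Ph × Ph => (pm (scat Φ) ε q).1) :=
    measurable_fst.comp hpm.measurable
  have hmJ : Measurable fun x : ((Ph × Ph) × PA) × PB => wa x.1.1.1 x.1.2 * wb x.1.1.2 x.2 *
      G ((pm (scat Φ) ε x.1.1).1, (ba x.1.1.1 x.1.2, bb x.1.1.2 x.2)) := by
    have h1 : Measurable fun x : ((Ph × Ph) × PA) × PB => (x.1.1.1, x.1.2) := by fun_prop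
    have h2 : Measurable fun x : ((Ph × Ph) × PA) × PB => (x.1.1.2, x.2) := by fun_prop
    have h3 : Measurable fun x : ((Ph × Ph) × PA) × PB => x.1.1 := by fun_prop
    exact ((hwa.comp h1).mul (hwb.comp h2)).mul (hG.comp ((hRm.comp h3).prodMk
      ((hba.comp h1).prodMk (hbb.comp h2))))
  have hKm : Measurable (fun M : Ph × Ph => ∫⁻ p1, ∫⁻ p2, wa M.1 p1 * wb M.2 p2 *
        G ((pm (scat Φ) ε M).1, (ba M.1 p1, bb M.2 p2)) ∂πb ∂πa) :=
    hmJ.lintegral_prod_right'.lintegral_prod_right'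
  rw [lintegral_node' hΦ hε hKm]
  congr 2; funext L
  -- the parameters
  have hin : Measurable fun q : ND => inLines Φ ε L q :=
    (measurable_inLines hΦ ε).comp (measurable_const.prodMk measurable_id)
  have hp1 : Measurable fun x : ND × PA × PB => ((inLines Φ ε L x.1).1, x.2.1) :=
    (measurable_fst.comp (hin.comp measurable_fst)).prodMk
      (measurable_fst.comp measurable_snd)
  have hp2 : Measurable fun x : ND × PA × PB => ((inLines Φ ε L x.1).2, x.2.2) :=
    (measurable_snd.comp (hin.comp measurable_fst)).prodMk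
      (measurable_snd.comp measurable_snd)
  have hnw : Measurable fun q : ND => nw Φ L.2 q :=
    (measurable_nw hΦ).comp (measurable_const.prodMk measurable_id)
  have hpm2 : Measurable fun p : ND × PA × PB =>
        (nw Φ L.2 p.1 * (wa (inLines Φ ε L p.1).1 p.2.1 *
            wb (inLines Φ ε L p.1).2 p.2.2)) *
          G (L, (ba (inLines Φ ε L p.1).1 p.2.1, bb (inLines Φ ε L p.1).2 p.2.2)) :=
    ((hnw.comp measurable_fst).mul ((hwa.comp hp1).mul
      (hwb.comp hp2))).mul (hG.comp (measurable_const.prodMk ((hba.comp hp1).prodMk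
        (hbb.comp hp2))))
  rw [lintegral_prod _ hpm2.aemeasurable]
  refine lintegral_congr fun q => ?_
  have hz : Measurable fun y : PA × PB =>
      (nw Φ L.2 q * (wa (inLines Φ ε L q).1 y.1 * wb (inLines Φ ε L q).2 y.2)) *
          G (L, (ba (inLines Φ ε L q).1 y.1, bb (inLines Φ ε L q).2 y.2)) :=
    hpm2.comp (measurable_const.prodMk measurable_id)
  rw [lintegral_prod _ hz.aemeasurable]
  by_cases h1 : q ∈ gn Φ L.2
  · have h2 : (pm (scat Φ) ε (inLines Φ ε L q)).1 = L := by
      rw [pm_inLines hΦ hε0 L h1.2.2]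
    simp only [h2]
    rw [← lintegral_const_mul' _ _ (nw_ne_top L.2 q)]
    refine lintegral_congr fun p1 => ?_
    rw [← lintegral_const_mul' _ _ (nw_ne_top L.2 q)]
    refine lintegral_congr fun p2 => ?_
    ring
  · simp only [nw_of_notMem h1, zero_mul, lintegral_zero]

end aux

/-! ### Trees -/

/-- The weight of a tree, `0` outside the good parameters. -/
def wt (Φ : E3 → ℝ) : (τ : Shape) → E3 → PD τ → ℝ≥0∞
  | .leaf, _, _ => 1
  | .node a b, v, p => nw Φ v p.1 * (wt Φ a (inVel Φ v p.1).1 p.2.1 *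
      wt Φ b (inVel Φ v p.1).2 p.2.2)

theorem measurable_wt (hΦ : IsPotential Φ) :
    ∀ τ : Shape, Measurable fun x : E3 × PD τ => wt Φ τ x.1 x.2
  | .leaf => measurable_const
  | .node a b => by
    have ha := measurable_wt hΦ a
    have hb := measurable_wt hΦ b
    have h0 : Measurable fun x : E3 × (ND × PD a × PD b) => (x.1, x.2.1) := by fun_prop
    have h1 := (measurable_inVel hΦ).comp h0
    have h2 : Measurable fun x : E3 × (ND × PD a × PD b) => ((inVel Φ x.1 x.2.1).1, x.2.2.1) :=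
      h1.fst.prodMk (by fun_prop)
    have h3 : Measurable fun x : E3 × (ND × PD a × PD b) => ((inVel Φ x.1 x.2.1).2, x.2.2.2) :=
      h1.snd.prodMk (by fun_prop)
    exact ((measurable_nw hΦ).comp h0).mul ((ha.comp h2).mul (hb.comp h3))

theorem measurable_bk (hΦ : IsPotential Φ) (ε : ℝ) :
    ∀ τ : Shape, Measurable fun x : Ph × PD τ => bk Φ ε τ x.1 x.2
  | .leaf => measurable_fst
  | .node a b => by
    have ha := measurable_bk hΦ ε a
    have hb := measurable_bk hΦ ε b
    have h0 : Measurable fun x : Ph × (ND × PD a × PD b) => (x.1, x.2.1) := by fun_prop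
    have h1 := (measurable_inLines hΦ ε).comp h0
    have h2 : Measurable fun x : Ph × (ND × PD a × PD b) => ((inLines Φ ε x.1 x.2.1).1, x.2.2.1) :=
      h1.fst.prodMk (by fun_prop)
    have h3 : Measurable fun x : Ph × (ND × PD a × PD b) => ((inLines Φ ε x.1 x.2.1).2, x.2.2.2) :=
      h1.snd.prodMk (by fun_prop)
    exact (ha.comp h2).prodMk (hb.comp h3)

theorem measurable_root (hΦ : IsPotential Φ) {ε : ℝ} (hε : ε ≠ 0) :
    ∀ τ : Shape, Measurable fun z : LD τ => root Φ ε τ z
  | .leaf => measurable_id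
  | .node a b => by
    have ha := measurable_root hΦ hε a
    have hb := measurable_root hΦ hε b
    have h1 : Measurable fun z : LD a × LD b => (root Φ ε a z.1, root Φ ε b z.2) :=
      (ha.comp measurable_fst).prodMk (hb.comp measurable_snd)
    exact measurable_fst.comp
      ((pm_preserving (measurePreserving_scat hΦ) hε).measurable.comp h1)

theorem measurableSet_col (hΦ : IsPotential Φ) {ε : ℝ} (hε : ε ≠ 0) :
    ∀ τ : Shape, MeasurableSet (col Φ ε τ)
  | .leaf => MeasurableSet.univ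
  | .node a b => by
    have ha := measurableSet_col hΦ hε a
    have hb := measurableSet_col hΦ hε b
    have h1 : Measurable fun z : LD a × LD b => rel ε (root Φ ε a z.1, root Φ ε b z.2) :=
      (measurable_rel ε).comp (((measurable_root hΦ hε a).comp measurable_fst).prodMk
        ((measurable_root hΦ hε b).comp measurable_snd))
    have h2 : MeasurableSet {z : LD a × LD b | z.1 ∈ col Φ ε a ∧ z.2 ∈ col Φ ε b} :=
      (measurable_fst ha).inter (measurable_snd hb)
    have h3 : MeasurableSet {z : LD a × LD b | Hit (rel ε (root Φ ε a z.1, root Φ ε b z.2)) ∧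
        Exits Φ (rel ε (root Φ ε a z.1, root Φ ε b z.2))} :=
      (h1 measurableSet_hit).inter (h1 (measurableSet_exits hΦ))
    exact h2.inter h3

theorem inLines_vel (ε : ℝ) (L : Ph) (q : ND) :
    (inLines Φ ε L q).1.2 = (inVel Φ L.2 q).1 ∧ (inLines Φ ε L q).2.2 = (inVel Φ L.2 q).2 := by
  rw [inLines_def]
  exact ⟨rfl, rfl⟩

/-- **KT1.** The change of variables from the leaf data of a tree to (root line, parameters). -/
theorem lintegral_tree (hΦ : IsPotential Φ) {ε : ℝ} (hε : 0 < ε) :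
    ∀ (τ : Shape) {G : Ph × LD τ → ℝ≥0∞}, Measurable G →
    ∫⁻ z, (col Φ ε τ).indicator (fun z => G (root Φ ε τ z, z)) z ∂vol τ =
      ENNReal.ofReal (ε ^ 2) ^ (τ.card - 1) *
        ∫⁻ L : Ph, ∫⁻ p, wt Φ τ L.2 p * G (L, bk Φ ε τ L p) ∂pvol τ
  | .leaf, G, hG => by
    have h1 : ∀ z : Ph, (univ : Set Ph).indicator (fun z : Ph => G (z, z)) z = G (z, z) :=
      fun z => indicator_of_mem (mem_univ z) _
    have h2 : ∀ L : Ph, ∫⁻ _ : Unit, 1 * G (L, L) ∂(Measure.dirac ()) = G (L, L) := by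
      intro L
      rw [lintegral_dirac, one_mul]
    have h3 : (∫⁻ z : Ph, (univ : Set Ph).indicator (fun z : Ph => G (z, z)) z) =
      ENNReal.ofReal (ε ^ 2) ^ (1 - 1) * ∫⁻ L : Ph, ∫⁻ _ : Unit, 1 * G (L, L) ∂(Measure.dirac ()) := by
      rw [Nat.sub_self, pow_zero, one_mul]
      refine lintegral_congr fun z => ?_
      rw [h1 z, h2 z]
    exact h3
  | .node a b, G, hG => by
    have hε0 : ε ≠ 0 := hε.ne'
    have hpm := pm_preserving (measurePreserving_scat hΦ) hε0
    have hRm : Measurable (fun q : Ph × Ph => (pm (scat Φ) ε q).1) :=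
      measurable_fst.comp hpm.measurable
    have hHE : MeasurableSet {q : Ph × Ph | Hit (rel ε q) ∧ Exits Φ (rel ε q)} :=
      (measurable_rel ε measurableSet_hit).inter ((measurable_rel ε) (measurableSet_exits hΦ))
    have hv : Measurable fun x : Ph × PD a => (x.1.2, x.2) := by fun_prop
    have hv' : Measurable fun x : Ph × PD b => (x.1.2, x.2) := by fun_prop
    have h1 := node_aux1 (μa := vol a) (μb := vol b) (πa := pvol a) (πb := pvol b) hRm hHE
      (measurable_root hΦ hε0 a) (measurable_root hΦ hε0 b) (measurableSet_col hΦ hε0 a)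
      (measurableSet_col hΦ hε0 b) (wa := fun L p => wt Φ a L.2 p) (wb := fun L p => wt Φ b L.2 p)
      ((measurable_wt hΦ a).comp hv) ((measurable_wt hΦ b).comp hv')
      (measurable_bk hΦ ε a) (measurable_bk hΦ ε b)
      (ka := ENNReal.ofReal (ε ^ 2) ^ (a.card - 1)) (kb := ENNReal.ofReal (ε ^ 2) ^ (b.card - 1))
      (by finiteness) (fun hG' => lintegral_tree hΦ hε a hG') (fun hG' => lintegral_tree hΦ hε b hG')
      hG
    have h2 := node_aux2 (πa := pvol a) (πb := pvol b) hΦ hε
      (wa := fun L p => wt Φ a L.2 p) (wb := fun L p => wt Φ b L.2 p)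
      ((measurable_wt hΦ a).comp hv) ((measurable_wt hΦ b).comp hv')
      (measurable_bk hΦ ε a) (measurable_bk hΦ ε b) hG
    rw [h2] at h1
    have h3 : (Shape.node a b).card - 1 = (a.card - 1) + (b.card - 1) + 1 := by
      have := card_pos a
      have := card_pos b
      simp only [Shape.card]
      omega
    rw [h3, pow_succ, pow_add]
    refine Eq.trans ?_ (h1.trans ?_)
    · rfl
    · rw [← mul_assoc]
      congr 1
      refine lintegral_congr fun L => ?_
      refine lintegral_congr fun p => ?_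
      simp only [(inLines_vel ε L p.1).1, (inLines_vel ε L p.1).2]
      rfl

end Vale.Agent.P119.KT
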