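import Vale.Agent.P119.KT.LineChain

/-!
# P119, block KT (`helper860`): the mass of the closed chains tends to zero

* `ae_stG`: generic collisions preserve the property that the two lines never meet;
* `ev_not_clo`: two lines which never meet are not close for small `ε`;
* `tendsto_J_of`: the mass of the closed chains tends to `0`, from the domination.
-/

open MeasureTheory Filter Topology Set
open scoped ENNReal NNReal

noncomputable section

namespace Vale.Agent.P119.KT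

open KU M CTree ML
open Vale.Agent.P119.M (Shape)

variable {Φ : E3 → ℝ} {ε t r b : ℝ}

theorem nev_tilt {α L : Ph} {s : ℝ} {D : E3} (h : nev α L)
    (hD : D = 0 ∨ D ∉ aff (L.2 - α.2) ((KU.free s L).1 - (KU.free s α).1)) :
    nev α (tilt L s D) := by
  intro σ hm
  by_cases hσ : σ = s
  · rw [hσ, meetAt_tilt_self] at hm
    exact h s hm
  · rcases hD with hD | hD
    · rw [hD, tilt_zero] at hm
      exact h σ hm
    · exact hD (mem_aff_of_meetAt hσ hm)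

/-- The displacements are generic for almost all collisions with a given line. -/
theorem ae_disp (hΦ : IsPotential Φ) (α L : Ph) :
    ∀ᵐ q ∂nvol,
      (dsp (scat Φ) 1 L.2 q.2.1 q.2.2 = 0 ∨ dsp (scat Φ) 1 L.2 q.2.1 q.2.2 ∉
        aff (L.2 - α.2) ((KU.free q.1 L).1 - (KU.free q.1 α).1)) ∧
      (dsp (scat Φ) (-1) L.2 q.2.1 q.2.2 = 0 ∨ dsp (scat Φ) (-1) L.2 q.2.1 q.2.2 ∉
        aff (L.2 - α.2) ((KU.free q.1 L).1 - (KU.free q.1 α).1)) := by
  have hS : Cov (scat Φ) := cov_scat hΦ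
  have key : ∀ᵐ q : ND,
      (dsp (scat Φ) 1 L.2 q.2.1 q.2.2 = 0 ∨ dsp (scat Φ) 1 L.2 q.2.1 q.2.2 ∉
        aff (L.2 - α.2) ((KU.free q.1 L).1 - (KU.free q.1 α).1)) ∧
      (dsp (scat Φ) (-1) L.2 q.2.1 q.2.2 = 0 ∨ dsp (scat Φ) (-1) L.2 q.2.1 q.2.2 ∉
        aff (L.2 - α.2) ((KU.free q.1 L).1 - (KU.free q.1 α).1)) := by
    have hd : ∀ κ : ℝ, Measurable fun q : ND => dsp (scat Φ) κ L.2 q.2.1 q.2.2 := fun κ =>
      (measurable_dsp hS κ).comp ((measurable_const.prodMk measurable_snd :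
        Measurable fun q : ND => ((L.2, q.2) : E3 × E3 × E2)))
    have he : Measurable fun q : ND => (KU.free q.1 L).1 - (KU.free q.1 α).1 := by
      unfold KU.free; fun_prop
    have m1 : ∀ κ : ℝ, MeasurableSet {q : ND | dsp (scat Φ) κ L.2 q.2.1 q.2.2 = 0 ∨
        dsp (scat Φ) κ L.2 q.2.1 q.2.2 ∉
        aff (L.2 - α.2) ((KU.free q.1 L).1 - (KU.free q.1 α).1)} := fun κ =>
      ((hd κ) (measurableSet_singleton 0)).union
        (((hd κ).prodMk (measurable_const.prodMk he)) measurableSet_aff').compl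
    have hset := (m1 1).inter (m1 (-1))
    have h1 : ∀ s : ℝ, ∀ᵐ x : E3 × E2,
        (dsp (scat Φ) 1 L.2 x.1 x.2 = 0 ∨ dsp (scat Φ) 1 L.2 x.1 x.2 ∉
          aff (L.2 - α.2) ((KU.free s L).1 - (KU.free s α).1)) ∧
        (dsp (scat Φ) (-1) L.2 x.1 x.2 = 0 ∨ dsp (scat Φ) (-1) L.2 x.1 x.2 ∉
          aff (L.2 - α.2) ((KU.free s L).1 - (KU.free s α).1)) := by
      intro s
      have h2 := ae_dsp hS (Or.inl rfl) L.2 (L.2 - α.2) ((KU.free s L).1 - (KU.free s α).1)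
      have h3 := ae_dsp hS (Or.inr rfl) L.2 (L.2 - α.2) ((KU.free s L).1 - (KU.free s α).1)
      filter_upwards [h2, h3] with x a b
      exact ⟨a, b⟩
    exact (Measure.ae_prod_iff_ae_ae (μ := (volume : Measure ℝ))
      (ν := (volume : Measure (E3 × E2))) hset).2 (Eventually.of_forall h1)
  unfold nvol
  exact ae_restrict_of_ae key

theorem ae_nev_oG (hΦ : IsPotential Φ) {β : Ph} {ℓ : LG} (h : nev β ℓ.1) :
    ∀ᵐ q ∂nvol, ∀ o : Bool, nev β (oG Φ o ℓ q).1 := by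
  filter_upwards [ae_disp hΦ β ℓ.1] with q hq o
  cases o with
  | true => exact nev_tilt h hq.1
  | false => exact nev_tilt h hq.2

/-- **Generic collisions preserve the property that the two lines never meet.** -/
theorem ae_stG (hΦ : IsPotential Φ) (k : Bool × Bool) {z : LG × LG} (h : nev z.1.1 z.2.1) :
    ∀ᵐ q ∂nvol, nev (stG Φ k z q).1.1 (stG Φ k z q).2.1 := by
  obtain ⟨c, o⟩ := k
  cases c with
  | true =>
    filter_upwards [ae_nev_oG hΦ (nev_comm.1 h)] with q hq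
    rw [stG_true]
    exact nev_comm.1 (hq o)
  | false =>
    filter_upwards [ae_nev_oG hΦ h] with q hq
    rw [stG_false]
    exact hq o

/-- **Two lines which never meet are not close for small `ε`.** -/
theorem ev_not_clo (t K : ℝ) {z : LG × LG} (h : nev z.1.1 z.2.1) :
    ∀ᶠ ε in 𝓝[>] (0 : ℝ), ¬Clo t (K * ε) (latP ε z) := by
  -- the distance at the time `s`, at scale `ε`
  set f : ℝ × ℝ → ℝ := fun x => ‖(KU.free x.2 (lat x.1 z.1)).1 - (KU.free x.2 (lat x.1 z.2)).1‖ -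
    K * x.1 with hf
  have hfc : Continuous f := by
    rw [hf]
    unfold KU.free lat
    fun_prop
  have hpos : ∀ s ∈ Icc (0 : ℝ) t, 0 < f (0, s) := by
    intro s _
    rw [hf]
    simp only
    rw [mul_zero, sub_zero, lat_zero, lat_zero]
    exact norm_pos_iff.2 (sub_ne_zero.2 (h s))
  have h1 : ∀ᶠ ε in 𝓝 (0 : ℝ), ∀ s ∈ Icc (0 : ℝ) t, 0 < f (ε, s) := by
    have hc : IsCompact (Icc (0 : ℝ) t) := isCompact_Icc
    refine hc.eventually_forall_of_forall_eventually fun s hs => ?_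
    exact hfc.continuousAt.eventually (lt_mem_nhds (hpos s hs))
  filter_upwards [nhdsWithin_le_nhds h1] with ε h2
  rintro ⟨s, h3, h4, h5⟩
  have h6 := h2 s ⟨h3, h4⟩
  rw [hf] at h6
  simp only at h6
  rw [latP_fst, latP_snd] at h5
  linarith

theorem act_latP_snd (k : Bool × Bool) (z : LG × LG) (ε : ℝ) :
    (act k (latP ε z)).2 = (act k (z.1.1, z.2.1)).2 := by
  obtain ⟨c, o⟩ := k
  cases c with
  | true => rw [act_true, act_true]; rfl
  | false => rw [act_false, act_false]; rfl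

/-- The integrand of `J_succ`. -/
def Js (Φ : E3 → ℝ) (ε t r b : ℝ) (m : ℕ) (o : Fin (m + 1) → Bool × Bool) (z : Ph × Ph)
    (q : ND) : ℝ≥0∞ :=
  ‖(act (o 0) z).2 - q.2.1‖ₑ * (PB.CT.g1 b q.2.1 * ind (0 ≤ q.1 ∧ q.1 ≤ t) *
    J Φ ε t r b m (Fin.tail o) (stl Φ ε (o 0) z (hl ε (act (o 0) z) q)))

/-- The dominating function. -/
def Jd (t b : ℝ) (m : ℕ) (k : Bool × Bool) (z : Ph × Ph) (q : ND) : ℝ≥0∞ :=
  ‖(act k z).2 - q.2.1‖ₑ * (PB.CT.g1 b q.2.1 * ind (0 ≤ q.1 ∧ q.1 ≤ t)) *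
    ENNReal.ofReal ((1 + ‖z.1.2‖ + ‖z.2.2‖ + ‖q.2.1‖) ^ m)

theorem measurable_Js (hΦ : IsPotential Φ) (hε : 0 < ε) (m : ℕ) (o : Fin (m + 1) → Bool × Bool)
    (z : Ph × Ph) : Measurable (Js Φ ε t r b m o z) := by
  have m1 : Measurable fun q : ND => ‖(act (o 0) z).2 - q.2.1‖ₑ := by fun_prop
  have m2 : Measurable fun q : ND => PB.CT.g1 b q.2.1 := by
    unfold PB.CT.g1
    fun_prop
  have m3 : Measurable fun q : ND => ind (0 ≤ q.1 ∧ q.1 ≤ t) :=
    measurable_ind ((measurableSet_le measurable_const measurable_fst).inter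
      (measurableSet_le measurable_fst measurable_const))
  have m4 : Measurable fun q : ND => stl Φ ε (o 0) z (hl ε (act (o 0) z) q) :=
    (measurable_stl hΦ hε.ne' (o 0)).comp (measurable_const.prodMk (measurable_hl ε _))
  exact m1.mul ((m2.mul m3).mul ((measurable_J hΦ hε.ne' m (Fin.tail o)).comp m4))

theorem Js_le {m : ℕ} {C : ℝ≥0∞} (hε : 0 < ε) (o : Fin (m + 1) → Bool × Bool)
    (hJ : ∀ ε, 0 < ε → ∀ (r : ℝ) (z : Ph × Ph),
      J Φ ε t r b m (Fin.tail o) z ≤ C * ENNReal.ofReal ((1 + ‖z.1.2‖ + ‖z.2.2‖) ^ m))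
    (hS : ∀ ε, 0 < ε → ∀ (k : Bool × Bool) (z : Ph × Ph) (l : Ph),
      1 + ‖(stl Φ ε k z l).1.2‖ + ‖(stl Φ ε k z l).2.2‖ ≤ 1 + ‖z.1.2‖ + ‖z.2.2‖ + ‖l.2‖)
    (z : Ph × Ph) (q : ND) : Js Φ ε t r b m o z q ≤ C * Jd t b m (o 0) z q := by
  have h1 := hJ ε hε r (stl Φ ε (o 0) z (hl ε (act (o 0) z) q))
  have h2 := hS ε hε (o 0) z (hl ε (act (o 0) z) q)
  rw [hl_snd] at h2
  have h3 : 0 ≤ 1 + ‖(stl Φ ε (o 0) z (hl ε (act (o 0) z) q)).1.2‖ +
      ‖(stl Φ ε (o 0) z (hl ε (act (o 0) z) q)).2.2‖ := by positivity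
  have h4 := ENNReal.ofReal_le_ofReal (pow_le_pow_left₀ h3 h2 m)
  have h5 : J Φ ε t r b m (Fin.tail o) (stl Φ ε (o 0) z (hl ε (act (o 0) z) q)) ≤
      C * ENNReal.ofReal ((1 + ‖z.1.2‖ + ‖z.2.2‖ + ‖q.2.1‖) ^ m) :=
    h1.trans (mul_le_mul_right h4 C)
  unfold Js Jd
  refine (mul_le_mul_right (mul_le_mul_right h5 _) _).trans (le_of_eq ?_)
  ring

theorem Js_latP (hΦ : IsPotential Φ) (hε : 0 < ε) {m : ℕ} (o : Fin (m + 1) → Bool × Bool)
    (z : LG × LG) (q : ND) : Js Φ ε t r b m o (latP ε z) q =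
      ‖(act (o 0) (z.1.1, z.2.1)).2 - q.2.1‖ₑ * (PB.CT.g1 b q.2.1 * ind (0 ≤ q.1 ∧ q.1 ≤ t) *
        J Φ ε t r b m (Fin.tail o) (latP ε (stG Φ (o 0) z q))) := by
  unfold Js
  rw [stl_hl hΦ hε.ne', act_latP_snd]

theorem Jd_latP (m : ℕ) (k : Bool × Bool) (z : LG × LG) (q : ND) :
    Jd t b m k (latP ε z) q = Jd t b m k (z.1.1, z.2.1) q := by
  unfold Jd
  rw [act_latP_snd]
  rfl

/-- **The mass of the closed chains tends to `0`**, from the domination. -/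
theorem tendsto_J_of (hΦ : IsPotential Φ) (t K : ℝ)
    (hJ : ∀ (m : ℕ) (o : Fin m → Bool × Bool), ∃ C : ℝ≥0∞, C ≠ ∞ ∧ ∀ ε, 0 < ε → ∀ (r : ℝ)
      (z : Ph × Ph), J Φ ε t r b m o z ≤ C * ENNReal.ofReal ((1 + ‖z.1.2‖ + ‖z.2.2‖) ^ m))
    (hS : ∀ ε, 0 < ε → ∀ (k : Bool × Bool) (z : Ph × Ph) (l : Ph),
      1 + ‖(stl Φ ε k z l).1.2‖ + ‖(stl Φ ε k z l).2.2‖ ≤ 1 + ‖z.1.2‖ + ‖z.2.2‖ + ‖l.2‖)
    (hI : ∀ (m : ℕ) (k : Bool × Bool) (z : Ph × Ph), ∫⁻ q, Jd t b m k z q ∂nvol ≠ ∞) :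
    ∀ (m : ℕ) (o : Fin m → Bool × Bool) (z : LG × LG), nev z.1.1 z.2.1 →
      Tendsto (fun ε => J Φ ε t (K * ε) b m o (latP ε z)) (𝓝[>] 0) (𝓝 0) := by
  intro m
  induction m with
  | zero =>
    intro o z h
    refine tendsto_const_nhds.congr' ?_
    filter_upwards [ev_not_clo t K h] with ε hε
    rw [J_zero, ind_of_false hε]
  | succ m ih =>
    intro o z h
    obtain ⟨C, hC, hJC⟩ := hJ m (Fin.tail o)
    have hlim : Tendsto (fun ε => ∫⁻ q, Js Φ ε t (K * ε) b m o (latP ε z) q ∂nvol) (𝓝[>] 0)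
        (𝓝 (∫⁻ _ : ND, 0 ∂nvol)) := by
      refine tendsto_lintegral_filter_of_dominated_convergence
        (fun q => C * Jd t b m (o 0) (z.1.1, z.2.1) q) ?_ ?_ ?_ ?_
      · filter_upwards [self_mem_nhdsWithin] with ε hε
        exact measurable_Js hΦ hε m o (latP ε z)
      · filter_upwards [self_mem_nhdsWithin] with ε hε
        refine Eventually.of_forall fun q => ?_
        rw [← Jd_latP (ε := ε)]
        exact Js_le hε o hJC hS (latP ε z) q
      · rw [lintegral_const_mul' _ _ hC]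
        exact ENNReal.mul_ne_top hC (hI m (o 0) _)
      · filter_upwards [ae_stG hΦ (o 0) h] with q hq
        have h1 := ih (Fin.tail o) (stG Φ (o 0) z q) hq
        have hg : PB.CT.g1 b q.2.1 * ind (0 ≤ q.1 ∧ q.1 ≤ t) ≠ ∞ :=
          ENNReal.mul_ne_top ENNReal.ofReal_ne_top (ind_ne_top _)
        have h2 : Tendsto (fun ε => ‖(act (o 0) (z.1.1, z.2.1)).2 - q.2.1‖ₑ *
            (PB.CT.g1 b q.2.1 * ind (0 ≤ q.1 ∧ q.1 ≤ t) *
              J Φ ε t (K * ε) b m (Fin.tail o) (latP ε (stG Φ (o 0) z q)))) (𝓝[>] 0)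
            (𝓝 (‖(act (o 0) (z.1.1, z.2.1)).2 - q.2.1‖ₑ *
              (PB.CT.g1 b q.2.1 * ind (0 ≤ q.1 ∧ q.1 ≤ t) * 0))) :=
          ENNReal.Tendsto.const_mul (ENNReal.Tendsto.const_mul h1 (Or.inr hg))
            (Or.inr enorm_ne_top)
        rw [mul_zero, mul_zero] at h2
        refine h2.congr' ?_
        filter_upwards [self_mem_nhdsWithin] with ε hε
        exact (Js_latP hΦ hε o z q).symm
    rw [lintegral_zero] at hlim
    refine hlim.congr' ?_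
    filter_upwards [self_mem_nhdsWithin] with ε hε
    exact (J_succ hΦ hε m o (latP ε z)).symm

end Vale.Agent.P119.KT
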