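import Vale.Agent.P119.KT.ChainMass
import Vale.Agent.P119.KT.ChainBound

/-!
# P119, block KT (`helper860`): the limit of the mass of the closed chains

* **`tendsto_J`**: the mass of the closed chains tends to `0`.
-/

open MeasureTheory Filter Topology Set
open scoped ENNReal NNReal

noncomputable section

namespace Vale.Agent.P119.KT

open KU M CTree ML
open Vale.Agent.P119.M (Shape)

variable {Φ : E3 → ℝ} {ε t r b : ℝ}

theorem norm_stl_le (hΦ : IsPotential Φ) (hε : 0 < ε) (k : Bool × Bool) (z : Ph × Ph) (l : Ph) :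
    1 + ‖(stl Φ ε k z l).1.2‖ + ‖(stl Φ ε k z l).2.2‖ ≤ 1 + ‖z.1.2‖ + ‖z.2.2‖ + ‖l.2‖ := by
  obtain ⟨c, o⟩ := k
  cases c with
  | true =>
    rw [stl_true]
    have := outl_snd_le hΦ hε o z.1 l
    simp only
    linarith
  | false =>
    rw [stl_false]
    have := outl_snd_le hΦ hε o z.2 l
    simp only
    linarith

/-- **The mass of the closed chains tends to `0`.** -/
theorem tendsto_J (hΦ : IsPotential Φ) (hb : 0 < b) (t K : ℝ) (m : ℕ)
    (o : Fin m → Bool × Bool) (z : LG × LG) (h : nev z.1.1 z.2.1) :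
    Tendsto (fun ε => J Φ ε t (K * ε) b m o (latP ε z)) (𝓝[>] 0) (𝓝 0) := by
  refine tendsto_J_of hΦ t K (fun m o => J_le hΦ hb t m o)
    (fun _ hε k z l => norm_stl_le hΦ hε k z l) (fun m k z => ?_) m o z h
  unfold Jd
  simp only [mul_assoc]
  have h := J_int_ne_top (t := t) hb m k z
  simp only [mul_assoc] at h
  exact h

end Vale.Agent.P119.KT
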