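import Vale.Agent.P119.KT.Tube

/-!
# P119, block KT (`helper256`): a generic forest does not hit itself

* `TouchH T hor x y`: if the legs `x`, `y` meet at the time `T` exactly, then they are not in contact
  before the horizon `hor ε`;
* `legs_apart`, `cross` (two trees), `self_clean` (one tree);
* `ev_disjoint`, `ev_ok`.
-/

open MeasureTheory Filter Topology Set
open scoped ENNReal NNReal

noncomputable section

namespace Vale.Agent.P119.KT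

open KU M CTree ML
open Vale.Agent.P119.M (Shape)

variable {Φ : E3 → ℝ} {ε : ℝ}

/-- If the legs meet at `T` exactly then there is no contact before the horizon. -/
def TouchH (T : ℝ) (hor : ℝ → ℝ) (x y : LG × ℝ × ℝ) : Prop :=
  x.2.1 ≤ T → T ≤ x.2.2 → y.2.1 ≤ T → T ≤ y.2.2 → meetAt x.1.1 y.1.1 T →
    (x.2.1 < T ∧ y.2.1 < T ∧ ∀ᶠ ε in 𝓝[>] (0 : ℝ), ∀ s < hor ε,
      ¬Ctc ε (KU.free s (lat ε x.1)) (KU.free s (lat ε y.1)))

theorem TouchH.symm {T : ℝ} {hor : ℝ → ℝ} {x y : LG × ℝ × ℝ} (h : TouchH T hor x y) :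
    TouchH T hor y x := by
  intro h1 h2 h3 h4 h5
  obtain ⟨h6, h7, h8⟩ := h h3 h4 h1 h2 (meetAt_comm.1 h5)
  exact ⟨h7, h6, h8.mono fun ε h9 s hs hc => h9 s hs hc.symm⟩

/-- **Two legs.** -/
theorem legs_apart {T : ℝ} {hor : ℝ → ℝ} {x y : LG × ℝ × ℝ} (hnm : nm T x.1.1 y.1.1)
    (ht : TouchH T hor x y) {K : ℝ} (hK : 1 ≤ K) (hhor : ∀ᶠ ε in 𝓝[>] (0 : ℝ), hor ε ≤ T + K * ε) :
    ∀ᶠ ε in 𝓝[>] (0 : ℝ), ∀ s < hor ε, y.2.1 - K * ε ≤ s → s ≤ y.2.2 + K * ε →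
      ¬Near K ε x s (lat ε y.1) := by
  have hK0 : 0 ≤ K := by linarith
  by_cases hmeet : ∀ σ, max x.2.1 y.2.1 ≤ σ → σ ≤ min (min x.2.2 y.2.2) T →
      ¬meetAt x.1.1 y.1.1 σ
  · filter_upwards [tube x.1 y.1 hmeet hK0, hhor, ev_pos] with ε h1 h2 hε s hs h3 h4 hn
    have h5 := hn.dist hK hε
    refine absurd h5 (not_le.2 (h1 s ?_ ?_))
    · rw [sub_le_iff_le_add]
      exact max_le (by linarith [hn.1]) (by linarith)
    · rw [← sub_le_iff_le_add]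
      exact le_min (le_min (by linarith [hn.2.1]) (by linarith)) (by linarith)
  · push Not at hmeet
    obtain ⟨σ, h1, h2, h3⟩ := hmeet
    have hσT : σ = T := by
      by_contra hne
      exact hnm σ (lt_of_le_of_ne (h2.trans (min_le_right _ _)) hne) h3
    rw [hσT] at h1 h2 h3
    obtain ⟨h4, h5, h6⟩ := ht ((le_max_left _ _).trans h1)
      (h2.trans ((min_le_left _ _).trans (min_le_left _ _)))
      ((le_max_right _ _).trans h1) (h2.trans ((min_le_left _ _).trans (min_le_right _ _))) h3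
    have h7 : ∀ σ, max x.2.1 y.2.1 ≤ σ → σ ≤ x.2.1 → ¬meetAt x.1.1 y.1.1 σ :=
      fun σ _ hσ => hnm σ (hσ.trans_lt h4)
    filter_upwards [tube x.1 y.1 h7 hK0, h6, ev_pos] with ε h8 h9 hε s hs h10 h11 hn
    rcases hn.2.2 with h12 | ⟨h12, h13⟩
    · exact h9 s hs h12
    · refine absurd h13 (not_le.2 (h8 s ?_ h12))
      rw [sub_le_iff_le_add]
      exact max_le (by linarith [hn.1]) (by linarith)

theorem Near.mono' {K K' : ℝ} (hε : 0 < ε) {x : LG × ℝ × ℝ} {s : ℝ} {l : Ph} (h : Near K ε x s l)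
    (hK : K ≤ K') : Near K' ε x s l := h.mono hε hK

/-- **Two trees do not hit each other.** -/
theorem cross (hΦ : IsPotential Φ) {G G' : TG} (hG : good Φ G.τ G.ℓ.1.2 G.p)
    (hG' : good Φ G'.τ G'.ℓ.1.2 G'.p) (hok : ∀ᶠ ε in 𝓝[>] (0 : ℝ), ok Φ ε (G.tree Φ ε))
    {T : ℝ} {hor : ℝ → ℝ}
    (hl : ∀ x ∈ G.legs Φ T, ∀ y ∈ G'.legs Φ T, nm T x.1.1 y.1.1 ∧ TouchH T hor x y) {K₀ : ℝ}
    (hhor : ∀ᶠ ε in 𝓝[>] (0 : ℝ), hor ε ≤ T + K₀ * ε) :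
    ∀ᶠ ε in 𝓝[>] (0 : ℝ), ∀ S d, Oc Φ ε (hor ε) (G'.tree Φ ε) S d → ∀ s < hor ε, s ≤ d →
      ¬hit Φ ε (G.tree Φ ε) S s := by
  obtain ⟨K₁, hK₁, h1⟩ := hit_near hΦ G.τ G.ℓ G.p hG T K₀
  obtain ⟨K₂, hK₂, h2⟩ := oc_near hΦ G'.τ G'.ℓ G'.p hG' T K₀
  set K := K₁ + K₂ + |K₀| with hK
  have hK0 := abs_nonneg K₀
  have hK1 : 1 ≤ K := by linarith
  have hhor' : ∀ᶠ ε in 𝓝[>] (0 : ℝ), hor ε ≤ T + K * ε := by
    filter_upwards [hhor, ev_pos] with ε h3 hε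
    have h4 : K₀ * ε ≤ K * ε := mul_le_mul_of_nonneg_right
      (by have := le_abs_self K₀; linarith) hε.le
    linarith
  have key : ∀ᶠ ε in 𝓝[>] (0 : ℝ), ∀ x ∈ G.legs Φ T, ∀ y ∈ G'.legs Φ T,
      ∀ s < hor ε, y.2.1 - K * ε ≤ s → s ≤ y.2.2 + K * ε → ¬Near K ε x s (lat ε y.1) := by
    have h3 : ∀ x ∈ G.legs Φ T, ∀ᶠ ε in 𝓝[>] (0 : ℝ), ∀ y ∈ G'.legs Φ T,
        ∀ s < hor ε, y.2.1 - K * ε ≤ s → s ≤ y.2.2 + K * ε → ¬Near K ε x s (lat ε y.1) := by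
      intro x hx
      have h4 : ∀ y ∈ G'.legs Φ T, ∀ᶠ ε in 𝓝[>] (0 : ℝ),
          ∀ s < hor ε, y.2.1 - K * ε ≤ s → s ≤ y.2.2 + K * ε → ¬Near K ε x s (lat ε y.1) :=
        fun y hy => legs_apart (hl x hx y hy).1 (hl x hx y hy).2 hK1 hhor'
      exact (Filter.eventually_all_finite (List.finite_toSet (G'.legs Φ T))).2 h4
    exact (Filter.eventually_all_finite (List.finite_toSet (G.legs Φ T))).2 h3
  filter_upwards [key, hhor, ev_pos, hok] with ε h3 h4 hε hokε S d hS s hs hsd hh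
  obtain ⟨y, hy, h5, h6, h7⟩ := h2 ε hε (hor ε) S d h4 hS
  obtain ⟨x, hx, h8⟩ := h1 ε hε hokε S s (hs.le.trans h4) hh
  have h9 := hit_ext_le hh
  rw [h5] at h8
  have e1 : K₁ * ε ≤ K * ε := mul_le_mul_of_nonneg_right (by linarith) hε.le
  have e2 : K₂ * ε ≤ K * ε := mul_le_mul_of_nonneg_right (by linarith) hε.le
  exact h3 x hx y hy s hs (by linarith) (by linarith) (h8.mono hε (by linarith))

/-! ### The leaves -/

/-- The sources of a germ. -/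
theorem mem_leaves_germ : ∀ (τ : Shape) (ℓ : LG) (p : PD τ) (h ε : ℝ) (z : Src),
    z ∈ ((⟨τ, ℓ, p⟩ : TG).tree Φ ε).leaves →
      ∃ x ∈ glegs Φ τ ℓ p h, x.2.1 = 0 ∧ z = M.src (lat ε x.1)
  | .leaf, ℓ, p, h, ε, z, hz => ⟨(ℓ, 0, h), mem_glegs_leaf.2 rfl, rfl, hz⟩
  | .node a b, ℓ, p, h, ε, z, hz => by
    rw [TG.tree_node] at hz
    rcases hz with hz | hz
    · obtain ⟨x, hx, h1, h2⟩ := mem_leaves_germ a _ _ p.1.1 ε z hz
      exact ⟨x, mem_glegs_node.2 (Or.inl hx), h1, h2⟩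
    · obtain ⟨x, hx, h1, h2⟩ := mem_leaves_germ b _ _ p.1.1 ε z hz
      exact ⟨x, mem_glegs_node.2 (Or.inr (Or.inl hx)), h1, h2⟩

/-- Two trees which do not meet at the time `0` have different particles. -/
theorem ev_disjoint {G G' : TG} {h : ℝ}
    (hl : ∀ x ∈ G.legs Φ h, ∀ y ∈ G'.legs Φ h, ¬meetAt x.1.1 y.1.1 0) :
    ∀ᶠ ε in 𝓝[>] (0 : ℝ), Disjoint (G.tree Φ ε).leaves (G'.tree Φ ε).leaves := by
  have key : ∀ᶠ ε in 𝓝[>] (0 : ℝ), ∀ x ∈ G.legs Φ h, ∀ y ∈ G'.legs Φ h,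
      lat ε x.1 ≠ lat ε y.1 := by
    refine (Filter.eventually_all_finite (List.finite_toSet (G.legs Φ h))).2 fun x hx => ?_
    refine (Filter.eventually_all_finite (List.finite_toSet (G'.legs Φ h))).2 fun y hy => ?_
    have h1 : ∀ σ : ℝ, (0 : ℝ) ≤ σ → σ ≤ 0 → ¬meetAt x.1.1 y.1.1 σ := fun σ h2 h3 => by
      rw [le_antisymm h3 h2]; exact hl x hx y hy
    filter_upwards [tube x.1 y.1 h1 (le_refl (0 : ℝ)), ev_pos] with ε h2 hε heq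
    have h3 := h2 0 (by linarith) (by linarith)
    rw [heq, sub_self, norm_zero] at h3
    linarith
  filter_upwards [key] with ε h1
  rw [disjoint_left]
  intro z hz hz'
  obtain ⟨x, hx, -, h2⟩ := mem_leaves_germ G.τ G.ℓ G.p h ε z hz
  obtain ⟨y, hy, -, h3⟩ := mem_leaves_germ G'.τ G'.ℓ G'.p h ε z hz'
  exact h1 x hx y hy (M.src_injective (h2.symm.trans h3))

/-! ### The lines of a generic tree -/

theorem AllL.legs {Q : Ph → Prop} : ∀ {τ : Shape} {ℓ : LG} {p : PD τ} {h : ℝ},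
    AllL Φ Q τ ℓ.1 p → ∀ x ∈ glegs Φ τ ℓ p h, Q x.1.1
  | .leaf, ℓ, p, h, hA, x, hx => by rw [mem_glegs_leaf.1 hx]; exact hA
  | .node a b, ℓ, p, h, hA, x, hx => by
    rcases mem_glegs_node.1 hx with hx | hx | hx
    · exact AllL.legs (ℓ := inG1 Φ ℓ p.1) hA.2.1 x hx
    · exact AllL.legs (ℓ := inG2 Φ ℓ p.1) hA.2.2 x hx
    · rw [hx]; exact hA.1.1

/-- The exhausts of a germ. -/
def exl (Φ : E3 → ℝ) : (τ : Shape) → LG → PD τ → List LG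
  | .leaf, _, _ => []
  | .node a b, ℓ, p => exl Φ a (inG1 Φ ℓ p.1) p.2.1 ++ exl Φ b (inG2 Φ ℓ p.1) p.2.2 ++ [exG ℓ p.1]

theorem mem_exl_node {a b : Shape} {ℓ : LG} {p : PD (.node a b)} {e : LG} :
    e ∈ exl Φ (.node a b) ℓ p ↔ e ∈ exl Φ a (inG1 Φ ℓ p.1) p.2.1 ∨
      e ∈ exl Φ b (inG2 Φ ℓ p.1) p.2.2 ∨ e = exG ℓ p.1 := by
  change e ∈ exl Φ a (inG1 Φ ℓ p.1) p.2.1 ++ exl Φ b (inG2 Φ ℓ p.1) p.2.2 ++ [exG ℓ p.1] ↔ _
  rw [List.mem_append, List.mem_append, List.mem_singleton, or_assoc]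

theorem AllL.exs {Q : Ph → Prop} : ∀ {τ : Shape} {ℓ : LG} {p : PD τ},
    AllL Φ Q τ ℓ.1 p → ∀ e ∈ exl Φ τ ℓ p, Q e.1
  | .leaf, ℓ, p, hA, x, hx => absurd hx List.not_mem_nil
  | .node a b, ℓ, p, hA, x, hx => by
    rcases mem_exl_node.1 hx with hx | hx | hx
    · exact AllL.exs (ℓ := inG1 Φ ℓ p.1) hA.2.1 x hx
    · exact AllL.exs (ℓ := inG2 Φ ℓ p.1) hA.2.2 x hx
    · rw [hx]; exact hA.1.2

theorem Av.legs {α : Ph} {T : ℝ} : ∀ {τ : Shape} {ℓ : LG} {p : PD τ} {h : ℝ},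
    Av Φ α T τ ℓ.1 p → ∀ x ∈ glegs Φ τ ℓ p h, nm T α x.1.1
  | .leaf, ℓ, p, h, hA, x, hx => by rw [mem_glegs_leaf.1 hx]; exact hA
  | .node a b, ℓ, p, h, hA, x, hx => by
    rcases mem_glegs_node.1 hx with hx | hx | hx
    · exact Av.legs (ℓ := inG1 Φ ℓ p.1) hA.2.1 x hx
    · exact Av.legs (ℓ := inG2 Φ ℓ p.1) hA.2.2 x hx
    · rw [hx]; exact hA.1.1

theorem Av.exs {α : Ph} {T : ℝ} : ∀ {τ : Shape} {ℓ : LG} {p : PD τ},
    Av Φ α T τ ℓ.1 p → ∀ e ∈ exl Φ τ ℓ p, nev α e.1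
  | .leaf, ℓ, p, hA, x, hx => absurd hx List.not_mem_nil
  | .node a b, ℓ, p, hA, x, hx => by
    rcases mem_exl_node.1 hx with hx | hx | hx
    · exact Av.exs (ℓ := inG1 Φ ℓ p.1) hA.2.1 x hx
    · exact Av.exs (ℓ := inG2 Φ ℓ p.1) hA.2.2 x hx
    · rw [hx]; exact hA.1.2

/-- The germs are apart. -/
def ApartG (Φ : E3 → ℝ) (T : ℝ) (G G' : TG) : Prop :=
  Apart Φ T G.τ G.ℓ.1 G.p G'.τ G'.ℓ.1 G'.p

theorem ApartG.symm {T : ℝ} {G G' : TG} (h : ApartG Φ T G G') : ApartG Φ T G' G :=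
  Apart.symm h

theorem ApartG.mono {T T' : ℝ} {G G' : TG} (h : ApartG Φ T G G') (hT : T' ≤ T) :
    ApartG Φ T' G G' := Apart.mono h hT

theorem ApartG.nm {T : ℝ} {G G' : TG} (h : ApartG Φ T G G') {h₁ h₂ : ℝ} {x y : LG × ℝ × ℝ}
    (hx : x ∈ G.legs Φ h₁) (hy : y ∈ G'.legs Φ h₂) : nm T x.1.1 y.1.1 :=
  (AllL.legs h.1 x hx).legs y hy

/-- Leg against exhaust. -/
theorem ApartG.nev {T : ℝ} {G G' : TG} (h : ApartG Φ T G G') {h₁ : ℝ} {x : LG × ℝ × ℝ} {e : LG}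
    (hx : x ∈ G.legs Φ h₁) (he : e ∈ exl Φ G'.τ G'.ℓ G'.p) : nev x.1.1 e.1 :=
  (AllL.legs h.1 x hx).exs e he

/-- Exhaust against exhaust. -/
theorem ApartG.nev_ex {T : ℝ} {G G' : TG} (h : ApartG Φ T G G') {e e' : LG}
    (he : e ∈ exl Φ G.τ G.ℓ G.p) (he' : e' ∈ exl Φ G'.τ G'.ℓ G'.p) : KT.nev e.1 e'.1 :=
  (AllL.exs h.1 e he).exs e' he'

/-! ### One tree -/

/-- The two subtrees of a node, at the time of the node. -/
theorem sib_legs (hΦ : IsPotential Φ) {a b : Shape} {ℓ : LG} {p : PD (.node a b)}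
    (hg : good Φ (.node a b) ℓ.1.2 p) (ht : Tord (.node a b) p)
    (hs : Self Φ (.node a b) ℓ.1 p) :
    ∀ x ∈ (gA Φ a b ℓ p).legs Φ p.1.1, ∀ y ∈ (gB Φ a b ℓ p).legs Φ p.1.1,
      nm p.1.1 x.1.1 y.1.1 ∧
        TouchH p.1.1 (fun ε => p.1.1 + ε * tin (inRel Φ ℓ.1.2 p.1)) x y := by
  intro x hx y hy
  have hap : ApartG Φ p.1.1 (gA Φ a b ℓ p) (gB Φ a b ℓ p) := hs.1
  refine ⟨hap.nm hx hy, fun h1 h2 h3 h4 h5 => ?_⟩
  rcases glegs_end a _ _ ht.1.1 _ _ hx with hx' | hx'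
  · rcases glegs_end b _ _ ht.1.2 _ _ hy with hy' | hy'
    · rw [hx', hy']
      refine ⟨ht.2.1, ht.2.2, ?_⟩
      filter_upwards [ev_pos] with ε hε s hs
      have hq : (lat ε (inG1 Φ ℓ p.1), lat ε (inG2 Φ ℓ p.1)) = inLines Φ ε (lat ε ℓ) p.1 :=
        (inLines_lat ε ℓ p.1).symm
      have hT : hitT ε (lat ε (inG1 Φ ℓ p.1), lat ε (inG2 Φ ℓ p.1)) =
          p.1.1 + ε * tin (inRel Φ ℓ.1.2 p.1) := by
        rw [hq]; exact hitT_inLines hΦ hε.ne' hg.1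
      have hm : Meets ε (lat ε (inG1 Φ ℓ p.1), lat ε (inG2 Φ ℓ p.1)) := by
        have h6 := (bk_mem_col hΦ hε.ne' (.node a b) (lat ε ℓ) p hg).2.1
        have h7 := root_bk hΦ hε.ne' a (inLines Φ ε (lat ε ℓ) p.1).1 p.2.1
          (by rw [(inLines_vel ε (lat ε ℓ) p.1).1]; exact hg.2.1)
        have h8 := root_bk hΦ hε.ne' b (inLines Φ ε (lat ε ℓ) p.1).2 p.2.2
          (by rw [(inLines_vel ε (lat ε ℓ) p.1).2]; exact hg.2.2)
        have h9 : Hit (rel ε (root Φ ε a (bk Φ ε a (inLines Φ ε (lat ε ℓ) p.1).1 p.2.1),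
          root Φ ε b (bk Φ ε b (inLines Φ ε (lat ε ℓ) p.1).2 p.2.2))) := h6
        rw [h7, h8, hit_iff_meets] at h9
        rw [hq]
        exact h9
      exact not_ctc_of_lt (lt_dist_of_lt_hitT hε hm (by rw [hT]; exact hs))
    · exact absurd (h4.trans hy') (not_le.2 ht.2.2)
  · exact absurd (h2.trans hx') (not_le.2 ht.2.1)

/-- **A generic tree is admissible for small `ε`.** -/
theorem ev_ok (hΦ : IsPotential Φ) : ∀ (τ : Shape) (ℓ : LG) (p : PD τ), good Φ τ ℓ.1.2 p →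
    Tord τ p → Self Φ τ ℓ.1 p → ∀ᶠ ε in 𝓝[>] (0 : ℝ), ok Φ ε ((⟨τ, ℓ, p⟩ : TG).tree Φ ε) := by
  intro τ ℓ p hg ht hs
  -- the particles are different
  have hinj : ∀ (τ : Shape) (ℓ : LG) (p : PD τ), good Φ τ ℓ.1.2 p → Tord τ p →
      Self Φ τ ℓ.1 p → ∀ᶠ ε in 𝓝[>] (0 : ℝ),
        Function.Injective (ldEquiv τ (bk Φ ε τ (lat ε ℓ) p)) := by
    intro τ
    induction τ with
    | leaf => exact fun ℓ p _ _ _ => Eventually.of_forall fun ε i j _ =>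
        Subsingleton.elim (α := Fin 1) i j
    | node a b iha ihb =>
      intro ℓ p hg ht hs
      have h1 := iha (inG1 Φ ℓ p.1) p.2.1 (good_A hg) ht.1.1 hs.2.1
      have h2 := ihb (inG2 Φ ℓ p.1) p.2.2 (good_B hg) ht.1.2 hs.2.2
      have hpos : 0 < p.1.1 := (stm_nonneg a p.2.1 ht.1.1).trans_lt ht.2.1
      have h3 : ∀ᶠ ε in 𝓝[>] (0 : ℝ), Disjoint ((gA Φ a b ℓ p).tree Φ ε).leaves
          ((gB Φ a b ℓ p).tree Φ ε).leaves :=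
        ev_disjoint (h := p.1.1) fun x hx y hy => (sib_legs hΦ hg ht hs x hx y hy).1 0 hpos
      filter_upwards [h1, h2, h3] with ε h1 h2 h3
      have e := inLines_lat (Φ := Φ) ε ℓ p.1
      have e1 : bk Φ ε (.node a b) (lat ε ℓ) p =
          (bk Φ ε a (lat ε (inG1 Φ ℓ p.1)) p.2.1, bk Φ ε b (lat ε (inG2 Φ ℓ p.1)) p.2.2) := by
        change (bk Φ ε a (inLines Φ ε (lat ε ℓ) p.1).1 p.2.1,
          bk Φ ε b (inLines Φ ε (lat ε ℓ) p.1).2 p.2.2) = _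
        rw [e]
      rw [e1]
      exact (injective_node_iff a b (bk Φ ε a (lat ε (inG1 Φ ℓ p.1)) p.2.1,
        bk Φ ε b (lat ε (inG2 Φ ℓ p.1)) p.2.2)).2 ⟨h1, h2, h3⟩
  have h1 : Tendsto (fun ε : ℝ => ε) (𝓝[>] (0 : ℝ)) (𝓝 0) := tendsto_id.mono_left nhdsWithin_le_nhds
  filter_upwards [hinj τ ℓ p hg ht hs, tok_eventually (Φ := Φ) h1 τ ℓ.1.2 p ht.gent, ev_pos] with
    ε h2 h3 hε
  rw [TG.tree_def, ok_mkL_bk_iff hΦ hε.ne' τ (lat ε ℓ) p hg]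
  exact ⟨h3.2 ((tok_zero_iff τ ℓ.1.2 p).2 ht), h2⟩

/-- **A generic tree does not hit itself.** -/
theorem self_clean (hΦ : IsPotential Φ) : ∀ (τ : Shape) (ℓ : LG) (p : PD τ), good Φ τ ℓ.1.2 p →
    Tord τ p → Self Φ τ ℓ.1 p → ∀ᶠ ε in 𝓝[>] (0 : ℝ), ∀ (D : ℝ) (S : CTree) (d : ℝ),
      Oc Φ ε D ((⟨τ, ℓ, p⟩ : TG).tree Φ ε) S d → ∀ s ≤ d,
        ¬hit Φ ε ((⟨τ, ℓ, p⟩ : TG).tree Φ ε) S s
  | .leaf, ℓ, p, _, _, _ => by
    refine Eventually.of_forall fun ε D S d hS s _ => ?_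
    rw [TG.tree_leaf] at hS ⊢
    rw [hS.top_leaf.1]
    exact not_hit_of_subset subset_rfl
  | .node a b, ℓ, p, hg, ht, hs => by
    have ha := self_clean hΦ a (inG1 Φ ℓ p.1) p.2.1 (good_A hg) ht.1.1 hs.2.1
    have hb := self_clean hΦ b (inG2 Φ ℓ p.1) p.2.2 (good_B hg) ht.1.2 hs.2.2
    have hoa := ev_ok hΦ a (inG1 Φ ℓ p.1) p.2.1 (good_A hg) ht.1.1 hs.2.1
    have hob := ev_ok hΦ b (inG2 Φ ℓ p.1) p.2.2 (good_B hg) ht.1.2 hs.2.2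
    have ho := ev_ok hΦ (.node a b) ℓ p hg ht hs
    set hor : ℝ → ℝ := fun ε => p.1.1 + ε * tin (inRel Φ ℓ.1.2 p.1) with hhor
    have hle : ∀ᶠ ε in 𝓝[>] (0 : ℝ), hor ε ≤ p.1.1 + |tin (inRel Φ ℓ.1.2 p.1)| * ε := by
      filter_upwards [ev_pos] with ε hε
      have := mul_le_mul_of_nonneg_left (le_abs_self (tin (inRel Φ ℓ.1.2 p.1))) hε.le
      simp only [hhor]
      linarith
    have hsib := sib_legs hΦ hg ht hs
    have hab : ∀ᶠ ε in 𝓝[>] (0 : ℝ), ∀ S d, Oc Φ ε (hor ε) ((gB Φ a b ℓ p).tree Φ ε) S d →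
        ∀ s < hor ε, s ≤ d → ¬hit Φ ε ((gA Φ a b ℓ p).tree Φ ε) S s :=
      cross hΦ (good_A hg) (good_B hg) hoa hsib hle
    have hba : ∀ᶠ ε in 𝓝[>] (0 : ℝ), ∀ S d, Oc Φ ε (hor ε) ((gA Φ a b ℓ p).tree Φ ε) S d →
        ∀ s < hor ε, s ≤ d → ¬hit Φ ε ((gB Φ a b ℓ p).tree Φ ε) S s :=
      cross hΦ (good_B hg) (good_A hg) hob
        (fun x hx y hy => ⟨nm_comm.1 (hsib y hy x hx).1, (hsib y hy x hx).2.symm⟩) hle
    filter_upwards [ha, hb, hoa, hob, ho, hab, hba, ev_pos] with ε ha hb hoa hob ho hab hba hε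
      D S d hS s hsd hh
    rw [TG.tree_node] at hS hh ho
    have hsig : sig Φ ε (node ((gA Φ a b ℓ p).tree Φ ε) ((gB Φ a b ℓ p).tree Φ ε)) = hor ε :=
      sig_node hΦ hε.ne' hg
    rcases hS.top with ⟨rfl, rfl⟩ | hS | hS
    · exact not_hit_of_subset subset_rfl hh
    · rw [hsig] at hS
      rcases hh with ⟨h1, h2⟩ | ⟨-, -, h3, -⟩
      · rw [hsig] at h1 h2
        rcases h2 with ⟨h2, -⟩ | ⟨h2, h3⟩
        · exact ha _ S d hS s hsd h2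
        · rcases h1.lt_or_eq with h4 | h4
          · exact hba S d hS s h4 hsd h2
          · rcases hS.lt_ext hΦ hε hoa with ⟨h5, -⟩ | h5
            · exact h3 ⟨h5, h4⟩
            · have h6 := ho.2.2.2.2.2.1
              change _ < sig Φ ε (node ((gA Φ a b ℓ p).tree Φ ε) ((gB Φ a b ℓ p).tree Φ ε)) at h6
              rw [hsig] at h6
              linarith
      · obtain ⟨z, hz⟩ := S.leaves_nonempty
        exact disjoint_left.1 h3 (Or.inl (hS.leaves hz)) hz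
    · rw [hsig] at hS
      rcases hh with ⟨h1, h2⟩ | ⟨-, -, h3, -⟩
      · rw [hsig] at h1 h2
        rcases h2 with ⟨h2, h3⟩ | ⟨h2, -⟩
        · rcases h1.lt_or_eq with h4 | h4
          · exact hab S d hS s h4 hsd h2
          · rcases hS.lt_ext hΦ hε hob with ⟨h5, -⟩ | h5
            · exact h3 ⟨h5, h4⟩
            · have h6 := ho.2.2.2.2.2.2
              change _ < sig Φ ε (node ((gA Φ a b ℓ p).tree Φ ε) ((gB Φ a b ℓ p).tree Φ ε)) at h6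
              rw [hsig] at h6
              linarith
        · exact hb _ S d hS s hsd h2
      · obtain ⟨z, hz⟩ := S.leaves_nonempty
        exact disjoint_left.1 h3 (Or.inr (hS.leaves hz)) hz

end Vale.Agent.P119.KT
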