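import Vale.Agent.P119.KT.Gen

/-!
# P119, block KT (`helper256`): exhausts and chains of a generic forest

* `oc_exh`: the line of an exhaust; `exh_self`, `exh_forest`: a tree which contains the particles of
  an exhaust hits the forest only close to a leg which the exhaust never meets at `ε = 0`;
* `exh_exh`: two disjoint exhausts never meet at `ε = 0`;
* `fold_ok`: chains of fresh trees.
-/

open MeasureTheory Filter Topology Set
open scoped ENNReal NNReal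

noncomputable section

namespace Vale.Agent.P119.KT

open KU M CTree ML
open Vale.Agent.P119.M (Shape)

variable {Φ : E3 → ℝ} {ε : ℝ} {L : ℕ}

/-- **The line of an exhaust.** -/
theorem oc_exh (hΦ : IsPotential Φ) : ∀ (τ : Shape) (ℓ : LG) (p : PD τ), good Φ τ ℓ.1.2 p →
    ∃ K, 0 ≤ K ∧ ∀ ε, 0 < ε → ∀ (D : ℝ) (a b : CTree) (d : ℝ),
      Oc Φ ε D ((⟨τ, ℓ, p⟩ : TG).tree Φ ε) (node a b) d →
        ∃ e ∈ exw Φ τ ℓ p, ln Φ ε (node b a) = lat ε e.1 ∧ e.2 - K * ε ≤ ext Φ ε (node a b)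
  | .leaf, ℓ, p, _ => by
    refine ⟨0, le_rfl, fun ε hε D a b d hS => ?_⟩
    rw [TG.tree_leaf] at hS
    exact absurd hS.top_leaf.1 (by simp)
  | .node a b, ℓ, p, hg => by
    set c₂ := |half (outRel ℓ.1.2 p.1)| with hc₂
    obtain ⟨Ka, hKa, ha⟩ := oc_exh hΦ a (inG1 Φ ℓ p.1) p.2.1 (good_A hg)
    obtain ⟨Kb, hKb, hb⟩ := oc_exh hΦ b (inG2 Φ ℓ p.1) p.2.2 (good_B hg)
    have hc₂0 : 0 ≤ c₂ := abs_nonneg _
    refine ⟨Ka + Kb + c₂, by linarith, fun ε hε D a' b' d hS => ?_⟩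
    set K := Ka + Kb + c₂ with hK
    rw [TG.tree_node] at hS
    have hext := ext_node (ε := ε) hΦ hε.ne' hg
    have e2' : -(c₂ * ε) ≤ ε * half (outRel ℓ.1.2 p.1) := by
      have := neg_abs_le (half (outRel ℓ.1.2 p.1)); nlinarith
    have hKε : Ka * ε ≤ K * ε ∧ Kb * ε ≤ K * ε ∧ c₂ * ε ≤ K * ε := by
      refine ⟨?_, ?_, ?_⟩ <;> refine mul_le_mul_of_nonneg_right ?_ hε.le <;>
        rw [hK] <;> linarith
    rcases hS.top with ⟨h1, -⟩ | hS | hS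
    · obtain ⟨rfl, rfl⟩ := node.inj h1
      refine ⟨(exG ℓ p.1, p.1.1), mem_exw_node.2 (Or.inr (Or.inr rfl)), ?_, ?_⟩
      · rw [ln_swap hΦ, sc2_AB hΦ hε.ne' hg]
      · rw [hext]
        simp only
        linarith [hKε.2.2]
    · obtain ⟨e, he, h1, h2⟩ := ha ε hε _ a' b' d hS
      exact ⟨e, mem_exw_node.2 (Or.inl he), h1, by linarith [hKε.1]⟩
    · obtain ⟨e, he, h1, h2⟩ := hb ε hε _ a' b' d hS
      exact ⟨e, mem_exw_node.2 (Or.inr (Or.inl he)), h1, by linarith [hKε.2.1]⟩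

/-- **Exhaust against leg, in one tree.** -/
theorem exh_self (hΦ : IsPotential Φ) : ∀ (τ : Shape) (ℓ : LG) (p : PD τ), good Φ τ ℓ.1.2 p →
    Tord τ p → Self Φ τ ℓ.1 p → ∀ h : ℝ, ∃ K, 1 ≤ K ∧ ∀ᶠ ε in 𝓝[>] (0 : ℝ), ∀ (D : ℝ) (a b : CTree)
      (d : ℝ), Oc Φ ε D ((⟨τ, ℓ, p⟩ : TG).tree Φ ε) (node a b) d → ∀ (x : CTree) (s : ℝ),
        (node a b).leaves ⊆ x.leaves → hit Φ ε ((⟨τ, ℓ, p⟩ : TG).tree Φ ε) x s →
        ∃ e ∈ exw Φ τ ℓ p, ∃ y ∈ glegs Φ τ ℓ p h, nev e.1.1 y.1.1 ∧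
          ln Φ ε (node b a) = lat ε e.1 ∧
          ‖(KU.free s (lat ε y.1)).1 - (KU.free s (ln Φ ε x)).1‖ ≤ K * ε
  | .leaf, ℓ, p, _, _, _, h => by
    refine ⟨1, le_rfl, Eventually.of_forall fun ε D a b d hS => ?_⟩
    rw [TG.tree_leaf] at hS
    exact absurd hS.top_leaf.1 (by simp)
  | .node a b, ℓ, p, hg, ht, hs, h => by
    have hap : ApartG Φ p.1.1 (gA Φ a b ℓ p) (gB Φ a b ℓ p) := hs.1
    set c₁ := |tin (inRel Φ ℓ.1.2 p.1)| with hc₁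
    obtain ⟨Ka, hKa, ha⟩ := exh_self hΦ a (inG1 Φ ℓ p.1) p.2.1 (good_A hg) ht.1.1 hs.2.1 p.1.1
    obtain ⟨Kb, hKb, hb⟩ := exh_self hΦ b (inG2 Φ ℓ p.1) p.2.2 (good_B hg) ht.1.2 hs.2.2 p.1.1
    obtain ⟨Kc, hKc, hca⟩ := hit_near hΦ a (inG1 Φ ℓ p.1) p.2.1 (good_A hg) p.1.1 c₁
    obtain ⟨Kd, hKd, hcb⟩ := hit_near hΦ b (inG2 Φ ℓ p.1) p.2.2 (good_B hg) p.1.1 c₁
    obtain ⟨Ke, hKe, hea⟩ := oc_exh hΦ a (inG1 Φ ℓ p.1) p.2.1 (good_A hg)
    obtain ⟨Kf, hKf, heb⟩ := oc_exh hΦ b (inG2 Φ ℓ p.1) p.2.2 (good_B hg)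
    refine ⟨Ka + Kb + Kc + Kd, by linarith, ?_⟩
    set K := Ka + Kb + Kc + Kd with hK
    filter_upwards [ha, hb, ev_ok hΦ a _ _ (good_A hg) ht.1.1 hs.2.1,
      ev_ok hΦ b _ _ (good_B hg) ht.1.2 hs.2.2, ev_pos] with ε ha hb hoa hob hε D a' b' d hS x s
      hsub hh
    have hKε : Ka * ε ≤ K * ε ∧ Kb * ε ≤ K * ε ∧ Kc * ε ≤ K * ε ∧ Kd * ε ≤ K * ε := by
      refine ⟨?_, ?_, ?_, ?_⟩ <;> refine mul_le_mul_of_nonneg_right ?_ hε.le <;>
        rw [hK] <;> linarith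
    have hsig := sig_node (ε := ε) hΦ hε.ne' hg
    have e1 : ε * tin (inRel Φ ℓ.1.2 p.1) ≤ c₁ * ε := by
      have := le_abs_self (tin (inRel Φ ℓ.1.2 p.1)); nlinarith
    rw [TG.tree_node] at hS hh
    rcases hS.top with ⟨h1, -⟩ | hS | hS
    · rw [h1] at hsub
      exact absurd hh (not_hit_of_subset hsub)
    · rcases hh with ⟨h1, h2⟩ | ⟨-, -, h3, -⟩
      · rw [hsig] at h1
        rcases h2 with ⟨h2, -⟩ | ⟨h2, -⟩
        · obtain ⟨e, he, y, hy, h4, h5, h6⟩ := ha _ a' b' d hS x s hsub h2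
          exact ⟨e, mem_exw_node.2 (Or.inl he), y, mem_glegs_node.2 (Or.inl hy), h4, h5,
            h6.trans hKε.1⟩
        · obtain ⟨y, hy, hn⟩ := hcb ε hε hob x s (by linarith) h2
          obtain ⟨e, he, h5, -⟩ := hea ε hε _ a' b' d hS
          exact ⟨e, mem_exw_node.2 (Or.inl he), y, mem_glegs_node.2 (Or.inr (Or.inl hy)),
            nev_comm.1 (hap.symm.nev (h₁ := p.1.1) hy (mem_exl_of_exw he)), h5,
            (hn.dist hKd hε).trans hKε.2.2.2⟩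
      · exfalso
        obtain ⟨z, hz⟩ := (node a' b').leaves_nonempty
        exact disjoint_left.1 h3 (Or.inl (hS.leaves hz)) (hsub hz)
    · rcases hh with ⟨h1, h2⟩ | ⟨-, -, h3, -⟩
      · rw [hsig] at h1
        rcases h2 with ⟨h2, -⟩ | ⟨h2, -⟩
        · obtain ⟨y, hy, hn⟩ := hca ε hε hoa x s (by linarith) h2
          obtain ⟨e, he, h5, -⟩ := heb ε hε _ a' b' d hS
          exact ⟨e, mem_exw_node.2 (Or.inr (Or.inl he)), y, mem_glegs_node.2 (Or.inl hy),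
            nev_comm.1 (hap.nev (h₁ := p.1.1) hy (mem_exl_of_exw he)), h5,
            (hn.dist hKc hε).trans hKε.2.2.1⟩
        · obtain ⟨e, he, y, hy, h4, h5, h6⟩ := hb _ a' b' d hS x s hsub h2
          exact ⟨e, mem_exw_node.2 (Or.inr (Or.inl he)), y, mem_glegs_node.2 (Or.inr (Or.inl hy)),
            h4, h5, h6.trans hKε.2.1⟩
      · exfalso
        obtain ⟨z, hz⟩ := (node a' b').leaves_nonempty
        exact disjoint_left.1 h3 (Or.inr (hS.leaves hz)) (hsub hz)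

/-- Two disjoint exhausts of one tree never meet. -/
theorem exh_exh_self (hΦ : IsPotential Φ) : ∀ (τ : Shape) (ℓ : LG) (p : PD τ), good Φ τ ℓ.1.2 p →
    Self Φ τ ℓ.1 p → ∀ ε, 0 < ε → ∀ (D D' : ℝ) (a b a' b' : CTree)
      (d d' : ℝ), Oc Φ ε D ((⟨τ, ℓ, p⟩ : TG).tree Φ ε) (node a b) d →
        Oc Φ ε D' ((⟨τ, ℓ, p⟩ : TG).tree Φ ε) (node a' b') d' →
        Disjoint (node a b).leaves (node a' b').leaves →
        ∃ e ∈ exw Φ τ ℓ p, ∃ e' ∈ exw Φ τ ℓ p, nev e.1.1 e'.1.1 ∧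
          ln Φ ε (node b a) = lat ε e.1 ∧ ln Φ ε (node b' a') = lat ε e'.1
  | .leaf, ℓ, p, _, _, ε, _, D, D', a, b, a', b', d, d', hS, _, _ => by
    rw [TG.tree_leaf] at hS
    exact absurd hS.top_leaf.1 (by simp)
  | .node A B, ℓ, p, hg, hs, ε, hε, D, D', a, b, a', b', d, d', hS, hS', hd => by
    have hap : ApartG Φ p.1.1 (gA Φ A B ℓ p) (gB Φ A B ℓ p) := hs.1
    obtain ⟨Ke, hKe, hea⟩ := oc_exh hΦ A (inG1 Φ ℓ p.1) p.2.1 (good_A hg)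
    obtain ⟨Kf, hKf, heb⟩ := oc_exh hΦ B (inG2 Φ ℓ p.1) p.2.2 (good_B hg)
    rw [TG.tree_node] at hS hS'
    rcases hS.top with ⟨h1, -⟩ | h1 | h1
    · exfalso
      obtain ⟨z, hz⟩ := (node a' b').leaves_nonempty
      exact disjoint_left.1 hd (by rw [h1]; exact hS'.leaves hz) hz
    · rcases hS'.top with ⟨h2, -⟩ | h2 | h2
      · exfalso
        obtain ⟨z, hz⟩ := (node a b).leaves_nonempty
        exact disjoint_left.1 hd hz (by rw [h2]; exact hS.leaves hz)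
      · obtain ⟨e, he, e', he', h3⟩ := exh_exh_self hΦ A (inG1 Φ ℓ p.1) p.2.1 (good_A hg) hs.2.1 ε hε
          _ _ a b a' b' d d' h1 h2 hd
        exact ⟨e, mem_exw_node.2 (Or.inl he), e', mem_exw_node.2 (Or.inl he'), h3⟩
      · obtain ⟨e, he, h3, -⟩ := hea ε hε _ a b d h1
        obtain ⟨e', he', h4, -⟩ := heb ε hε _ a' b' d' h2
        exact ⟨e, mem_exw_node.2 (Or.inl he), e', mem_exw_node.2 (Or.inr (Or.inl he')),
          hap.nev_ex (mem_exl_of_exw he) (mem_exl_of_exw he'), h3, h4⟩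
    · rcases hS'.top with ⟨h2, -⟩ | h2 | h2
      · exfalso
        obtain ⟨z, hz⟩ := (node a b).leaves_nonempty
        exact disjoint_left.1 hd hz (by rw [h2]; exact hS.leaves hz)
      · obtain ⟨e, he, h3, -⟩ := heb ε hε _ a b d h1
        obtain ⟨e', he', h4, -⟩ := hea ε hε _ a' b' d' h2
        exact ⟨e, mem_exw_node.2 (Or.inr (Or.inl he)), e', mem_exw_node.2 (Or.inl he'),
          nev_comm.1 (hap.nev_ex (mem_exl_of_exw he') (mem_exl_of_exw he)), h3, h4⟩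
      · obtain ⟨e, he, e', he', h3⟩ := exh_exh_self hΦ B (inG2 Φ ℓ p.1) p.2.2 (good_B hg) hs.2.2 ε hε
          _ _ a b a' b' d d' h1 h2 hd
        exact ⟨e, mem_exw_node.2 (Or.inr (Or.inl he)), e', mem_exw_node.2 (Or.inr (Or.inl he')), h3⟩

/-! ### The forest -/

/-- The pairs of lines of a forest which never meet. -/
def LX (Φ : E3 → ℝ) (F : List TG) (t : ℝ) : Set (LG × LG) :=
  {z | (∃ G ∈ F, ∃ e ∈ exw Φ G.τ G.ℓ G.p, z.1 = e.1) ∧
    ((∃ x ∈ flegs Φ F t, z.2 = x.1) ∨ (∃ G ∈ F, ∃ e ∈ exw Φ G.τ G.ℓ G.p, z.2 = e.1)) ∧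
    nev z.1.1 z.2.1}

theorem finite_exw_forest (F : List TG) :
    {z : LG | ∃ G ∈ F, ∃ e ∈ exw Φ G.τ G.ℓ G.p, z = e.1}.Finite := by
  have h : {z : LG | ∃ G ∈ F, ∃ e ∈ exw Φ G.τ G.ℓ G.p, z = e.1} ⊆
      {z | z ∈ F.flatMap fun G => (exw Φ G.τ G.ℓ G.p).map Prod.fst} := by
    rintro z ⟨G, hG, e, he, rfl⟩
    exact List.mem_flatMap.2 ⟨G, hG, List.mem_map.2 ⟨e, he, rfl⟩⟩
  exact (List.finite_toSet _).subset h

theorem finite_LX (F : List TG) (t : ℝ) : (LX Φ F t).Finite := by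
  have h1 : {z : LG | ∃ x ∈ flegs Φ F t, z = x.1}.Finite := by
    have h : {z : LG | ∃ x ∈ flegs Φ F t, z = x.1} ⊆ {z | z ∈ (flegs Φ F t).map Prod.fst} := by
      rintro z ⟨x, hx, rfl⟩
      exact List.mem_map.2 ⟨x, hx, rfl⟩
    exact (List.finite_toSet _).subset h
  refine ((finite_exw_forest (Φ := Φ) F).prod (h1.union (finite_exw_forest (Φ := Φ) F))).subset ?_
  rintro z ⟨h2, h3, -⟩
  exact ⟨h2, h3⟩

/-- **Exhaust against leg, in the forest.** -/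
theorem Gen.exh (hΦ : IsPotential Φ) {F : List TG} {t : ℝ} (h : Gen Φ L F t) :
    ∃ K, 1 ≤ K ∧ ∀ᶠ ε in 𝓝[>] (0 : ℝ), ∀ T ∈ trees Φ ε F, ∀ T' ∈ trees Φ ε F, ∀ (D : ℝ) (a b : CTree)
      (d : ℝ), Oc Φ ε D T (node a b) d → ∀ (x : CTree) (s : ℝ), s ≤ t →
        (node a b).leaves ⊆ x.leaves → ext Φ ε (node a b) ≤ s → hit Φ ε T' x s →
        ∃ z ∈ LX Φ F t, ln Φ ε (node b a) = lat ε z.1 ∧
          ‖(KU.free s (lat ε z.2)).1 - (KU.free s (ln Φ ε x)).1‖ ≤ K * ε := by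
  have key : ∀ G ∈ F, ∀ G' ∈ F, ∃ K, 1 ≤ K ∧ ∀ᶠ ε in 𝓝[>] (0 : ℝ), ∀ (D : ℝ) (a b : CTree)
      (d : ℝ), Oc Φ ε D (G.tree Φ ε) (node a b) d → ∀ (x : CTree) (s : ℝ), s ≤ t →
        (node a b).leaves ⊆ x.leaves → ext Φ ε (node a b) ≤ s → hit Φ ε (G'.tree Φ ε) x s →
        ∃ z ∈ LX Φ F t, ln Φ ε (node b a) = lat ε z.1 ∧
          ‖(KU.free s (lat ε z.2)).1 - (KU.free s (ln Φ ε x)).1‖ ≤ K * ε := by
    intro G hG G' hG'
    have g := h.one G hG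
    have g' := h.one G' hG'
    by_cases hne : G = G'
    · subst hne
      obtain ⟨K, hK, h1⟩ := exh_self hΦ G.τ G.ℓ G.p g.good g.tord g.self t
      refine ⟨K, hK, ?_⟩
      filter_upwards [h1] with ε h1 D a b d hS x s _ hsub _ hh
      obtain ⟨e, he, y, hy, h2, h3, h4⟩ := h1 D a b d hS x s hsub hh
      exact ⟨(e.1, y.1), ⟨⟨G, hG, e, he, rfl⟩,
        Or.inl ⟨y, List.mem_flatMap.2 ⟨G, hG, hy⟩, rfl⟩, h2⟩, h3, h4⟩
    · have hp := h.pair hG hG' hne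
      obtain ⟨K₁, hK₁, h1⟩ := oc_exh hΦ G.τ G.ℓ G.p g.good
      obtain ⟨K₂, hK₂, h2⟩ := hit_near hΦ G'.τ G'.ℓ G'.p g'.good t 0
      refine ⟨K₂, hK₂, ?_⟩
      have h3 : ∀ᶠ ε in 𝓝[>] (0 : ℝ), ∀ e ∈ exw Φ G.τ G.ℓ G.p, e.2 - K₁ * ε ≤ t → e.2 ≤ t := by
        refine (Filter.eventually_all_finite (List.finite_toSet _)).2 fun e _ => ?_
        by_cases het : e.2 ≤ t
        · exact Eventually.of_forall fun ε _ => het
        · filter_upwards [ev_mul_lt K₁ (sub_pos.2 (not_le.1 het))] with ε h4 h5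
          linarith
      filter_upwards [h3, g'.ev_ok hΦ, ev_pos] with ε h3 hok hε D a b d hS x s hst _ hext hh
      obtain ⟨e, he, h4, h5⟩ := h1 ε hε D a b d hS
      obtain ⟨y, hy, hn⟩ := h2 ε hε hok x s (by linarith) hh
      have het : e.2 ≤ t := h3 e he (by linarith)
      exact ⟨(e.1, y.1), ⟨⟨G, hG, e, he, rfl⟩,
        Or.inl ⟨y, List.mem_flatMap.2 ⟨G', hG', hy⟩, rfl⟩, hp.1.el e he het y hy⟩, h4,
        hn.dist hK₂ hε⟩
  -- a common constant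
  have key2 : ∀ G' ∈ F, ∃ K, 1 ≤ K ∧ ∀ᶠ ε in 𝓝[>] (0 : ℝ), ∀ G ∈ F, ∀ (D : ℝ) (a b : CTree)
      (d : ℝ), Oc Φ ε D (G.tree Φ ε) (node a b) d → ∀ (x : CTree) (s : ℝ), s ≤ t →
        (node a b).leaves ⊆ x.leaves → ext Φ ε (node a b) ≤ s → hit Φ ε (G'.tree Φ ε) x s →
        ∃ z ∈ LX Φ F t, ln Φ ε (node b a) = lat ε z.1 ∧
          ‖(KU.free s (lat ε z.2)).1 - (KU.free s (ln Φ ε x)).1‖ ≤ K * ε := by
    intro G' hG'
    choose! K hK hev using fun G hG => key G hG G' hG'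
    set S : Finset TG := (List.finite_toSet F).toFinset with hS
    have hSm : ∀ G, G ∈ S ↔ G ∈ F := fun G => by rw [hS]; exact Set.Finite.mem_toFinset _
    refine ⟨1 + ∑ G ∈ S, |K G|, by
      have := Finset.sum_nonneg fun G (_ : G ∈ S) => abs_nonneg (K G); linarith, ?_⟩
    have h1 : ∀ᶠ ε in 𝓝[>] (0 : ℝ), ∀ G ∈ F, ∀ (D : ℝ) (a b : CTree)
      (d : ℝ), Oc Φ ε D (G.tree Φ ε) (node a b) d → ∀ (x : CTree) (s : ℝ), s ≤ t →
        (node a b).leaves ⊆ x.leaves → ext Φ ε (node a b) ≤ s → hit Φ ε (G'.tree Φ ε) x s →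
        ∃ z ∈ LX Φ F t, ln Φ ε (node b a) = lat ε z.1 ∧
          ‖(KU.free s (lat ε z.2)).1 - (KU.free s (ln Φ ε x)).1‖ ≤ K G * ε :=
      (Filter.eventually_all_finite (List.finite_toSet F)).2 fun G hG => hev G hG
    filter_upwards [h1, ev_pos] with ε h1 hε G hG D a b d hS' x s h2 h3 h4 h5
    obtain ⟨z, hz, h6, h7⟩ := h1 G hG D a b d hS' x s h2 h3 h4 h5
    refine ⟨z, hz, h6, h7.trans (mul_le_mul_of_nonneg_right ?_ hε.le)⟩
    have h8 := Finset.single_le_sum (f := fun G => |K G|) (fun G _ => abs_nonneg (K G))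
      ((hSm G).2 hG)
    have h9 := le_abs_self (K G)
    linarith
  choose! K hK hev using key2
  set S : Finset TG := (List.finite_toSet F).toFinset with hS
  have hSm : ∀ G, G ∈ S ↔ G ∈ F := fun G => by rw [hS]; exact Set.Finite.mem_toFinset _
  refine ⟨1 + ∑ G ∈ S, |K G|, by
    have := Finset.sum_nonneg fun G (_ : G ∈ S) => abs_nonneg (K G); linarith, ?_⟩
  have h1 := (Filter.eventually_all_finite (List.finite_toSet F)).2 fun G' hG' => hev G' hG'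
  filter_upwards [h1, ev_pos] with ε h1 hε T hT T' hT' D a b d hS' x s h2 h3 h4 h5
  obtain ⟨G, hG, rfl⟩ := mem_trees.1 hT
  obtain ⟨G', hG', rfl⟩ := mem_trees.1 hT'
  obtain ⟨z, hz, h6, h7⟩ := h1 G' hG' G hG D a b d hS' x s h2 h3 h4 h5
  refine ⟨z, hz, h6, h7.trans (mul_le_mul_of_nonneg_right ?_ hε.le)⟩
  have h8 := Finset.single_le_sum (f := fun G => |K G|) (fun G _ => abs_nonneg (K G))
    ((hSm G').2 hG')
  have h9 := le_abs_self (K G')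
  linarith

/-- **Exhaust against exhaust, in the forest.** -/
theorem Gen.exh_exh (hΦ : IsPotential Φ) {F : List TG} {t : ℝ} (h : Gen Φ L F t) :
    ∀ᶠ ε in 𝓝[>] (0 : ℝ), ∀ T ∈ trees Φ ε F, ∀ T' ∈ trees Φ ε F, ∀ (D D' : ℝ)
      (a b a' b' : CTree) (d d' : ℝ), Oc Φ ε D T (node a b) d → Oc Φ ε D' T' (node a' b') d' →
        Disjoint (node a b).leaves (node a' b').leaves → ext Φ ε (node a b) ≤ t →
        ext Φ ε (node a' b') ≤ t →
        ∃ z ∈ LX Φ F t, ln Φ ε (node b a) = lat ε z.1 ∧ ln Φ ε (node b' a') = lat ε z.2 := by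
  have key : ∀ G ∈ F, ∀ G' ∈ F, ∀ᶠ ε in 𝓝[>] (0 : ℝ), ∀ (D D' : ℝ)
      (a b a' b' : CTree) (d d' : ℝ), Oc Φ ε D (G.tree Φ ε) (node a b) d →
        Oc Φ ε D' (G'.tree Φ ε) (node a' b') d' →
        Disjoint (node a b).leaves (node a' b').leaves → ext Φ ε (node a b) ≤ t →
        ext Φ ε (node a' b') ≤ t →
        ∃ z ∈ LX Φ F t, ln Φ ε (node b a) = lat ε z.1 ∧ ln Φ ε (node b' a') = lat ε z.2 := by
    intro G hG G' hG'
    have g := h.one G hG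
    have g' := h.one G' hG'
    by_cases hne : G = G'
    · subst hne
      filter_upwards [ev_pos] with ε hε D D' a b a' b' d d' hS hS' hd _ _
      obtain ⟨e, he, e', he', h1, h2, h3⟩ := exh_exh_self hΦ G.τ G.ℓ G.p g.good g.self ε hε D D' a b
        a' b' d d' hS hS' hd
      exact ⟨(e.1, e'.1), ⟨⟨G, hG, e, he, rfl⟩, Or.inr ⟨G, hG, e', he', rfl⟩, h1⟩, h2, h3⟩
    · have hp := h.pair hG hG' hne
      obtain ⟨K₁, hK₁, h1⟩ := oc_exh hΦ G.τ G.ℓ G.p g.good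
      obtain ⟨K₂, hK₂, h2⟩ := oc_exh hΦ G'.τ G'.ℓ G'.p g'.good
      have h3 : ∀ (H : TG) (K : ℝ), ∀ᶠ ε in 𝓝[>] (0 : ℝ), ∀ e ∈ exw Φ H.τ H.ℓ H.p,
          e.2 - K * ε ≤ t → e.2 ≤ t := by
        intro H K
        refine (Filter.eventually_all_finite (List.finite_toSet _)).2 fun e _ => ?_
        by_cases het : e.2 ≤ t
        · exact Eventually.of_forall fun ε _ => het
        · filter_upwards [ev_mul_lt K (sub_pos.2 (not_le.1 het))] with ε h4 h5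
          linarith
      filter_upwards [h3 G K₁, h3 G' K₂, ev_pos] with ε h3 h3' hε D D' a b a' b' d d' hS hS' _ he1
        he2
      obtain ⟨e, he, h4, h5⟩ := h1 ε hε D a b d hS
      obtain ⟨e', he', h6, h7⟩ := h2 ε hε D' a' b' d' hS'
      exact ⟨(e.1, e'.1), ⟨⟨G, hG, e, he, rfl⟩, Or.inr ⟨G', hG', e', he', rfl⟩,
        hp.1.ee e he (h3 e he (by linarith)) e' he' (h3' e' he' (by linarith))⟩, h4, h6⟩
  have h1 := (Filter.eventually_all_finite (List.finite_toSet F)).2 fun G hG =>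
    (Filter.eventually_all_finite (List.finite_toSet F)).2 fun G' hG' => key G hG G' hG'
  filter_upwards [h1] with ε h1 T hT T' hT'
  obtain ⟨G, hG, rfl⟩ := mem_trees.1 hT
  obtain ⟨G', hG', rfl⟩ := mem_trees.1 hT'
  exact h1 G hG G' hG'

end Vale.Agent.P119.KT
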