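import Vale.Agent.P119.KU.Scat1

/-!
# P119, block KT (`helper256`): the impact frame

`fr V : E2 → E3` is a linear isometry onto `V^⊥`, measurable in `V`; the change of variables
`r = fr V b - s V` in `ℝ³`.
-/

open MeasureTheory Filter Topology Set
open scoped ENNReal NNReal RealInnerProductSpace

noncomputable section

namespace Vale.Agent.P119.KT

/-- The plane of impact parameters. -/
abbrev E2 := EuclideanSpace ℝ (Fin 2)

/-- The third basis vector. -/
def e3 : E3 := EuclideanSpace.single 2 1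

/-- The inclusion of the plane. -/
def inc (b : E2) : E3 := !₂[b 0, b 1, 0]

/-- The reflection which exchanges `u` and `e3` (for `‖u‖ = 1`). -/
def hmap (u x : E3) : E3 := x - (2 * (inner ℝ (u - e3) x / ‖u - e3‖ ^ 2)) • (u - e3)

theorem norm_e3 : ‖e3‖ = 1 := by simp [e3]

theorem hmap_eq (u x : E3) : hmap u x = ((ℝ ∙ (u - e3))ᗮ).reflection x := by
  rw [Submodule.reflection_orthogonal_apply, Submodule.reflection_apply]
  unfold hmap
  rw [Submodule.starProjection_singleton]
  simp only [RCLike.ofReal_real_eq_id, id_eq]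
  rw [neg_sub, two_smul, ← add_smul, two_mul]

theorem hmap_e3 {u : E3} (hu : ‖u‖ = 1) : hmap u e3 = u := by
  unfold hmap
  by_cases h : u = e3
  · rw [h]; simp
  · have h1 : ‖u - e3‖ ^ 2 = 2 - 2 * inner ℝ u e3 := by
      rw [norm_sub_sq_real, hu, norm_e3]; ring
    have h2 : (inner ℝ (u - e3) e3 : ℝ) = inner ℝ u e3 - 1 := by
      rw [inner_sub_left, real_inner_self_eq_norm_sq, norm_e3]; norm_num
    have h3 : ‖u - e3‖ ^ 2 ≠ 0 := by
      have : ‖u - e3‖ ≠ 0 := norm_ne_zero_iff.2 (sub_ne_zero.2 h)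
      positivity
    have h4 : 2 * (inner ℝ (u - e3) e3 / ‖u - e3‖ ^ 2) = -1 := by
      rw [h2, h1]
      rw [h1] at h3
      rw [mul_div_assoc', div_eq_iff h3]
      ring
    rw [h4]
    module

theorem inner_hmap (u x y : E3) : (inner ℝ (hmap u x) (hmap u y) : ℝ) = inner ℝ x y := by
  rw [hmap_eq, hmap_eq, LinearIsometryEquiv.inner_map_map]

theorem norm_hmap (u x : E3) : ‖hmap u x‖ = ‖x‖ := by
  rw [hmap_eq, LinearIsometryEquiv.norm_map]

theorem hmap_add (u x y : E3) : hmap u (x + y) = hmap u x + hmap u y := by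
  simp only [hmap_eq, map_add]

theorem hmap_smul (u : E3) (c : ℝ) (x : E3) : hmap u (c • x) = c • hmap u x := by
  simp only [hmap_eq, map_smul]

theorem measurePreserving_hmap (u : E3) : MeasurePreserving (hmap u) volume volume := by
  have h : hmap u = ((ℝ ∙ (u - e3))ᗮ).reflection := funext fun x => hmap_eq u x
  rw [h]
  exact ((ℝ ∙ (u - e3))ᗮ).reflection.measurePreserving

theorem norm_inc (b : E2) : ‖inc b‖ = ‖b‖ := by
  simp only [inc, EuclideanSpace.norm_eq, Fin.sum_univ_three, Fin.sum_univ_two]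
  simp

theorem inner_inc_e3 (b : E2) : (inner ℝ (inc b) e3 : ℝ) = 0 := by
  simp [inc, e3, EuclideanSpace.inner_single_right]

theorem inc_add (b c : E2) : inc (b + c) = inc b + inc c := by
  ext i; fin_cases i <;> simp [inc]

theorem inc_smul (a : ℝ) (c : E2) : inc (a • c) = a • inc c := by
  ext i; fin_cases i <;> simp [inc]

/-- The frame of the plane orthogonal to `V`. -/
def fr (V : E3) (b : E2) : E3 := hmap (‖V‖⁻¹ • V) (inc b)

theorem norm_fr (V : E3) (b : E2) : ‖fr V b‖ = ‖b‖ := by rw [fr, norm_hmap, norm_inc]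

theorem norm_normalize {V : E3} (hV : V ≠ 0) : ‖(‖V‖⁻¹ • V : E3)‖ = 1 := by
  rw [norm_smul, norm_inv, norm_norm, inv_mul_cancel₀ (norm_ne_zero_iff.2 hV)]

theorem inner_fr {V : E3} (b : E2) : (inner ℝ (fr V b) V : ℝ) = 0 := by
  by_cases hV : V = 0
  · rw [hV, inner_zero_right]
  have h1 : ‖V‖ • hmap (‖V‖⁻¹ • V) e3 = V := by
    rw [hmap_e3 (norm_normalize hV), smul_smul, mul_inv_cancel₀ (norm_ne_zero_iff.2 hV), one_smul]
  have h2 : (inner ℝ (fr V b) (‖V‖ • hmap (‖V‖⁻¹ • V) e3) : ℝ) = 0 := by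
    rw [inner_smul_right, fr, inner_hmap, inner_inc_e3, mul_zero]
  rwa [h1] at h2

theorem fr_add (V : E3) (b c : E2) : fr V (b + c) = fr V b + fr V c := by
  unfold fr; rw [inc_add, hmap_add]

theorem fr_smul (V : E3) (a : ℝ) (c : E2) : fr V (a • c) = a • fr V c := by
  unfold fr; rw [inc_smul, hmap_smul]

theorem continuous_inc : Continuous inc := by
  unfold inc
  refine (PiLp.continuous_toLp 2 _).comp (continuous_pi fun i => ?_)
  have h : ∀ j : Fin 2, Continuous fun b : E2 => b j := fun j =>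
    (continuous_apply j).comp (PiLp.continuous_ofLp 2 _)
  fin_cases i
  · exact h 0
  · exact h 1
  · exact continuous_const

theorem measurable_hmap : Measurable (fun p : E3 × E3 => hmap p.1 p.2) := by
  unfold hmap
  fun_prop

theorem measurable_fr : Measurable (fun p : E3 × E2 => fr p.1 p.2) := by
  have h1 : Measurable (fun p : E3 × E2 => ((‖p.1‖⁻¹ • p.1, inc p.2) : E3 × E3)) :=
    (by fun_prop : Measurable fun p : E3 × E2 => (‖p.1‖⁻¹ • p.1 : E3)).prodMk
      (continuous_inc.measurable.comp measurable_snd)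
  exact measurable_hmap.comp h1

/-- The decomposition of `ℝ³` in the third coordinate and the plane. -/
def dec : E3 ≃ᵐ ℝ × E2 :=
  ((MeasurableEquiv.toLp 2 (Fin 3 → ℝ)).symm.trans
    (MeasurableEquiv.piFinSuccAbove (fun _ : Fin 3 => ℝ) 2)).trans
    ((MeasurableEquiv.refl ℝ).prodCongr (MeasurableEquiv.toLp 2 (Fin 2 → ℝ)))

theorem dec_preserving : MeasurePreserving dec (volume : Measure E3) volume := by
  have h1 := EuclideanSpace.volume_preserving_symm_measurableEquiv_toLp (Fin 3)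
  have h2 := volume_preserving_piFinSuccAbove (fun _ : Fin 3 => ℝ) 2
  have h3 : MeasurePreserving ((MeasurableEquiv.refl ℝ).prodCongr (MeasurableEquiv.toLp 2 (Fin 2 → ℝ)))
      (volume : Measure (ℝ × (Fin 2 → ℝ))) volume := by
    exact (MeasurePreserving.id (volume : Measure ℝ)).prod
      (EuclideanSpace.volume_preserving_symm_measurableEquiv_toLp (Fin 2)).symm
  exact h3.comp (h2.comp h1)

theorem dec_fst (x : E3) : (dec x).1 = x 2 := rfl

theorem dec_snd (x : E3) (j : Fin 2) : (dec x).2 j = x ((2 : Fin 3).succAbove j) := rfl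

theorem dec_symm_apply (c : ℝ) (b : E2) : dec.symm (c, b) = inc b + c • e3 := by
  apply dec.injective
  rw [MeasurableEquiv.apply_symm_apply]
  ext1
  · rw [dec_fst]
    simp [inc, e3]
  · ext j
    rw [dec_snd]
    fin_cases j
    · simp [inc, e3, Fin.succAbove]
    · simp [inc, e3, Fin.succAbove]

/-- The change of variables `r = fr V b - s V`. -/
theorem lintegral_frame {V : E3} (hV : V ≠ 0) {g : E3 → ℝ≥0∞} (hg : Measurable g) :
    ∫⁻ r, g r = ‖V‖ₑ * ∫⁻ s : ℝ, ∫⁻ b : E2, g (fr V b - s • V) := by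
  set u : E3 := ‖V‖⁻¹ • V with hu
  have hV0 : ‖V‖ ≠ 0 := norm_ne_zero_iff.2 hV
  have hVu : V = ‖V‖ • u := by rw [hu, smul_smul, mul_inv_cancel₀ hV0, one_smul]
  have h1 : ∫⁻ r, g r = ∫⁻ x, g (hmap u x) := ((measurePreserving_hmap u).lintegral_comp hg).symm
  have hm : Measurable (fun x => g (hmap u x)) := hg.comp (measurePreserving_hmap u).measurable
  have h2 : ∫⁻ x, g (hmap u x) = ∫⁻ q : ℝ × E2, g (hmap u (dec.symm q)) :=
    ((dec_preserving.symm dec).lintegral_comp hm).symm
  have hm2 : Measurable (fun q : ℝ × E2 => g (hmap u (dec.symm q))) := hm.comp dec.symm.measurable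
  have h3 : ∀ (c : ℝ) (b : E2), hmap u (dec.symm (c, b)) = fr V b + c • u := by
    intro c b
    rw [dec_symm_apply, hmap_add, hmap_smul, hmap_e3 (norm_normalize hV), fr]
  rw [h1, h2, Measure.volume_eq_prod, lintegral_prod _ hm2.aemeasurable]
  simp only [h3]
  -- the scaling `c = -s ‖V‖`
  set φ : ℝ → ℝ≥0∞ := fun c => ∫⁻ b : E2, g (fr V b + c • u) with hφ
  have hφm : Measurable φ := by
    have : Measurable (fun q : ℝ × E2 => g (fr V q.2 + q.1 • u)) := by
      have e : (fun q : ℝ × E2 => g (fr V q.2 + q.1 • u)) =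
          fun q : ℝ × E2 => g (hmap u (dec.symm q)) := by
        funext q; rw [← h3]
      rw [e]; exact hm2
    exact this.lintegral_prod_right'
  have h4 : ∀ s : ℝ, ∫⁻ b : E2, g (fr V b - s • V) = φ ((-‖V‖) * s) := by
    intro s
    simp only [hφ]
    congr 1; funext b
    congr 1
    nth_rewrite 2 [hVu]
    module
  simp only [h4]
  have h5 : ∫⁻ s : ℝ, φ ((-‖V‖) * s) = ENNReal.ofReal |(-‖V‖)⁻¹| * ∫⁻ c, φ c := by
    have h6 := Real.map_volume_mul_left (a := -‖V‖) (neg_ne_zero.2 hV0)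
    have h7 : ∫⁻ s : ℝ, φ ((-‖V‖) * s) = ∫⁻ c, φ c ∂(Measure.map ((-‖V‖) * ·) volume) := by
      rw [lintegral_map hφm (by fun_prop)]
    rw [h7, h6, lintegral_smul_measure, smul_eq_mul]
  rw [h5, ← mul_assoc]
  have h8 : ‖V‖ₑ * ENNReal.ofReal |(-‖V‖)⁻¹| = 1 := by
    rw [abs_inv, abs_neg, abs_norm, ← ofReal_norm, ← ENNReal.ofReal_mul (norm_nonneg _),
      mul_inv_cancel₀ hV0, ENNReal.ofReal_one]
  rw [h8, one_mul]

end Vale.Agent.P119.KT
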