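import Vale.Agent.P119.KT.Clean

/-!
# P119, block KT (`helper256`): generic forests

* `exw`: the exhausts of a germ with the times of the nodes;
* `ApT T G G'`: two germs are apart until `T`; `PairG`, `GenG`, **`Gen Φ L F t`**;
* `Gen.sublist`, `Gen.perm`, `Gen.mono`, `Gen.ev_okF`, `Gen.ev_disjoint`, `Gen.clean`, `Gen.legs_sep`;
* `ae_genG`, `ae_pairG`: almost all parameters are generic;
* **`gen_hit`**: the forest with an attached tree is generic for almost all parameters.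
-/

open MeasureTheory Filter Topology Set
open scoped ENNReal NNReal

noncomputable section

namespace Vale.Agent.P119.KT

open KU M CTree ML
open Vale.Agent.P119.M (Shape)

variable {Φ : E3 → ℝ} {ε : ℝ} {L : ℕ}

/-! ### Exhausts with times -/

/-- The exhausts of a germ, with the times of the nodes. -/
def exw (Φ : E3 → ℝ) : (τ : Shape) → LG → PD τ → List (LG × ℝ)
  | .leaf, _, _ => []
  | .node a b, ℓ, p =>
      exw Φ a (inG1 Φ ℓ p.1) p.2.1 ++ exw Φ b (inG2 Φ ℓ p.1) p.2.2 ++ [(exG ℓ p.1, p.1.1)]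

theorem mem_exw_node {a b : Shape} {ℓ : LG} {p : PD (.node a b)} {e : LG × ℝ} :
    e ∈ exw Φ (.node a b) ℓ p ↔ e ∈ exw Φ a (inG1 Φ ℓ p.1) p.2.1 ∨
      e ∈ exw Φ b (inG2 Φ ℓ p.1) p.2.2 ∨ e = (exG ℓ p.1, p.1.1) := by
  change e ∈ exw Φ a (inG1 Φ ℓ p.1) p.2.1 ++ exw Φ b (inG2 Φ ℓ p.1) p.2.2 ++ [(exG ℓ p.1, p.1.1)] ↔ _
  rw [List.mem_append, List.mem_append, List.mem_singleton, or_assoc]

theorem mem_exl_of_exw : ∀ {τ : Shape} {ℓ : LG} {p : PD τ} {e : LG × ℝ}, e ∈ exw Φ τ ℓ p →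
    e.1 ∈ exl Φ τ ℓ p
  | .leaf, _, _, _, h => absurd h List.not_mem_nil
  | .node a b, ℓ, p, e, h => by
    rcases mem_exw_node.1 h with h | h | h
    · exact mem_exl_node.2 (Or.inl (mem_exl_of_exw h))
    · exact mem_exl_node.2 (Or.inr (Or.inl (mem_exl_of_exw h)))
    · exact mem_exl_node.2 (Or.inr (Or.inr (by rw [h])))

/-- The legs for another horizon. -/
theorem glegs_hor : ∀ (τ : Shape) (ℓ : LG) (p : PD τ) (h h' : ℝ) (x : LG × ℝ × ℝ),
    x ∈ glegs Φ τ ℓ p h → ∃ x' ∈ glegs Φ τ ℓ p h', x'.1 = x.1 ∧ x'.2.1 = x.2.1 ∧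
      (x'.2.2 = x.2.2 ∨ (x.2.2 = h ∧ x'.2.2 = h'))
  | .leaf, ℓ, p, h, h', x, hx => by
    rw [mem_glegs_leaf.1 hx]
    exact ⟨(ℓ, 0, h'), mem_glegs_leaf.2 rfl, rfl, rfl, Or.inr ⟨rfl, rfl⟩⟩
  | .node a b, ℓ, p, h, h', x, hx => by
    rcases mem_glegs_node.1 hx with hx | hx | hx
    · exact ⟨x, mem_glegs_node.2 (Or.inl hx), rfl, rfl, Or.inl rfl⟩
    · exact ⟨x, mem_glegs_node.2 (Or.inr (Or.inl hx)), rfl, rfl, Or.inl rfl⟩
    · rw [hx]
      exact ⟨(ℓ, p.1.1, h'), mem_glegs_node.2 (Or.inr (Or.inr rfl)), rfl, rfl, Or.inr ⟨rfl, rfl⟩⟩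

/-! ### Pairs of germs -/

/-- Two germs are apart until the time `T`. -/
structure ApT (Φ : E3 → ℝ) (T : ℝ) (G G' : TG) : Prop where
  ll : ∀ x ∈ G.legs Φ T, ∀ y ∈ G'.legs Φ T, nm T x.1.1 y.1.1
  le : ∀ x ∈ G.legs Φ T, ∀ e ∈ exw Φ G'.τ G'.ℓ G'.p, e.2 ≤ T → nev x.1.1 e.1.1
  el : ∀ e ∈ exw Φ G.τ G.ℓ G.p, e.2 ≤ T → ∀ y ∈ G'.legs Φ T, nev e.1.1 y.1.1
  ee : ∀ e ∈ exw Φ G.τ G.ℓ G.p, e.2 ≤ T → ∀ e' ∈ exw Φ G'.τ G'.ℓ G'.p, e'.2 ≤ T →
    nev e.1.1 e'.1.1

theorem ApT.symm {T : ℝ} {G G' : TG} (h : ApT Φ T G G') : ApT Φ T G' G :=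
  ⟨fun x hx y hy => nm_comm.1 (h.ll y hy x hx),
    fun x hx e he ht => nev_comm.1 (h.el e he ht x hx),
    fun e he ht x hx => nev_comm.1 (h.le x hx e he ht),
    fun e he ht e' he' ht' => nev_comm.1 (h.ee e' he' ht' e he ht)⟩

theorem ApT.mono {T T' : ℝ} {G G' : TG} (h : ApT Φ T G G') (hT : T' ≤ T) : ApT Φ T' G G' := by
  have key : ∀ {H : TG} {x : LG × ℝ × ℝ}, x ∈ H.legs Φ T' → ∃ x' ∈ H.legs Φ T, x'.1 = x.1 := by
    intro H x hx
    obtain ⟨x', hx', h1, -⟩ := glegs_hor H.τ H.ℓ H.p T' T x hx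
    exact ⟨x', hx', h1⟩
  refine ⟨fun x hx y hy => ?_, fun x hx e he ht => ?_, fun e he ht y hy => ?_,
    fun e he ht e' he' ht' => h.ee e he (ht.trans hT) e' he' (ht'.trans hT)⟩
  · obtain ⟨x', hx', h1⟩ := key hx
    obtain ⟨y', hy', h2⟩ := key hy
    rw [← h1, ← h2]
    exact (h.ll x' hx' y' hy').mono hT
  · obtain ⟨x', hx', h1⟩ := key hx
    rw [← h1]
    exact h.le x' hx' e he (ht.trans hT)
  · obtain ⟨y', hy', h1⟩ := key hy
    rw [← h1]
    exact h.el e he (ht.trans hT) y' hy'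

theorem ApT.of_apartG {T : ℝ} {G G' : TG} (h : ApartG Φ T G G') : ApT Φ T G G' :=
  ⟨fun _ hx _ hy => h.nm hx hy, fun _ hx _ he _ => h.nev hx (mem_exl_of_exw he),
    fun _ he _ _ hy => nev_comm.1 (h.symm.nev hy (mem_exl_of_exw he)),
    fun _ he _ _ he' _ => h.nev_ex (mem_exl_of_exw he) (mem_exl_of_exw he')⟩

/-- The condition on two germs of a generic forest. -/
def PairG (Φ : E3 → ℝ) (t : ℝ) (G G' : TG) : Prop :=
  ApT Φ t G G' ∧ ∀ x ∈ G.legs Φ t, ∀ y ∈ G'.legs Φ t, TouchH t (fun _ => t) x y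

theorem PairG.symm {t : ℝ} {G G' : TG} (h : PairG Φ t G G') : PairG Φ t G' G :=
  ⟨h.1.symm, fun x hx y hy => (h.2 y hy x hx).symm⟩

theorem PairG.of_lt {T t : ℝ} {G G' : TG} (h : ApT Φ T G G') (ht : t < T) : PairG Φ t G G' := by
  refine ⟨h.mono ht.le, fun x hx y hy _ _ _ _ hm => ?_⟩
  obtain ⟨x', hx', h1, -⟩ := glegs_hor G.τ G.ℓ G.p t T x hx
  obtain ⟨y', hy', h2, -⟩ := glegs_hor G'.τ G'.ℓ G'.p t T y hy
  rw [← h1, ← h2] at hm
  exact absurd hm (h.ll x' hx' y' hy' t ht)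

theorem PairG.mono {t t' : ℝ} {G G' : TG} (h : PairG Φ t G G') (ht : t' ≤ t) :
    PairG Φ t' G G' := by
  rcases ht.lt_or_eq with h1 | rfl
  · exact PairG.of_lt h.1 h1
  · exact h

/-! ### One germ -/

/-- The velocities of the exhausts are different from `v`. -/
def Wne (v : E3) : (τ : Shape) → PD τ → Prop
  | .leaf, _ => True
  | .node a b, p => p.1.2.1 ≠ v ∧ Wne v a p.2.1 ∧ Wne v b p.2.2

/-- The exhausts of every subtree have other velocities than its root. -/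
def WNe (Φ : E3 → ℝ) : (τ : Shape) → E3 → PD τ → Prop
  | .leaf, _, _ => True
  | .node a b, v, p => Wne v (.node a b) p ∧ WNe Φ a (inVel Φ v p.1).1 p.2.1 ∧
      WNe Φ b (inVel Φ v p.1).2 p.2.2

theorem Wne.exw {v : E3} : ∀ {τ : Shape} {ℓ : LG} {p : PD τ}, Wne v τ p → ∀ e ∈ exw Φ τ ℓ p,
    e.1.1.2 ≠ v
  | .leaf, _, _, _, _, he => absurd he List.not_mem_nil
  | .node a b, ℓ, p, h, e, he => by
    rcases mem_exw_node.1 he with he | he | he
    · exact h.2.1.exw e he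
    · exact h.2.2.exw e he
    · rw [he]
      change (exG ℓ p.1).1.2 ≠ v
      rw [exG_snd]
      exact h.1

theorem measurableSet_Wne : ∀ τ : Shape, MeasurableSet {x : E3 × PD τ | Wne x.1 τ x.2}
  | .leaf => MeasurableSet.univ
  | .node a b => by
    have h1 : MeasurableSet {x : E3 × ND × PD a × PD b | x.2.1.2.1 = x.1} :=
      measurableSet_eq_fun (by fun_prop) (by fun_prop)
    have h2 : Measurable fun x : E3 × ND × PD a × PD b => (x.1, x.2.2.1) := by fun_prop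
    have h3 : Measurable fun x : E3 × ND × PD a × PD b => (x.1, x.2.2.2) := by fun_prop
    exact h1.compl.inter ((h2 (measurableSet_Wne a)).inter (h3 (measurableSet_Wne b)))

theorem measurableSet_WNe (hΦ : IsPotential Φ) : ∀ τ : Shape,
    MeasurableSet {x : E3 × PD τ | WNe Φ τ x.1 x.2}
  | .leaf => MeasurableSet.univ
  | .node a b => by
    have h0 : Measurable fun x : E3 × ND × PD a × PD b => inVel Φ x.1 x.2.1 :=
      (measurable_inVel hΦ).comp
        (by fun_prop : Measurable fun x : E3 × ND × PD a × PD b => (x.1, x.2.1))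
    have h2 : Measurable fun x : E3 × ND × PD a × PD b => ((inVel Φ x.1 x.2.1).1, x.2.2.1) :=
      h0.fst.prodMk (by fun_prop)
    have h3 : Measurable fun x : E3 × ND × PD a × PD b => ((inVel Φ x.1 x.2.1).2, x.2.2.2) :=
      h0.snd.prodMk (by fun_prop)
    exact (measurableSet_Wne (.node a b)).inter ((h2 (measurableSet_WNe hΦ a)).inter
      (h3 (measurableSet_WNe hΦ b)))

theorem ae_vel_ne (v : E3) : ∀ᵐ q ∂nvol, q.2.1 ≠ v := by
  unfold nvol
  refine ae_restrict_of_ae ?_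
  have h0 : ∀ᵐ w : E3, w ≠ v := by
    filter_upwards [ae_ne v] with w hw h'
    exact hw (by rw [h', sub_self])
  have h1 : ∀ᵐ x : E3 × E2, x.1 ≠ v :=
    (Measure.quasiMeasurePreserving_fst (μ := (volume : Measure E3))
      (ν := (volume : Measure E2))).ae h0
  exact (Measure.quasiMeasurePreserving_snd (μ := (volume : Measure ℝ))
      (ν := (volume : Measure (E3 × E2)))).ae h1

theorem ae_Wne (v : E3) : ∀ τ : Shape, ∀ᵐ p ∂pvol τ, Wne v τ p
  | .leaf => Eventually.of_forall fun _ => trivial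
  | .node a b => by
    have h1 : ∀ᵐ p : ND × (PD a × PD b) ∂(nvol.prod ((pvol a).prod (pvol b))), p.1.2.1 ≠ v :=
      Measure.quasiMeasurePreserving_fst.ae (ae_vel_ne v)
    have h3 : ∀ᵐ y : PD a × PD b ∂((pvol a).prod (pvol b)), Wne v a y.1 ∧ Wne v b y.2 := by
      filter_upwards [Measure.quasiMeasurePreserving_fst.ae (ae_Wne v a),
        Measure.quasiMeasurePreserving_snd.ae (ae_Wne v b)] with y ha hb
      exact ⟨ha, hb⟩
    have h4 : ∀ᵐ p : ND × (PD a × PD b) ∂(nvol.prod ((pvol a).prod (pvol b))),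
        Wne v a p.2.1 ∧ Wne v b p.2.2 := Measure.quasiMeasurePreserving_snd.ae h3
    have h5 : ∀ᵐ p : ND × (PD a × PD b) ∂(nvol.prod ((pvol a).prod (pvol b))),
        Wne v (.node a b) p := by
      filter_upwards [h1, h4] with p h1 h4
      exact ⟨h1, h4⟩
    exact h5

theorem ae_WNe (hΦ : IsPotential Φ) : ∀ (τ : Shape) (v : E3), ∀ᵐ p ∂pvol τ, WNe Φ τ v p
  | .leaf, _ => Eventually.of_forall fun _ => trivial
  | .node a b, v => by
    have hset : MeasurableSet {p : ND × PD a × PD b | WNe Φ (.node a b) v p} :=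
      (by fun_prop : Measurable fun p : ND × PD a × PD b => (v, p))
        (measurableSet_WNe hΦ (.node a b))
    refine (Measure.ae_prod_iff_ae_ae (μ := nvol) (ν := (pvol a).prod (pvol b)) hset).2 ?_
    filter_upwards [ae_vel_ne v] with q hq
    have h1 := Measure.quasiMeasurePreserving_fst (μ := pvol a) (ν := pvol b)
    have h2 := Measure.quasiMeasurePreserving_snd (μ := pvol a) (ν := pvol b)
    filter_upwards [h1.ae (ae_Wne v a), h2.ae (ae_Wne v b),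
      h1.ae (ae_WNe hΦ a (inVel Φ v q).1), h2.ae (ae_WNe hΦ b (inVel Φ v q).2)] with p a1 a2 a3 a4
    exact ⟨⟨hq, a1, a2⟩, a3, a4⟩

/-- The condition on a germ of a generic forest. -/
structure GenG (Φ : E3 → ℝ) (L : ℕ) (G : TG) : Prop where
  good : good Φ G.τ G.ℓ.1.2 G.p
  tord : Tord G.τ G.p
  self : Self Φ G.τ G.ℓ.1 G.p
  wne : WNe Φ G.τ G.ℓ.1.2 G.p
  depth : G.τ.depth ≤ L

/-- **Generic forests.** -/
structure Gen (Φ : E3 → ℝ) (L : ℕ) (F : List TG) (t : ℝ) : Prop where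
  pos : 0 < t
  one : ∀ G ∈ F, GenG Φ L G
  two : F.Pairwise (PairG Φ t)

theorem Gen.sublist {F F' : List TG} {t : ℝ} (h : Gen Φ L F t) (hs : F'.Sublist F) :
    Gen Φ L F' t := ⟨h.pos, fun G hG => h.one G (hs.subset hG), h.two.sublist hs⟩

theorem Gen.perm {F F' : List TG} {t : ℝ} (h : Gen Φ L F t) (hs : F'.Perm F) : Gen Φ L F' t :=
  ⟨h.pos, fun G hG => h.one G (hs.subset hG),
    (hs.pairwise_iff fun h => PairG.symm h).2 h.two⟩

theorem Gen.mono {F : List TG} {t t' : ℝ} (h : Gen Φ L F t) (h0 : 0 < t') (ht : t' ≤ t) :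
    Gen Φ L F t' := ⟨h0, h.one, h.two.imp fun h => h.mono ht⟩

theorem Gen.pair {F : List TG} {t : ℝ} (h : Gen Φ L F t) {G G' : TG} (hG : G ∈ F) (hG' : G' ∈ F)
    (hne : G ≠ G') : PairG Φ t G G' := by
  have hsymm : Std.Symm (PairG Φ t) := ⟨fun _ _ h => h.symm⟩
  exact h.two.forall hG hG' hne

/-! ### Consequences at small `ε` -/

theorem GenG.ev_ok (hΦ : IsPotential Φ) {G : TG} (h : GenG Φ L G) :
    ∀ᶠ ε in 𝓝[>] (0 : ℝ), ok Φ ε (G.tree Φ ε) :=
  KT.ev_ok hΦ G.τ G.ℓ G.p h.good h.tord h.self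

theorem mem_trees {F : List TG} {T : CTree} : T ∈ trees Φ ε F ↔ ∃ G ∈ F, G.tree Φ ε = T :=
  List.mem_map

/-- The trees of a generic forest are admissible for small `ε`. -/
theorem Gen.ev_okF (hΦ : IsPotential Φ) {F : List TG} {t : ℝ} (h : Gen Φ L F t) :
    ∀ᶠ ε in 𝓝[>] (0 : ℝ), OkF Φ ε L (trees Φ ε F) := by
  have h1 : ∀ᶠ ε in 𝓝[>] (0 : ℝ), ∀ G ∈ F, ok Φ ε (G.tree Φ ε) :=
    (Filter.eventually_all_finite (List.finite_toSet F)).2 fun G hG => (h.one G hG).ev_ok hΦ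
  filter_upwards [h1] with ε h2 T hT
  obtain ⟨G, hG, rfl⟩ := mem_trees.1 hT
  exact ⟨h2 G hG, by rw [TG.depth_tree]; exact (h.one G hG).depth⟩

/-- The trees of a generic forest have different particles for small `ε`. -/
theorem Gen.ev_disjoint {F : List TG} {t : ℝ} (h : Gen Φ L F t) :
    ∀ᶠ ε in 𝓝[>] (0 : ℝ), ∀ G ∈ F, ∀ G' ∈ F, G ≠ G' →
      Disjoint (G.tree Φ ε).leaves (G'.tree Φ ε).leaves := by
  refine (Filter.eventually_all_finite (List.finite_toSet F)).2 fun G hG => ?_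
  refine (Filter.eventually_all_finite (List.finite_toSet F)).2 fun G' hG' => ?_
  by_cases hne : G = G'
  · exact Eventually.of_forall fun ε h => absurd hne h
  · have h1 := (h.pair hG hG' hne).1.ll
    filter_upwards [KT.ev_disjoint (h := t) fun x hx y hy => h1 x hx y hy 0 h.pos] with ε h2 _
    exact h2

theorem Gen.ev_pairwise_disjoint {F : List TG} {t : ℝ} (h : Gen Φ L F t) :
    ∀ᶠ ε in 𝓝[>] (0 : ℝ), (trees Φ ε F).Pairwise fun T T' => Disjoint T.leaves T'.leaves := by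
  have key : ∀ F : List TG, F.Pairwise (PairG Φ t) → ∀ᶠ ε in 𝓝[>] (0 : ℝ),
      (trees Φ ε F).Pairwise fun T T' => Disjoint T.leaves T'.leaves := by
    intro F hF
    induction F with
    | nil => exact Eventually.of_forall fun ε => List.Pairwise.nil
    | cons G F ih =>
      rw [List.pairwise_cons] at hF
      have h1 : ∀ᶠ ε in 𝓝[>] (0 : ℝ), ∀ G' ∈ F,
          Disjoint (G.tree Φ ε).leaves (G'.tree Φ ε).leaves :=
        (Filter.eventually_all_finite (List.finite_toSet F)).2 fun G' hG' =>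
          KT.ev_disjoint (h := t) fun x hx y hy => (hF.1 G' hG').1.ll x hx y hy 0 h.pos
      filter_upwards [h1, ih hF.2] with ε h1 h2
      rw [trees_cons, List.pairwise_cons]
      refine ⟨fun T hT => ?_, h2⟩
      obtain ⟨G', hG', rfl⟩ := mem_trees.1 hT
      exact h1 G' hG'
  exact key F h.two

/-- **A generic forest is not hit by its own subtrees before `t`, for small `ε`.** -/
theorem Gen.clean (hΦ : IsPotential Φ) {F : List TG} {t : ℝ} (h : Gen Φ L F t) :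
    ∀ᶠ ε in 𝓝[>] (0 : ℝ), ∀ T ∈ trees Φ ε F, ∀ T' ∈ trees Φ ε F, ∀ S d,
      Oc Φ ε t T' S d → ∀ s < t, s ≤ d → ¬hit Φ ε T S s := by
  have key : ∀ G ∈ F, ∀ G' ∈ F, ∀ᶠ ε in 𝓝[>] (0 : ℝ), ∀ S d,
      Oc Φ ε t (G'.tree Φ ε) S d → ∀ s < t, s ≤ d → ¬hit Φ ε (G.tree Φ ε) S s := by
    intro G hG G' hG'
    have g := h.one G hG
    have g' := h.one G' hG'
    by_cases hne : G = G'
    · subst hne
      filter_upwards [self_clean hΦ G.τ G.ℓ G.p g.good g.tord g.self] with ε h1 S d hS s _ hsd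
      exact h1 t S d hS s hsd
    · have hp := h.pair hG hG' hne
      refine cross hΦ g.good g'.good (g.ev_ok hΦ) (hor := fun _ => t) (T := t) (K₀ := 0)
        (fun x hx y hy => ⟨hp.1.ll x hx y hy, hp.2 x hx y hy⟩) ?_
      exact Eventually.of_forall fun ε => by simp
  have key2 : ∀ᶠ ε in 𝓝[>] (0 : ℝ), ∀ G ∈ F, ∀ G' ∈ F, ∀ S d,
      Oc Φ ε t (G'.tree Φ ε) S d → ∀ s < t, s ≤ d → ¬hit Φ ε (G.tree Φ ε) S s :=
    (Filter.eventually_all_finite (List.finite_toSet F)).2 fun G hG =>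
      (Filter.eventually_all_finite (List.finite_toSet F)).2 fun G' hG' => key G hG G' hG'
  filter_upwards [key2] with ε h1 T hT T' hT'
  obtain ⟨G, hG, rfl⟩ := mem_trees.1 hT
  obtain ⟨G', hG', rfl⟩ := mem_trees.1 hT'
  exact h1 G hG G' hG'

/-! ### The legs of a generic forest -/

/-- The legs do not meet while they are active, before `t`. -/
def Sep (t : ℝ) (x y : LG × ℝ × ℝ) : Prop :=
  ∀ σ, x.2.1 < σ → σ < x.2.2 → y.2.1 < σ → σ < y.2.2 → σ < t → ¬meetAt x.1.1 y.1.1 σ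

theorem Sep.symm {t : ℝ} {x y : LG × ℝ × ℝ} (h : Sep t x y) : Sep t y x :=
  fun σ h1 h2 h3 h4 h5 h6 => h σ h3 h4 h1 h2 h5 (meetAt_comm.1 h6)

theorem glegs_sep (t : ℝ) : ∀ (τ : Shape) (ℓ : LG) (p : PD τ), Tord τ p →
    Self Φ τ ℓ.1 p → ∀ h, (glegs Φ τ ℓ p h).Pairwise (Sep t)
  | .leaf, ℓ, p, _, _, h => List.pairwise_singleton _ _
  | .node a b, ℓ, p, ht, hs, h => by
    have hA := glegs_sep t a (inG1 Φ ℓ p.1) p.2.1 ht.1.1 hs.2.1 p.1.1
    have hB := glegs_sep t b (inG2 Φ ℓ p.1) p.2.2 ht.1.2 hs.2.2 p.1.1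
    have eA : ∀ x ∈ glegs Φ a (inG1 Φ ℓ p.1) p.2.1 p.1.1, x.2.2 ≤ p.1.1 := by
      intro x hx
      rcases glegs_end a _ _ ht.1.1 _ _ hx with h1 | h1
      · rw [h1]
      · exact h1.trans ht.2.1.le
    have eB : ∀ x ∈ glegs Φ b (inG2 Φ ℓ p.1) p.2.2 p.1.1, x.2.2 ≤ p.1.1 := by
      intro x hx
      rcases glegs_end b _ _ ht.1.2 _ _ hx with h1 | h1
      · rw [h1]
      · exact h1.trans ht.2.2.le
    change (glegs Φ a (inG1 Φ ℓ p.1) p.2.1 p.1.1 ++
      glegs Φ b (inG2 Φ ℓ p.1) p.2.2 p.1.1 ++ [(ℓ, p.1.1, h)]).Pairwise (Sep t)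
    rw [List.pairwise_append, List.pairwise_append]
    refine ⟨⟨hA, hB, fun x hx y hy σ h1 h2 h3 h4 _ => ?_⟩, List.pairwise_singleton _ _,
      fun x hx y hy σ h1 h2 h3 h4 _ => ?_⟩
    · have hap : ApartG Φ p.1.1 (gA Φ a b ℓ p) (gB Φ a b ℓ p) := hs.1
      exact hap.nm (h₁ := p.1.1) (h₂ := p.1.1) hx hy σ (h2.trans_le (eA x hx))
    · rw [List.mem_singleton.1 hy] at h3
      exfalso
      have h5 : x.2.2 ≤ p.1.1 := by
        rcases List.mem_append.1 hx with hx | hx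
        · exact eA x hx
        · exact eB x hx
      have h6 : p.1.1 < σ := h3
      linarith

/-- **Different legs of a generic forest do not meet.** -/
theorem Gen.legs_sep {F : List TG} {t : ℝ} (h : Gen Φ L F t) : (flegs Φ F t).Pairwise (Sep t) := by
  have key : ∀ F : List TG, (∀ G ∈ F, GenG Φ L G) → F.Pairwise (PairG Φ t) →
      (flegs Φ F t).Pairwise (Sep t) := by
    intro F h1 h2
    induction F with
    | nil => exact List.Pairwise.nil
    | cons G F ih =>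
      have e : flegs Φ (G :: F) t = G.legs Φ t ++ flegs Φ F t := List.flatMap_cons
      rw [e, List.pairwise_append]
      have g := h1 G (by simp)
      rw [List.pairwise_cons] at h2
      refine ⟨glegs_sep t G.τ G.ℓ G.p g.tord g.self t,
        ih (fun G' hG' => h1 G' (by simp [hG'])) h2.2, fun x hx y hy σ _ _ _ _ hσ => ?_⟩
      obtain ⟨G', hG', hy'⟩ := List.mem_flatMap.1 hy
      exact (h2.1 G' hG').1.ll x hx y hy' σ hσ
  exact key F h.one h.two

theorem Gen.legs_ne {F : List TG} {t : ℝ} (h : Gen Φ L F t) {x y : LG × ℝ × ℝ}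
    (hx : x ∈ flegs Φ F t) (hy : y ∈ flegs Φ F t) (hne : x ≠ y) : Sep t x y := by
  have hsymm : Std.Symm (Sep t) := ⟨fun _ _ h => h.symm⟩
  exact h.legs_sep.forall hx hy hne

/-- An exhaust is not the same line as a leg which dies later. -/
theorem exw_ne_leg : ∀ (τ : Shape) (ℓ : LG) (p : PD τ), Tord τ p → Self Φ τ ℓ.1 p →
    WNe Φ τ ℓ.1.2 p → ∀ h, ∀ e ∈ exw Φ τ ℓ p, ∀ x ∈ glegs Φ τ ℓ p h, e.2 < x.2.2 → e.1.1 ≠ x.1.1
  | .leaf, _, _, _, _, _, _, _, he, _, _, _ => absurd he List.not_mem_nil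
  | .node a b, ℓ, p, ht, hs, hw, h, e, he, x, hx, hlt => by
    have hap : ApartG Φ p.1.1 (gA Φ a b ℓ p) (gB Φ a b ℓ p) := hs.1
    have hwa : WNe Φ a (inG1 Φ ℓ p.1).1.2 p.2.1 := by rw [inG1_snd]; exact hw.2.1
    have hwb : WNe Φ b (inG2 Φ ℓ p.1).1.2 p.2.2 := by rw [inG2_snd]; exact hw.2.2
    rcases mem_glegs_node.1 hx with hx | hx | hx
    · rcases mem_exw_node.1 he with he | he | he
      · exact exw_ne_leg a _ _ ht.1.1 hs.2.1 hwa _ e he x hx hlt
      · intro heq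
        have h1 := hap.nev (h₁ := p.1.1) hx (mem_exl_of_exw he)
        rw [heq] at h1
        exact h1 0 rfl
      · exfalso
        rw [he] at hlt
        have h1 : x.2.2 ≤ p.1.1 := by
          rcases glegs_end a _ _ ht.1.1 _ _ hx with h1 | h1
          · rw [h1]
          · exact h1.trans ht.2.1.le
        have h2 : p.1.1 < x.2.2 := hlt
        linarith
    · rcases mem_exw_node.1 he with he | he | he
      · intro heq
        have h1 := hap.symm.nev (h₁ := p.1.1) hx (mem_exl_of_exw he)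
        rw [heq] at h1
        exact h1 0 rfl
      · exact exw_ne_leg b _ _ ht.1.2 hs.2.2 hwb _ e he x hx hlt
      · exfalso
        rw [he] at hlt
        have h1 : x.2.2 ≤ p.1.1 := by
          rcases glegs_end b _ _ ht.1.2 _ _ hx with h1 | h1
          · rw [h1]
          · exact h1.trans ht.2.2.le
        have h2 : p.1.1 < x.2.2 := hlt
        linarith
    · intro heq
      rw [hx] at heq
      have h1 := hw.1.exw e he
      rw [heq] at h1
      exact h1 rfl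

/-- **In a generic forest** an exhaust born before `t` is not the same line as a leg which dies
later. -/
theorem Gen.exw_ne {F : List TG} {t : ℝ} (h : Gen Φ L F t) {G : TG} (hG : G ∈ F) {e : LG × ℝ}
    (he : e ∈ exw Φ G.τ G.ℓ G.p) (het : e.2 ≤ t) {x : LG × ℝ × ℝ} (hx : x ∈ flegs Φ F t)
    (hlt : e.2 < x.2.2) : e.1.1 ≠ x.1.1 := by
  obtain ⟨G', hG', hx'⟩ := List.mem_flatMap.1 hx
  by_cases hne : G = G'
  · subst hne
    have g := h.one G hG
    exact exw_ne_leg G.τ G.ℓ G.p g.tord g.self g.wne t e he x hx' hlt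
  · intro heq
    have h1 := (h.pair hG hG' hne).1.el e he het x hx'
    rw [heq] at h1
    exact h1 0 rfl

end Vale.Agent.P119.KT
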