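import Vale.Agent.P119.KT.Energy

/-!
# P119, block KT (`helper860`): the trees which hit a given line

* `hl ε ℓ q`: the line with velocity `q.2.1` which comes into contact with the line `ℓ` at the time
  `q.1` exactly, with the impact parameter `q.2.2`;
* `regw`: the density of the regular hits in the parameters `ND × PD τ`;
* `lintegral_hits`: the exact formula;
* `tendsto_lprod_bk`: convergence of the weights, `tendsto_regw`: convergence in `L¹`.
-/

open MeasureTheory Filter Topology Set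
open scoped ENNReal NNReal RealInnerProductSpace

noncomputable section

namespace Vale.Agent.P119.KT

open Vale.Agent.P119.KU
open Vale.Agent.P119.M (Shape)

variable {Φ : E3 → ℝ} {ε : ℝ}

/-! ### Shift of the time of a node -/

theorem nvol_eq : nvol = (volume : Measure ℝ).prod
    ((volume : Measure (E3 × E2)).restrict {y | ‖y.2‖ < 1}) := by
  unfold nvol
  have h := Measure.prod_restrict (μ := (volume : Measure ℝ)) (ν := (volume : Measure (E3 × E2)))
    univ {y : E3 × E2 | ‖y.2‖ < 1}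
  rw [Measure.restrict_univ] at h
  rw [h, Measure.volume_eq_prod]
  congr 1
  ext q
  simp

theorem lintegral_nvol_shift {c : E3 × E2 → ℝ} (hc : Measurable c) {F : ND → ℝ≥0∞}
    (hF : Measurable F) : ∫⁻ q, F (q.1 + c q.2, q.2) ∂nvol = ∫⁻ q, F q ∂nvol := by
  rw [nvol_eq]
  have h1 : Measurable fun q : ℝ × (E3 × E2) => F (q.1 + c q.2, q.2) :=
    hF.comp ((measurable_fst.add (hc.comp measurable_snd)).prodMk measurable_snd)
  rw [lintegral_prod_symm _ h1.aemeasurable, lintegral_prod_symm _ hF.aemeasurable]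
  refine lintegral_congr fun y => ?_
  exact lintegral_add_right_eq_self (fun s => F (s, y)) (c y)

/-! ### The line which comes into contact at a given time -/

/-- The shifted parameters. -/
def hq (ε : ℝ) (v : E3) (q : ND) : ND := (q.1 + ε * half (outRel v q), q.2)

/-- The line which comes into contact with `ℓ` at the time `q.1`. -/
def hl (ε : ℝ) (ℓ : Ph) (q : ND) : Ph := exLine ε ℓ (hq ε ℓ.2 q)

theorem half_outRel_congr (v : E3) (s s' : ℝ) (y : E3 × E2) :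
    half (outRel v (s, y)) = half (outRel v (s', y)) := by
  rw [half_outRel, half_outRel]

theorem outRel_congr (v : E3) (s s' : ℝ) (y : E3 × E2) : outRel v (s, y) = outRel v (s', y) := by
  ext1
  · rw [outRel_fst, outRel_fst]
  · rw [outRel_snd, outRel_snd]

theorem hl_snd (ε : ℝ) (ℓ : Ph) (q : ND) : (hl ε ℓ q).2 = q.2.1 := by
  unfold hl
  rw [exLine_def]
  rfl

theorem hl_fst (ε : ℝ) (ℓ : Ph) (q : ND) : (hl ε ℓ q).1 =
    ℓ.1 + q.1 • (ℓ.2 - q.2.1) + ε • (half (outRel ℓ.2 q) • (ℓ.2 - q.2.1) - (outRel ℓ.2 q).1) := by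
  unfold hl
  rw [exLine_def]
  simp only
  have h : outRel ℓ.2 (hq ε ℓ.2 q) = outRel ℓ.2 q := outRel_congr _ _ _ _
  rw [h, outRel_snd]
  unfold hq
  simp only
  module

theorem rel_exLine' (hε : ε ≠ 0) (ℓ : Ph) (q : ND) :
    KU.rel ε (ℓ, exLine ε ℓ q) = free (-(q.1 / ε)) (outRel ℓ.2 q) := rel_exLine hε ℓ q

theorem hitT_exLine (hε : ε ≠ 0) (ℓ : Ph) {q : ND} (h : ℓ.2 - q.2.1 ≠ 0) :
    hitT ε (ℓ, exLine ε ℓ q) = q.1 - ε * half (outRel ℓ.2 q) := by
  have hne : (outRel ℓ.2 q).2 ≠ 0 := by rw [outRel_snd]; exact h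
  unfold hitT
  rw [rel_exLine' hε, tin_free hne]
  unfold tin
  rw [crd_outRel]
  field_simp
  ring

/-- The contact time is exactly `q.1`. -/
theorem hitT_hl (hε : ε ≠ 0) (ℓ : Ph) {q : ND} (h : ℓ.2 - q.2.1 ≠ 0) :
    hitT ε (ℓ, hl ε ℓ q) = q.1 := by
  unfold hl
  have h' : half (outRel ℓ.2 (hq ε ℓ.2 q)) = half (outRel ℓ.2 q) := half_outRel_congr _ _ _ _
  rw [hitT_exLine hε ℓ (q := hq ε ℓ.2 q) h, h']
  unfold hq
  simp

theorem meets_hl (hε : ε ≠ 0) (ℓ : Ph) {q : ND} (h : ℓ.2 - q.2.1 ≠ 0) (hb : ‖q.2.2‖ < 1) :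
    Meets ε (ℓ, hl ε ℓ q) := by
  rw [← hit_iff_meets, rel_eq_KU]
  unfold hl
  rw [rel_exLine' hε, hit_free, hit_iff_perp, perp_outRel, norm_fr, outRel_snd]
  exact ⟨h, hb⟩

theorem measurable_hl (ε : ℝ) (ℓ : Ph) : Measurable fun q : ND => hl ε ℓ q := by
  have h1 : Measurable fun q : ND => outRel ℓ.2 q :=
    measurable_outRel.comp (measurable_const.prodMk measurable_id)
  have h2 : Measurable fun q : ND => half (outRel ℓ.2 q) := measurable_half.comp h1
  have h3 : Measurable fun q : ND => hq ε ℓ.2 q :=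
    (measurable_fst.add (h2.const_mul ε)).prodMk measurable_snd
  exact (measurable_exLine ε).comp (measurable_const.prodMk h3)

/-- Integration over the lines which meet a given line, in the parameters of `hl`. -/
theorem lintegral_meets (hε : 0 < ε) (ℓ : Ph) {h : Ph → ℝ≥0∞} (hm : Measurable h) :
    ∫⁻ L, {L | Meets ε (ℓ, L)}.indicator h L =
      ENNReal.ofReal (ε ^ 2) * ∫⁻ q, ‖ℓ.2 - q.2.1‖ₑ * h (hl ε ℓ q) ∂nvol := by
  have h1 := lintegral_ex hε ℓ hm
  have h2 : {L : Ph | Hit (rel ε (ℓ, L))} = {L | Meets ε (ℓ, L)} := by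
    ext L
    exact hit_iff_meets ε (ℓ, L)
  rw [h2] at h1
  rw [h1]
  congr 1
  have hF : Measurable fun q : ND => ‖ℓ.2 - q.2.1‖ₑ * h (exLine ε ℓ q) := by
    have h3 : Measurable fun q : ND => ‖ℓ.2 - q.2.1‖ₑ := by fun_prop
    exact h3.mul (hm.comp ((measurable_exLine ε).comp (measurable_const.prodMk measurable_id)))
  have hc : Measurable fun y : E3 × E2 => ε * half (outRel ℓ.2 (0, y)) := by
    have h3 : Measurable fun y : E3 × E2 => ((ℓ.2, (0, y)) : E3 × ND) := by fun_prop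
    exact ((measurable_half.comp measurable_outRel).comp h3).const_mul ε
  rw [← lintegral_nvol_shift hc hF]
  refine lintegral_congr fun q => ?_
  have h4 : ((q.1 + ε * half (outRel ℓ.2 (0, q.2)), q.2) : ND) = hq ε ℓ.2 q := by
    unfold hq
    rw [half_outRel_congr ℓ.2 0 q.1 q.2]
  rw [h4]
  rfl

/-! ### The density of the regular hits -/

/-- The conditions on the times of a regular hit of a leg active on `[a, b)`. -/
def regset (Φ : E3 → ℝ) (ε : ℝ) (τ : Shape) (a b : ℝ) : Set (ND × PD τ) :=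
  {x | tok Φ ε τ x.1.2.1 x.2 ∧ ex ε τ x.1.2.1 x.2 ≤ x.1.1 ∧ a ≤ x.1.1 ∧ x.1.1 < b}

/-- The density of the regular hits of the line `ℓ` between the times `a` and `b`. -/
def regw (g : Ph → ℝ≥0∞) (Φ : E3 → ℝ) (ε : ℝ) (τ : Shape) (ℓ : Ph) (a b : ℝ)
    (x : ND × PD τ) : ℝ≥0∞ :=
  ‖ℓ.2 - x.1.2.1‖ₑ * (wt Φ τ x.1.2.1 x.2 *
    (regset Φ ε τ a b).indicator (fun x => lprod g τ (bk Φ ε τ (hl ε ℓ x.1) x.2)) x)

theorem measurableSet_regset (hΦ : IsPotential Φ) (ε : ℝ) (τ : Shape) (a b : ℝ) :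
    MeasurableSet (regset Φ ε τ a b) := by
  have h1 : Measurable fun x : ND × PD τ => (x.1.2.1, x.2) := by fun_prop
  have h2 : Measurable fun x : ND × PD τ => x.1.1 := by fun_prop
  exact (h1 (measurableSet_tok hΦ ε τ)).inter ((measurableSet_le ((measurable_ex ε τ).comp h1)
    h2).inter ((measurableSet_le measurable_const h2).inter (measurableSet_lt h2 measurable_const)))

theorem measurable_bk_hl (hΦ : IsPotential Φ) (ε : ℝ) (τ : Shape) (ℓ : Ph) :
    Measurable fun x : ND × PD τ => bk Φ ε τ (hl ε ℓ x.1) x.2 :=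
  (measurable_bk hΦ ε τ).comp (((measurable_hl ε ℓ).comp measurable_fst).prodMk measurable_snd)

theorem measurable_regw {g : Ph → ℝ≥0∞} (hg : Measurable g) (hΦ : IsPotential Φ) (ε : ℝ)
    (τ : Shape) (ℓ : Ph) (a b : ℝ) : Measurable (regw g Φ ε τ ℓ a b) := by
  have h1 : Measurable fun x : ND × PD τ => (x.1.2.1, x.2) := by fun_prop
  have h2 : Measurable fun x : ND × PD τ => ‖ℓ.2 - x.1.2.1‖ₑ := by fun_prop
  exact h2.mul (((measurable_wt hΦ τ).comp h1).mul
    (((measurable_lprod hg τ).comp (measurable_bk_hl hΦ ε τ ℓ)).indicator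
      (measurableSet_regset hΦ ε τ a b)))

open M.CTree in
/-- The set of the regular hits of `ℓ` on `[a, b)`, in the leaf data. -/
def hitset (Φ : E3 → ℝ) (ε : ℝ) (τ : Shape) (ℓ : Ph) (a b : ℝ) : Set (LD τ) :=
  {z | ok Φ ε (mkL τ z) ∧ Meets ε (ℓ, ln Φ ε (mkL τ z)) ∧
    ext Φ ε (mkL τ z) ≤ hitT ε (ℓ, ln Φ ε (mkL τ z)) ∧
    a ≤ hitT ε (ℓ, ln Φ ε (mkL τ z)) ∧ hitT ε (ℓ, ln Φ ε (mkL τ z)) < b}

open M.CTree in
/-- **The regular hits of a line: exact formula.** -/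
theorem lintegral_hits (hΦ : IsPotential Φ) (hε : 0 < ε) (τ : Shape) (ℓ : Ph) (a b : ℝ)
    {g : Ph → ℝ≥0∞} (hg : Measurable g) {H : LD τ × ℝ → ℝ≥0∞} (hH : Measurable H) :
    ∫⁻ z, (hitset Φ ε τ ℓ a b).indicator
        (fun z => lprod g τ z * H (z, hitT ε (ℓ, ln Φ ε (mkL τ z)))) z ∂vol τ =
      ENNReal.ofReal (ε ^ 2) ^ τ.card *
        ∫⁻ x, regw g Φ ε τ ℓ a b x * H (bk Φ ε τ (hl ε ℓ x.1) x.2, x.1.1)
          ∂(nvol.prod (pvol τ)) := by
  have hε0 := hε.ne'
  -- the function of the root line and of the leaf data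
  set S : Set (Ph × LD τ) := {y | Meets ε (ℓ, y.1) ∧ exL Φ ε τ y.2 ≤ hitT ε (ℓ, y.1) ∧
    a ≤ hitT ε (ℓ, y.1) ∧ hitT ε (ℓ, y.1) < b} with hS
  have hpair : Measurable fun y : Ph × LD τ => ((ℓ, y.1) : Ph × Ph) := by fun_prop
  have hT : Measurable fun y : Ph × LD τ => hitT ε (ℓ, y.1) := measurable_hitT.comp hpair
  have hSm : MeasurableSet S :=
    (hpair measurableSet_meets).inter ((measurableSet_le ((measurable_exL hΦ hε0 τ).comp
      measurable_snd) hT).inter ((measurableSet_le measurable_const hT).inter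
        (measurableSet_lt hT measurable_const)))
  set G : Ph × LD τ → ℝ≥0∞ := S.indicator fun y => lprod g τ y.2 * H (y.2, hitT ε (ℓ, y.1))
    with hG
  have hGm : Measurable G :=
    (((measurable_lprod hg τ).comp measurable_snd).mul
      (hH.comp (measurable_snd.prodMk hT))).indicator hSm
  have e1 : ∫⁻ z, (hitset Φ ε τ ℓ a b).indicator
        (fun z => lprod g τ z * H (z, hitT ε (ℓ, ln Φ ε (mkL τ z)))) z ∂vol τ =
      ∫⁻ z, {z | ok Φ ε (mkL τ z)}.indicator (fun z => G (ln Φ ε (mkL τ z), z)) z ∂vol τ := by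
    refine lintegral_congr fun z => ?_
    by_cases h1 : ok Φ ε (mkL τ z)
    · rw [indicator_of_mem (s := {z | ok Φ ε (mkL τ z)}) (by exact h1)]
      by_cases h2 : z ∈ hitset Φ ε τ ℓ a b
      · rw [indicator_of_mem h2, hG, indicator_of_mem]
        exact ⟨h2.2.1, by rw [← ext_mkL]; exact h2.2.2.1, h2.2.2.2⟩
      · rw [indicator_of_notMem h2, hG, indicator_of_notMem]
        intro h3
        exact h2 ⟨h1, h3.1, by rw [ext_mkL]; exact h3.2.1, h3.2.2⟩
    · rw [indicator_of_notMem (s := {z | ok Φ ε (mkL τ z)}) (by exact h1),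
        indicator_of_notMem fun h2 => h1 h2.1]
  rw [e1, lintegral_ok hΦ hε τ hGm]
  -- the inner integral as a function of the root line
  set h : Ph → ℝ≥0∞ := fun L => ∫⁻ p, wt Φ τ L.2 p *
    {x : Ph × PD τ | tok Φ ε τ x.1.2 x.2 ∧ ex ε τ x.1.2 x.2 ≤ hitT ε (ℓ, x.1) ∧
      a ≤ hitT ε (ℓ, x.1) ∧ hitT ε (ℓ, x.1) < b}.indicator
      (fun x => lprod g τ (bk Φ ε τ x.1 x.2) * H (bk Φ ε τ x.1 x.2, hitT ε (ℓ, x.1)))
        (L, p) ∂pvol τ with hh
  have hv : Measurable fun x : Ph × PD τ => (x.1.2, x.2) := by fun_prop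
  have hT' : Measurable fun x : Ph × PD τ => hitT ε (ℓ, x.1) :=
    measurable_hitT.comp (by fun_prop)
  have hint : Measurable fun x : Ph × PD τ => wt Φ τ x.1.2 x.2 *
    {x : Ph × PD τ | tok Φ ε τ x.1.2 x.2 ∧ ex ε τ x.1.2 x.2 ≤ hitT ε (ℓ, x.1) ∧
      a ≤ hitT ε (ℓ, x.1) ∧ hitT ε (ℓ, x.1) < b}.indicator
      (fun x => lprod g τ (bk Φ ε τ x.1 x.2) * H (bk Φ ε τ x.1 x.2, hitT ε (ℓ, x.1))) x := by
    have h1 : MeasurableSet {x : Ph × PD τ | tok Φ ε τ x.1.2 x.2 ∧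
        ex ε τ x.1.2 x.2 ≤ hitT ε (ℓ, x.1) ∧
        a ≤ hitT ε (ℓ, x.1) ∧ hitT ε (ℓ, x.1) < b} :=
      (hv (measurableSet_tok hΦ ε τ)).inter ((measurableSet_le ((measurable_ex ε τ).comp hv)
        hT').inter ((measurableSet_le measurable_const hT').inter
          (measurableSet_lt hT' measurable_const)))
    exact ((measurable_wt hΦ τ).comp hv).mul ((((measurable_lprod hg τ).comp
      (measurable_bk hΦ ε τ)).mul (hH.comp ((measurable_bk hΦ ε τ).prodMk hT'))).indicator h1)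
  have hhm : Measurable h := hint.lintegral_prod_right'
  have e2 : ∀ L : Ph, ∫⁻ p, wt Φ τ L.2 p * {x : Ph × PD τ | tok Φ ε τ x.1.2 x.2}.indicator
      (fun x => G (x.1, bk Φ ε τ x.1 x.2)) (L, p) ∂pvol τ = {L | Meets ε (ℓ, L)}.indicator h L := by
    intro L
    by_cases hL : Meets ε (ℓ, L)
    · rw [indicator_of_mem (s := {L | Meets ε (ℓ, L)}) (by exact hL), hh]
      refine lintegral_congr fun p => ?_
      by_cases hw : wt Φ τ L.2 p = 0
      · rw [hw, zero_mul, zero_mul]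
      have hgood := (wt_ne_zero_iff τ L.2 p).1 hw
      congr 1
      by_cases ht : tok Φ ε τ L.2 p
      · rw [indicator_of_mem (s := {x : Ph × PD τ | tok Φ ε τ x.1.2 x.2}) (by exact ht), hG]
        by_cases h4 : ex ε τ L.2 p ≤ hitT ε (ℓ, L) ∧ a ≤ hitT ε (ℓ, L) ∧ hitT ε (ℓ, L) < b
        · rw [indicator_of_mem, indicator_of_mem (by exact ⟨ht, h4⟩)]
          exact ⟨hL, by rw [exL_bk hΦ hε0 τ L p hgood]; exact h4.1, h4.2⟩
        · rw [indicator_of_notMem, indicator_of_notMem (by exact fun h5 => h4 h5.2)]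
          intro h5
          refine h4 ⟨?_, h5.2.2⟩
          have h6 := h5.2.1
          rwa [exL_bk hΦ hε0 τ L p hgood] at h6
      · rw [indicator_of_notMem (s := {x : Ph × PD τ | tok Φ ε τ x.1.2 x.2}) (by exact ht),
          indicator_of_notMem (by exact fun h5 => ht h5.1)]
    · rw [indicator_of_notMem (s := {L | Meets ε (ℓ, L)}) (by exact hL)]
      have h5 : ∀ p, wt Φ τ L.2 p * {x : Ph × PD τ | tok Φ ε τ x.1.2 x.2}.indicator
          (fun x => G (x.1, bk Φ ε τ x.1 x.2)) (L, p) = 0 := by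
        intro p
        by_cases ht : tok Φ ε τ L.2 p
        · rw [indicator_of_mem (s := {x : Ph × PD τ | tok Φ ε τ x.1.2 x.2}) (by exact ht), hG,
            indicator_of_notMem (fun h6 => hL h6.1), mul_zero]
        · rw [indicator_of_notMem (s := {x : Ph × PD τ | tok Φ ε τ x.1.2 x.2}) (by exact ht),
            mul_zero]
      simp only [h5, lintegral_zero]
  simp only [e2]
  rw [lintegral_meets hε ℓ hhm, ← mul_assoc, ← pow_succ, Nat.sub_add_cancel (card_pos τ)]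
  congr 1
  have hRm : Measurable fun x : ND × PD τ =>
      regw g Φ ε τ ℓ a b x * H (bk Φ ε τ (hl ε ℓ x.1) x.2, x.1.1) :=
    (measurable_regw hg hΦ ε τ ℓ a b).mul (hH.comp ((measurable_bk_hl hΦ ε τ ℓ).prodMk
      (by fun_prop)))
  rw [lintegral_prod _ hRm.aemeasurable]
  refine lintegral_congr fun q => ?_
  by_cases hv0 : ℓ.2 - q.2.1 = 0
  · have h1 : ‖ℓ.2 - q.2.1‖ₑ = 0 := by rw [hv0, enorm_zero]
    unfold regw
    simp only [h1, zero_mul, lintegral_zero]
  rw [hh]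
  simp only
  rw [← lintegral_const_mul' _ _ enorm_ne_top]
  refine lintegral_congr fun p => ?_
  unfold regw
  simp only
  rw [hl_snd, mul_assoc, mul_assoc]
  congr 2
  by_cases h1 : ((q, p) : ND × PD τ) ∈ regset Φ ε τ a b
  · rw [indicator_of_mem h1, indicator_of_mem]
    · simp only [hitT_hl hε0 ℓ hv0]
    · change tok Φ ε τ (hl ε ℓ q).2 p ∧ ex ε τ (hl ε ℓ q).2 p ≤ hitT ε (ℓ, hl ε ℓ q) ∧
        a ≤ hitT ε (ℓ, hl ε ℓ q) ∧ hitT ε (ℓ, hl ε ℓ q) < b
      rw [hitT_hl hε0 ℓ hv0, hl_snd]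
      exact h1
  · rw [indicator_of_notMem h1, zero_mul, indicator_of_notMem]
    intro h2
    have h3 : tok Φ ε τ (hl ε ℓ q).2 p ∧ ex ε τ (hl ε ℓ q).2 p ≤ hitT ε (ℓ, hl ε ℓ q) ∧
        a ≤ hitT ε (ℓ, hl ε ℓ q) ∧ hitT ε (ℓ, hl ε ℓ q) < b := h2
    rw [hitT_hl hε0 ℓ hv0, hl_snd] at h3
    exact h1 h3

end Vale.Agent.P119.KT
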