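import Vale.Agent.P119.KT.HitConv
import Vale.Agent.P119.ML.Cls

/-!
# P119, block KT (`helper860`): the legs of a tree in the backward parameters

* `LI τ`: the indices of the legs, `lg Φ ε τ L p t k`: the leg of index `k` of the tree with root
  line `L` and parameters `p`;
* `mem_legs_bk`: the legs in the sense of `ML.legs`;
* `lg_vel`: the velocities do not depend on `ε`; `tendsto_lg`: convergence of the legs as `ε → 0`;
* `wins_bk`: the collision windows.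
-/

open MeasureTheory Filter Topology Set
open scoped ENNReal NNReal RealInnerProductSpace

noncomputable section

namespace Vale.Agent.P119.KT

open Vale.Agent.P119.KU
open Vale.Agent.P119.M (Shape)

variable {Φ : E3 → ℝ} {ε : ℝ}

/-- The indices of the legs of a tree. -/
def LI : Shape → Type
  | .leaf => Unit
  | .node a b => LI a ⊕ (LI b ⊕ Unit)

instance instFintypeLI : (τ : Shape) → Fintype (LI τ)
  | .leaf => inferInstanceAs (Fintype Unit)
  | .node a b => by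
    have := instFintypeLI a
    have := instFintypeLI b
    exact inferInstanceAs (Fintype (LI a ⊕ (LI b ⊕ Unit)))

instance instDecidableEqLI : (τ : Shape) → DecidableEq (LI τ)
  | .leaf => inferInstanceAs (DecidableEq Unit)
  | .node a b => by
    have := instDecidableEqLI a
    have := instDecidableEqLI b
    exact inferInstanceAs (DecidableEq (LI a ⊕ (LI b ⊕ Unit)))

/-- The legs: line, beginning, end. -/
def lg (Φ : E3 → ℝ) (ε : ℝ) : (τ : Shape) → Ph → PD τ → ℝ → LI τ → Ph × ℝ × ℝ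
  | .leaf, L, _, t, _ => (L, 0, t)
  | .node a _, L, p, t, .inl k =>
    lg Φ ε a (inLines Φ ε L p.1).1 p.2.1 (min t (p.1.1 + ε * tin (inRel Φ L.2 p.1))) k
  | .node _ b, L, p, t, .inr (.inl k) =>
    lg Φ ε b (inLines Φ ε L p.1).2 p.2.2 (min t (p.1.1 + ε * tin (inRel Φ L.2 p.1))) k
  | .node _ _, L, p, t, .inr (.inr _) => (L, p.1.1 + ε * half (outRel L.2 p.1), t)

open M.CTree in
theorem sig_mkL_node (ε : ℝ) (a b : Shape) (z : LD a × LD b) :
    sig Φ ε (mkL (.node a b) z) = hitT ε (root Φ ε a z.1, root Φ ε b z.2) := by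
  change hitT ε (ln Φ ε (mkL a z.1), ln Φ ε (mkL b z.2)) = _
  rw [ln_mkL, ln_mkL]

open M.CTree in
theorem sig_mkL_bk (hΦ : IsPotential Φ) (hε : ε ≠ 0) (a b : Shape) (L : Ph)
    (p : ND × PD a × PD b) (h : good Φ (.node a b) L.2 p) :
    sig Φ ε (mkL (.node a b) (bk Φ ε (.node a b) L p)) =
      p.1.1 + ε * tin (inRel Φ L.2 p.1) := by
  obtain ⟨h1, h2, h3⟩ := h
  have hv := inLines_vel (Φ := Φ) ε L p.1
  have ga : good Φ a (inLines Φ ε L p.1).1.2 p.2.1 := by rw [hv.1]; exact h2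
  have gb : good Φ b (inLines Φ ε L p.1).2.2 p.2.2 := by rw [hv.2]; exact h3
  refine (sig_mkL_node ε a b (bk Φ ε (.node a b) L p)).trans ?_
  change hitT ε (root Φ ε a (bk Φ ε a (inLines Φ ε L p.1).1 p.2.1),
    root Φ ε b (bk Φ ε b (inLines Φ ε L p.1).2 p.2.2)) = _
  rw [root_bk hΦ hε a _ _ ga, root_bk hΦ hε b _ _ gb]
  exact hitT_inLines hΦ hε h1

open M.CTree in
theorem ext_mkL_bk (hΦ : IsPotential Φ) (hε : ε ≠ 0) (τ : Shape) (L : Ph) (p : PD τ)
    (h : good Φ τ L.2 p) : ext Φ ε (mkL τ (bk Φ ε τ L p)) = ex ε τ L.2 p := by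
  rw [ext_mkL, exL_bk hΦ hε τ L p h]

open M.CTree in
/-- The legs of the tree of the backward parameters. -/
theorem mem_legs_bk (hΦ : IsPotential Φ) (hε : ε ≠ 0) : ∀ (τ : Shape) (L : Ph) (p : PD τ) (t : ℝ)
    (ℓ : Ph × ℝ × ℝ), good Φ τ L.2 p →
    (ℓ ∈ ML.legs Φ ε (mkL τ (bk Φ ε τ L p)) t ↔ ∃ k, lg Φ ε τ L p t k = ℓ)
  | .leaf, L, _, t, ℓ, _ => by
    constructor
    · intro h
      exact ⟨(), (List.mem_singleton.1 h).symm⟩
    · rintro ⟨_, h⟩
      exact List.mem_singleton.2 h.symm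
  | .node a b, L, p, t, ℓ, h => by
    have hsig := sig_mkL_bk hΦ hε a b L p h
    have hext := ext_mkL_bk hΦ hε (.node a b) L p h
    have hln := ln_mkL_bk hΦ hε (.node a b) L p h
    obtain ⟨h1, h2, h3⟩ := h
    have hv := inLines_vel (Φ := Φ) ε L p.1
    have ga : good Φ a (inLines Φ ε L p.1).1.2 p.2.1 := by rw [hv.1]; exact h2
    have gb : good Φ b (inLines Φ ε L p.1).2.2 p.2.2 := by rw [hv.2]; exact h3
    have key := ML.mem_legs_node (Φ := Φ) (ε := ε)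
      (a := mkL a (bk Φ ε a (inLines Φ ε L p.1).1 p.2.1))
      (b := mkL b (bk Φ ε b (inLines Φ ε L p.1).2 p.2.2)) (t := t) (l := ℓ)
    change ℓ ∈ ML.legs Φ ε (.node (mkL a (bk Φ ε a (inLines Φ ε L p.1).1 p.2.1))
      (mkL b (bk Φ ε b (inLines Φ ε L p.1).2 p.2.2))) t ↔ _
    change sig Φ ε (.node (mkL a (bk Φ ε a (inLines Φ ε L p.1).1 p.2.1))
      (mkL b (bk Φ ε b (inLines Φ ε L p.1).2 p.2.2))) = _ at hsig
    change ext Φ ε (.node (mkL a (bk Φ ε a (inLines Φ ε L p.1).1 p.2.1))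
      (mkL b (bk Φ ε b (inLines Φ ε L p.1).2 p.2.2))) = _ at hext
    change ln Φ ε (.node (mkL a (bk Φ ε a (inLines Φ ε L p.1).1 p.2.1))
      (mkL b (bk Φ ε b (inLines Φ ε L p.1).2 p.2.2))) = _ at hln
    rw [key, hsig, hext, hln, mem_legs_bk hΦ hε a _ _ _ _ ga, mem_legs_bk hΦ hε b _ _ _ _ gb]
    constructor
    · rintro (⟨k, hk⟩ | ⟨k, hk⟩ | h)
      · exact ⟨.inl k, hk⟩
      · exact ⟨.inr (.inl k), hk⟩
      · exact ⟨.inr (.inr ()), h.symm⟩
    · rintro ⟨k, hk⟩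
      rcases k with k | k | k
      · exact Or.inl ⟨k, hk⟩
      · exact Or.inr (Or.inl ⟨k, hk⟩)
      · exact Or.inr (Or.inr hk.symm)

/-- The velocities of the legs. -/
def lgv (Φ : E3 → ℝ) : (τ : Shape) → E3 → PD τ → LI τ → E3
  | .leaf, v, _, _ => v
  | .node a _, v, p, .inl k => lgv Φ a (inVel Φ v p.1).1 p.2.1 k
  | .node _ b, v, p, .inr (.inl k) => lgv Φ b (inVel Φ v p.1).2 p.2.2 k
  | .node _ _, v, _, .inr (.inr _) => v

theorem lg_vel (ε : ℝ) : ∀ (τ : Shape) (L : Ph) (p : PD τ) (t : ℝ) (k : LI τ),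
    (lg Φ ε τ L p t k).1.2 = lgv Φ τ L.2 p k
  | .leaf, _, _, _, _ => rfl
  | .node a _, L, p, t, .inl k => by
    have h := lg_vel ε a (inLines Φ ε L p.1).1 p.2.1
      (min t (p.1.1 + ε * tin (inRel Φ L.2 p.1))) k
    rw [(inLines_vel (Φ := Φ) ε L p.1).1] at h
    exact h
  | .node _ b, L, p, t, .inr (.inl k) => by
    have h := lg_vel ε b (inLines Φ ε L p.1).2 p.2.2
      (min t (p.1.1 + ε * tin (inRel Φ L.2 p.1))) k
    rw [(inLines_vel (Φ := Φ) ε L p.1).2] at h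
    exact h
  | .node _ _, _, _, _, .inr (.inr _) => rfl

theorem lg_end_le (ε : ℝ) : ∀ (τ : Shape) (L : Ph) (p : PD τ) (t : ℝ) (k : LI τ),
    (lg Φ ε τ L p t k).2.2 ≤ t
  | .leaf, _, _, _, _ => le_rfl
  | .node a _, _, _, _, .inl k => (lg_end_le ε a _ _ _ k).trans (min_le_left _ _)
  | .node _ b, _, _, _, .inr (.inl k) => (lg_end_le ε b _ _ _ k).trans (min_le_left _ _)
  | .node _ _, _, _, _, .inr (.inr _) => le_rfl

section Limits

variable {ι : Type*} {l : Filter ι} {εs : ι → ℝ}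

theorem tendsto_inLines (hε : Tendsto εs l (𝓝 0)) {Ls : ι → Ph} {L : Ph}
    (hv : ∀ i, (Ls i).2 = L.2) (hL : Tendsto (fun i => (Ls i).1) l (𝓝 L.1)) (q : ND) :
    Tendsto (fun i => (inLines Φ (εs i) (Ls i) q).1.1) l (𝓝 (inLines Φ 0 L q).1.1) ∧
      Tendsto (fun i => (inLines Φ (εs i) (Ls i) q).2.1) l (𝓝 (inLines Φ 0 L q).2.1) := by
  simp only [inLines_def, hv]
  have h1 := hε.div_const 2
  refine ⟨?_, ?_⟩
  · exact (hL.add tendsto_const_nhds).add (h1.smul_const _)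
  · exact (hL.add tendsto_const_nhds).sub (h1.smul_const _)

/-- **Convergence of the legs.** -/
theorem tendsto_lg (hε : Tendsto εs l (𝓝 0)) : ∀ (τ : Shape) (p : PD τ) (k : LI τ)
    {Ls : ι → Ph} {L : Ph} {ts : ι → ℝ} {t : ℝ}, (∀ i, (Ls i).2 = L.2) →
    Tendsto (fun i => (Ls i).1) l (𝓝 L.1) → Tendsto ts l (𝓝 t) →
    Tendsto (fun i => (lg Φ (εs i) τ (Ls i) p (ts i) k).1.1) l (𝓝 (lg Φ 0 τ L p t k).1.1) ∧
      Tendsto (fun i => (lg Φ (εs i) τ (Ls i) p (ts i) k).2.1) l (𝓝 (lg Φ 0 τ L p t k).2.1) ∧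
      Tendsto (fun i => (lg Φ (εs i) τ (Ls i) p (ts i) k).2.2) l (𝓝 (lg Φ 0 τ L p t k).2.2)
  | .leaf, _, _, _, _, _, _, _, h2, h3 => ⟨h2, tendsto_const_nhds, h3⟩
  | .node a b, p, k, Ls, L, ts, t, h1, h2, h3 => by
    obtain ⟨h4, h5⟩ := tendsto_inLines (Φ := Φ) hε h1 h2 p.1
    have h6 : Tendsto (fun i => min (ts i) (p.1.1 + εs i * tin (inRel Φ (Ls i).2 p.1))) l
        (𝓝 (min t (p.1.1 + 0 * tin (inRel Φ L.2 p.1)))) := by
      simp only [h1]
      exact h3.min ((hε.mul_const _).const_add _)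
    have h7 : ∀ i, (inLines Φ (εs i) (Ls i) p.1).1.2 = (inLines Φ 0 L p.1).1.2 := fun i => by
      rw [(inLines_vel (Φ := Φ) (εs i) (Ls i) p.1).1, (inLines_vel (Φ := Φ) 0 L p.1).1, h1]
    have h8 : ∀ i, (inLines Φ (εs i) (Ls i) p.1).2.2 = (inLines Φ 0 L p.1).2.2 := fun i => by
      rw [(inLines_vel (Φ := Φ) (εs i) (Ls i) p.1).2, (inLines_vel (Φ := Φ) 0 L p.1).2, h1]
    rcases k with k | k | k
    · exact tendsto_lg hε a p.2.1 k h7 h4 h6
    · exact tendsto_lg hε b p.2.2 k h8 h5 h6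
    · refine ⟨h2, ?_, h3⟩
      have h9 := (hε.mul_const (half (outRel L.2 p.1))).const_add p.1.1
      simp only [lg, h1]
      exact h9

end Limits

/-! ### The collision windows -/

/-- The velocities of the incoming lines and the durations (in units of `ε`) are bounded by `K`. -/
def wbd (Φ : E3 → ℝ) (K : ℝ) : (τ : Shape) → E3 → PD τ → Prop
  | .leaf, _, _ => True
  | .node a b, v, p => (‖(inVel Φ v p.1).1‖ ≤ K ∧ ‖(inVel Φ v p.1).2‖ ≤ K ∧
      half (outRel v p.1) - tin (inRel Φ v p.1) ≤ K) ∧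
      wbd Φ K a (inVel Φ v p.1).1 p.2.1 ∧ wbd Φ K b (inVel Φ v p.1).2 p.2.2

theorem wbd.mono {K K' : ℝ} (h : K ≤ K') : ∀ {τ : Shape} {v : E3} {p : PD τ}, wbd Φ K τ v p →
    wbd Φ K' τ v p
  | .leaf, _, _, _ => trivial
  | .node _ _, _, _, h1 => ⟨⟨h1.1.1.trans h, h1.1.2.1.trans h, h1.1.2.2.trans h⟩, h1.2.1.mono h,
      h1.2.2.mono h⟩

theorem exists_wbd (Φ : E3 → ℝ) : ∀ (τ : Shape) (v : E3) (p : PD τ), ∃ K, wbd Φ K τ v p
  | .leaf, _, _ => ⟨0, trivial⟩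
  | .node a b, v, p => by
    obtain ⟨K₁, h1⟩ := exists_wbd Φ a (inVel Φ v p.1).1 p.2.1
    obtain ⟨K₂, h2⟩ := exists_wbd Φ b (inVel Φ v p.1).2 p.2.2
    refine ⟨max (max K₁ K₂) (max (max ‖(inVel Φ v p.1).1‖ ‖(inVel Φ v p.1).2‖)
      (half (outRel v p.1) - tin (inRel Φ v p.1))), ⟨⟨?_, ?_, ?_⟩, ?_, ?_⟩⟩
    · exact (le_max_left _ _).trans ((le_max_left _ _).trans (le_max_right _ _))
    · exact (le_max_right _ _).trans ((le_max_left _ _).trans (le_max_right _ _))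
    · exact (le_max_right _ _).trans (le_max_right _ _)
    · exact h1.mono ((le_max_left _ _).trans (le_max_left _ _))
    · exact h2.mono ((le_max_right _ _).trans (le_max_left _ _))

open M.CTree in
/-- The collision windows of the tree of the backward parameters. -/
theorem wins_bk (hΦ : IsPotential Φ) (hε : 0 < ε) {K : ℝ} : ∀ (τ : Shape) (L : Ph) (p : PD τ)
    (w : (Ph × Ph) × ℝ × ℝ), good Φ τ L.2 p → wbd Φ K τ L.2 p →
    w ∈ ML.wins Φ ε (mkL τ (bk Φ ε τ L p)) →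
    ‖w.1.1.2‖ ≤ K ∧ ‖w.1.2.2‖ ≤ K ∧ w.2.2 - w.2.1 ≤ ε * K ∧ Meets ε w.1 ∧
      w.2.1 = hitT ε w.1 ∧ w.2.2 = sepT Φ ε w.1
  | .leaf, _, _, w, _, _, hw => absurd hw (List.not_mem_nil)
  | .node a b, L, p, w, h, hb, hw => by
    have hsig := sig_mkL_bk hΦ hε.ne' a b L p h
    have hext := ext_mkL_bk hΦ hε.ne' (.node a b) L p h
    obtain ⟨h1, h2, h3⟩ := h
    obtain ⟨hb1, hb2, hb3⟩ := hb
    have hv := inLines_vel (Φ := Φ) ε L p.1
    have ga : good Φ a (inLines Φ ε L p.1).1.2 p.2.1 := by rw [hv.1]; exact h2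
    have gb : good Φ b (inLines Φ ε L p.1).2.2 p.2.2 := by rw [hv.2]; exact h3
    have ba : wbd Φ K a (inLines Φ ε L p.1).1.2 p.2.1 := by rw [hv.1]; exact hb2
    have bb : wbd Φ K b (inLines Φ ε L p.1).2.2 p.2.2 := by rw [hv.2]; exact hb3
    have key := ML.mem_wins_node (Φ := Φ) (ε := ε)
      (a := mkL a (bk Φ ε a (inLines Φ ε L p.1).1 p.2.1))
      (b := mkL b (bk Φ ε b (inLines Φ ε L p.1).2 p.2.2)) (w := w)
    change w ∈ ML.wins Φ ε (.node (mkL a (bk Φ ε a (inLines Φ ε L p.1).1 p.2.1))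
      (mkL b (bk Φ ε b (inLines Φ ε L p.1).2 p.2.2))) at hw
    change sig Φ ε (.node (mkL a (bk Φ ε a (inLines Φ ε L p.1).1 p.2.1))
      (mkL b (bk Φ ε b (inLines Φ ε L p.1).2 p.2.2))) = _ at hsig
    change ext Φ ε (.node (mkL a (bk Φ ε a (inLines Φ ε L p.1).1 p.2.1))
      (mkL b (bk Φ ε b (inLines Φ ε L p.1).2 p.2.2))) =
        p.1.1 + ε * half (outRel L.2 p.1) at hext
    rw [key, hsig, hext, ln_mkL_bk hΦ hε.ne' a _ _ ga, ln_mkL_bk hΦ hε.ne' b _ _ gb] at hw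
    rcases hw with hw | hw | hw
    · exact wins_bk hΦ hε a _ _ w ga ba hw
    · exact wins_bk hΦ hε b _ _ w gb bb hw
    · rw [hw]
      refine ⟨?_, ?_, ?_, ?_, ?_, ?_⟩
      · change ‖(inLines Φ ε L p.1).1.2‖ ≤ K
        rw [hv.1]; exact hb1.1
      · change ‖(inLines Φ ε L p.1).2.2‖ ≤ K
        rw [hv.2]; exact hb1.2.1
      · have := mul_le_mul_of_nonneg_left hb1.2.2 hε.le
        simp only
        linarith
      · have h5 := bk_mem_col hΦ hε.ne' (.node a b) L p ⟨h1, h2, h3⟩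
        have h6 := h5.2.1
        change Hit (rel ε (root Φ ε a (bk Φ ε a (inLines Φ ε L p.1).1 p.2.1),
          root Φ ε b (bk Φ ε b (inLines Φ ε L p.1).2 p.2.2))) at h6
        rw [root_bk hΦ hε.ne' a _ _ ga, root_bk hΦ hε.ne' b _ _ gb] at h6
        exact (hit_iff_meets ε _).1 h6
      · exact (hitT_inLines hΦ hε.ne' h1).symm
      · exact (sepT_inLines hΦ hε.ne' h1).symm

end Vale.Agent.P119.KT
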