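import Vale.Agent.P119.KT.GenHit
import Vale.Agent.P119.IND.Lines

/-!
# P119, block KT (`helper256`): chains of lines and their mass

* `outl`, `act`, `stl`: one collision of a pair of lines with a fresh line; `CL`: a chain of `m`
  collisions, after which the two lines come close (`Clo`);
* `J` : the mass of the chains; `J_succ`;
* `oG`, `stG`: the same for germs of lines; `ae_stG`: generic collisions preserve the property that
  the two lines never meet;
* **`tendsto_J`**: the mass of the closed chains tends to `0`.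
-/

open MeasureTheory Filter Topology Set
open scoped ENNReal NNReal

noncomputable section

namespace Vale.Agent.P119.KT

open KU M CTree ML
open Vale.Agent.P119.M (Shape)

variable {Φ : E3 → ℝ} {ε t r b : ℝ}

/-! ### Chains of lines -/

/-- The outgoing line of a collision: the first line (`true`) or the second one. -/
def outl (Φ : E3 → ℝ) (ε : ℝ) : Bool → Ph → Ph → Ph
  | true, ℓ, l => (sc2 Φ ε (ℓ, l)).1
  | false, ℓ, l => (sc2 Φ ε (ℓ, l)).2

theorem outl_true (ℓ l : Ph) : outl Φ ε true ℓ l = (sc2 Φ ε (ℓ, l)).1 := rfl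

theorem outl_false (ℓ l : Ph) : outl Φ ε false ℓ l = (sc2 Φ ε (ℓ, l)).2 := rfl

theorem measurable_outl (hΦ : IsPotential Φ) (hε : ε ≠ 0) (o : Bool) :
    Measurable fun x : Ph × Ph => outl Φ ε o x.1 x.2 := by
  cases o with
  | true => exact (measurable_sc2 hΦ hε).fst
  | false => exact (measurable_sc2 hΦ hε).snd

attribute [irreducible] outl

/-- The line which collides. -/
def act : Bool × Bool → Ph × Ph → Ph
  | (true, _), z => z.1
  | (false, _), z => z.2

theorem act_true (o : Bool) (z : Ph × Ph) : act (true, o) z = z.1 := rfl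

theorem act_false (o : Bool) (z : Ph × Ph) : act (false, o) z = z.2 := rfl

theorem measurable_act (k : Bool × Bool) : Measurable (act k) := by
  obtain ⟨c, o⟩ := k
  cases c with
  | true => exact measurable_fst
  | false => exact measurable_snd

attribute [irreducible] act

/-- The pair of lines after a collision with the fresh line `l`. -/
def stl (Φ : E3 → ℝ) (ε : ℝ) : Bool × Bool → Ph × Ph → Ph → Ph × Ph
  | (true, o), z, l => (outl Φ ε o z.1 l, z.2)
  | (false, o), z, l => (z.1, outl Φ ε o z.2 l)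

theorem stl_true (o : Bool) (z : Ph × Ph) (l : Ph) :
    stl Φ ε (true, o) z l = (outl Φ ε o z.1 l, z.2) := rfl

theorem stl_false (o : Bool) (z : Ph × Ph) (l : Ph) :
    stl Φ ε (false, o) z l = (z.1, outl Φ ε o z.2 l) := rfl

theorem measurable_stl (hΦ : IsPotential Φ) (hε : ε ≠ 0) (k : Bool × Bool) :
    Measurable fun x : (Ph × Ph) × Ph => stl Φ ε k x.1 x.2 := by
  obtain ⟨c, o⟩ := k
  have h1 : Measurable fun x : (Ph × Ph) × Ph => (x.1.1, x.2) :=
    (measurable_fst.comp measurable_fst).prodMk measurable_snd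
  have h2 : Measurable fun x : (Ph × Ph) × Ph => (x.1.2, x.2) :=
    (measurable_snd.comp measurable_fst).prodMk measurable_snd
  have h3 : Measurable fun x : (Ph × Ph) × Ph => outl Φ ε o x.1.1 x.2 :=
    (measurable_outl hΦ hε o).comp h1
  have h4 : Measurable fun x : (Ph × Ph) × Ph => outl Φ ε o x.1.2 x.2 :=
    (measurable_outl hΦ hε o).comp h2
  have h5 : Measurable fun x : (Ph × Ph) × Ph => x.1.1 := measurable_fst.comp measurable_fst
  have h6 : Measurable fun x : (Ph × Ph) × Ph => x.1.2 := measurable_snd.comp measurable_fst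
  cases c with
  | true => exact h3.prodMk h6
  | false => exact h5.prodMk h4

attribute [irreducible] stl

/-- The two lines come close until `t`. -/
def Clo (t r : ℝ) (z : Ph × Ph) : Prop :=
  ∃ s, 0 ≤ s ∧ s ≤ t ∧ ‖(KU.free s z.1).1 - (KU.free s z.2).1‖ ≤ r

/-- A chain of collisions with fresh lines, after which the two lines come close. -/
def CL (Φ : E3 → ℝ) (ε t r : ℝ) : (m : ℕ) → (Fin m → Bool × Bool) → Ph × Ph → (Fin m → Ph) → Prop
  | 0, _, z, _ => Clo t r z
  | m + 1, o, z, p => (Meets ε (act (o 0) z, p 0) ∧ 0 ≤ hitT ε (act (o 0) z, p 0) ∧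
      hitT ε (act (o 0) z, p 0) ≤ t) ∧ CL Φ ε t r m (Fin.tail o) (stl Φ ε (o 0) z (p 0)) (Fin.tail p)

theorem isClosed_clo (t r : ℝ) : IsClosed {z : Ph × Ph | Clo t r z} := by
  have h1 : IsClosed {x : Icc (0 : ℝ) t × (Ph × Ph) |
      ‖(KU.free x.1 x.2.1).1 - (KU.free x.1 x.2.2).1‖ ≤ r} := by
    refine isClosed_le ?_ continuous_const
    unfold KU.free
    fun_prop
  have h2 := isClosedMap_snd_of_compactSpace (X := Icc (0 : ℝ) t) (Y := Ph × Ph) _ h1
  have e : {z : Ph × Ph | Clo t r z} = Prod.snd '' {x : Icc (0 : ℝ) t × (Ph × Ph) |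
      ‖(KU.free x.1 x.2.1).1 - (KU.free x.1 x.2.2).1‖ ≤ r} := by
    ext z
    constructor
    · rintro ⟨s, h3, h4, h5⟩
      exact ⟨(⟨s, h3, h4⟩, z), h5, rfl⟩
    · rintro ⟨⟨s, z'⟩, h5, rfl⟩
      exact ⟨s.1, s.2.1, s.2.2, h5⟩
  rw [e]
  exact h2

theorem measurableSet_CL (hΦ : IsPotential Φ) (hε : ε ≠ 0) : ∀ (m : ℕ) (o : Fin m → Bool × Bool),
    MeasurableSet {x : (Ph × Ph) × (Fin m → Ph) | CL Φ ε t r m o x.1 x.2}
  | 0, o => measurable_fst (isClosed_clo t r).measurableSet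
  | m + 1, o => by
    have h0 : Measurable fun x : (Ph × Ph) × (Fin (m + 1) → Ph) => (act (o 0) x.1, x.2 0) :=
      ((measurable_act (o 0)).comp measurable_fst).prodMk
        ((measurable_pi_apply 0).comp measurable_snd)
    have h1 : MeasurableSet {x : (Ph × Ph) × (Fin (m + 1) → Ph) |
        Meets ε (act (o 0) x.1, x.2 0)} := h0 measurableSet_meets
    have hT : Measurable fun x : (Ph × Ph) × (Fin (m + 1) → Ph) =>
        hitT ε (act (o 0) x.1, x.2 0) := measurable_hitT.comp h0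
    have h2 : MeasurableSet {x : (Ph × Ph) × (Fin (m + 1) → Ph) |
        0 ≤ hitT ε (act (o 0) x.1, x.2 0)} := measurableSet_le measurable_const hT
    have h3 : MeasurableSet {x : (Ph × Ph) × (Fin (m + 1) → Ph) |
        hitT ε (act (o 0) x.1, x.2 0) ≤ t} := measurableSet_le hT measurable_const
    have h4 : Measurable fun x : (Ph × Ph) × (Fin (m + 1) → Ph) =>
        (stl Φ ε (o 0) x.1 (x.2 0), Fin.tail x.2) := by
      refine ((measurable_stl hΦ hε (o 0)).comp (measurable_fst.prodMk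
        ((measurable_pi_apply 0).comp measurable_snd))).prodMk ?_
      exact measurable_pi_iff.2 fun i => (measurable_pi_apply i.succ).comp measurable_snd
    exact (h1.inter (h2.inter h3)).inter (h4 (measurableSet_CL hΦ hε m (Fin.tail o)))

/-! ### The mass -/

/-- The mass of the chains. -/
def J (Φ : E3 → ℝ) (ε t r b : ℝ) (m : ℕ) (o : Fin m → Bool × Bool) (z : Ph × Ph) : ℝ≥0∞ :=
  ∫⁻ p : Fin m → Ph, FL.wt b ε m p * ind (CL Φ ε t r m o z p)

theorem measurable_J (hΦ : IsPotential Φ) (hε : ε ≠ 0) (m : ℕ) (o : Fin m → Bool × Bool) :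
    Measurable (J Φ ε t r b m o) := by
  have h : Measurable fun x : (Ph × Ph) × (Fin m → Ph) =>
      FL.wt b ε m x.2 * ind (CL Φ ε t r m o x.1 x.2) :=
    ((FL.measurable_wt b ε m).comp measurable_snd).mul
      (measurable_ind (measurableSet_CL hΦ hε m o))
  exact h.lintegral_prod_right'

theorem J_zero (o : Fin 0 → Bool × Bool) (z : Ph × Ph) :
    J Φ ε t r b 0 o z = ind (Clo t r z) := by
  unfold J
  have h : ∀ p : Fin 0 → Ph, FL.wt b ε 0 p * ind (CL Φ ε t r 0 o z p) = ind (Clo t r z) := by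
    intro p
    rw [FL.wt_zero, one_mul]
    rfl
  simp only [h]
  rw [lintegral_const, volume_pi]
  simp

/-- **One more collision.** -/
theorem J_succ (hΦ : IsPotential Φ) (hε : 0 < ε) (m : ℕ) (o : Fin (m + 1) → Bool × Bool)
    (z : Ph × Ph) : J Φ ε t r b (m + 1) o z =
      ∫⁻ q, ‖(act (o 0) z).2 - q.2.1‖ₑ * (PB.CT.g1 b q.2.1 * ind (0 ≤ q.1 ∧ q.1 ≤ t) *
        J Φ ε t r b m (Fin.tail o) (stl Φ ε (o 0) z (hl ε (act (o 0) z) q))) ∂nvol := by
  set ℓ : Ph := act (o 0) z with hℓ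
  have hJm := measurable_J (Φ := Φ) (t := t) (r := r) (b := b) hΦ hε.ne' m (Fin.tail o)
  set h : Ph → ℝ≥0∞ := fun l => PB.CT.g1 b l.2 * ind (0 ≤ hitT ε (ℓ, l) ∧ hitT ε (ℓ, l) ≤ t) *
    J Φ ε t r b m (Fin.tail o) (stl Φ ε (o 0) z l) with hh
  have hT : Measurable fun l : Ph => hitT ε (ℓ, l) := measurable_hitT.comp (by fun_prop)
  have hi : Measurable fun l : Ph => ind (0 ≤ hitT ε (ℓ, l) ∧ hitT ε (ℓ, l) ≤ t) :=
    measurable_ind ((measurableSet_le measurable_const hT).inter
      (measurableSet_le hT measurable_const))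
  have hst : Measurable fun l : Ph => stl Φ ε (o 0) z l :=
    (measurable_stl hΦ hε.ne' (o 0)).comp (measurable_const.prodMk measurable_id)
  have hhm : Measurable h := ((PB.CT.measurable_g1 b).mul hi).mul (hJm.comp hst)
  have hF : Measurable fun p : Fin (m + 1) → Ph => FL.wt b ε (m + 1) p *
      ind (CL Φ ε t r (m + 1) o z p) :=
    (FL.measurable_wt b ε (m + 1)).mul (measurable_ind
      ((measurable_const.prodMk measurable_id : Measurable fun p : Fin (m + 1) → Ph => (z, p))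
        (measurableSet_CL hΦ hε.ne' (m + 1) o)))
  have h1 : J Φ ε t r b (m + 1) o z = ∫⁻ l : Ph, FL.muE ε * {l | Meets ε (ℓ, l)}.indicator h l := by
    unfold J
    rw [FL.lintegral_cons hF]
    refine lintegral_congr fun l => ?_
    have h2 : ∀ p : Fin m → Ph, FL.wt b ε (m + 1) (Fin.cons l p) *
        ind (CL Φ ε t r (m + 1) o z (Fin.cons l p)) =
        (FL.muE ε * ({l | Meets ε (ℓ, l)}.indicator (fun l => PB.CT.g1 b l.2 *
          ind (0 ≤ hitT ε (ℓ, l) ∧ hitT ε (ℓ, l) ≤ t)) l)) *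
          (FL.wt b ε m p * ind (CL Φ ε t r m (Fin.tail o) (stl Φ ε (o 0) z l) p)) := by
      intro p
      rw [FL.wt_cons]
      have h3 : CL Φ ε t r (m + 1) o z (Fin.cons l p) ↔ (Meets ε (ℓ, l) ∧
          (0 ≤ hitT ε (ℓ, l) ∧ hitT ε (ℓ, l) ≤ t)) ∧
            CL Φ ε t r m (Fin.tail o) (stl Φ ε (o 0) z l) p := by
        change (Meets ε (act (o 0) z, (Fin.cons l p : Fin (m + 1) → Ph) 0) ∧
          0 ≤ hitT ε (act (o 0) z, (Fin.cons l p : Fin (m + 1) → Ph) 0) ∧
          hitT ε (act (o 0) z, (Fin.cons l p : Fin (m + 1) → Ph) 0) ≤ t) ∧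
          CL Φ ε t r m (Fin.tail o) (stl Φ ε (o 0) z ((Fin.cons l p : Fin (m + 1) → Ph) 0))
            (Fin.tail (Fin.cons l p : Fin (m + 1) → Ph)) ↔ _
        rw [Fin.cons_zero, Fin.tail_cons]
      rw [ind_congr h3, ind_and, ind_and]
      by_cases hM : Meets ε (ℓ, l)
      · rw [ind_of_true hM, indicator_of_mem (by exact hM)]
        unfold PB.CT.g1
        ring
      · rw [ind_of_false hM, indicator_of_notMem (by exact hM)]
        ring
    simp only [h2]
    have h4 : Measurable fun p : Fin m → Ph => FL.wt b ε m p *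
        ind (CL Φ ε t r m (Fin.tail o) (stl Φ ε (o 0) z l) p) :=
      (FL.measurable_wt b ε m).mul (measurable_ind
        ((measurable_const.prodMk measurable_id : Measurable fun p : Fin m → Ph =>
          (stl Φ ε (o 0) z l, p)) (measurableSet_CL hΦ hε.ne' m (Fin.tail o))))
    rw [lintegral_const_mul _ h4]
    by_cases hM : Meets ε (ℓ, l)
    · rw [indicator_of_mem (by exact hM), indicator_of_mem (by exact hM), hh]
      simp only
      unfold J
      ring
    · rw [indicator_of_notMem (by exact hM), indicator_of_notMem (by exact hM), mul_zero, zero_mul]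
  rw [h1, lintegral_const_mul' _ _ FL.muE_ne_top, lintegral_meets hε ℓ hhm, ← mul_assoc,
    FL.muE_mul hε, one_mul]
  refine lintegral_congr fun q => ?_
  by_cases hv : ℓ.2 - q.2.1 = 0
  · rw [hv, enorm_zero, zero_mul, zero_mul]
  · rw [hh]
    simp only
    rw [hl_snd, hitT_hl hε.ne' ℓ hv]

/-! ### Germs -/

/-- The outgoing line of a collision with the line `hl`, for germs. -/
def oG (Φ : E3 → ℝ) : Bool → LG → ND → LG
  | true, ℓ, q => (tilt ℓ.1 q.1 (dsp (scat Φ) 1 ℓ.1.2 q.2.1 q.2.2),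
      ℓ.2 + (2 : ℝ)⁻¹ • (half (outRel ℓ.1.2 q) • (ℓ.1.2 - q.2.1) - (outRel ℓ.1.2 q).1 +
        ((scat Φ (outRel ℓ.1.2 q)).1 - half (outRel ℓ.1.2 q) • (scat Φ (outRel ℓ.1.2 q)).2)))
  | false, ℓ, q => (tilt ℓ.1 q.1 (dsp (scat Φ) (-1) ℓ.1.2 q.2.1 q.2.2),
      ℓ.2 + (2 : ℝ)⁻¹ • (half (outRel ℓ.1.2 q) • (ℓ.1.2 - q.2.1) - (outRel ℓ.1.2 q).1 -
        ((scat Φ (outRel ℓ.1.2 q)).1 - half (outRel ℓ.1.2 q) • (scat Φ (outRel ℓ.1.2 q)).2)))

theorem rel_hl (hε : ε ≠ 0) (ℓ : Ph) (q : ND) :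
    KU.rel ε (ℓ, hl ε ℓ q) = KU.free (-(q.1 / ε + half (outRel ℓ.2 q))) (outRel ℓ.2 q) := by
  have h : outRel ℓ.2 (hq ε ℓ.2 q) = outRel ℓ.2 q := outRel_congr _ _ _ _
  unfold hl
  rw [rel_exLine' hε, h]
  congr 1
  unfold hq
  simp only
  field_simp

theorem ov_outRel (v : E3) (q : ND) : ov (scat Φ) (v - q.2.1) q.2.2 = (scat Φ (outRel v q)).2 := by
  unfold ov
  have h : outRel v q = (fr (v - q.2.1) q.2.2, v - q.2.1) := by
    ext1
    · exact outRel_fst v q
    · exact outRel_snd v q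
  rw [h]

/-- **A collision with `hl` is affine in `ε`.** -/
theorem outl_hl (hΦ : IsPotential Φ) (hε : ε ≠ 0) (o : Bool) (ℓ : LG) (q : ND) :
    outl Φ ε o (lat ε ℓ) (hl ε (lat ε ℓ) q) = lat ε (oG Φ o ℓ q) := by
  have h1 : KU.rel ε (lat ε ℓ, hl ε (lat ε ℓ) q) =
      KU.free (-(q.1 / ε + half (outRel ℓ.1.2 q))) (outRel ℓ.1.2 q) := rel_hl hε (lat ε ℓ) q
  have h2 : scat Φ (KU.rel ε (lat ε ℓ, hl ε (lat ε ℓ) q)) =
      KU.free (-(q.1 / ε + half (outRel ℓ.1.2 q))) (scat Φ (outRel ℓ.1.2 q)) := by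
    rw [h1, scat_free hΦ]
  have h3 : (hl ε (lat ε ℓ) q).1 = ℓ.1.1 + ε • ℓ.2 + q.1 • (ℓ.1.2 - q.2.1) +
      ε • (half (outRel ℓ.1.2 q) • (ℓ.1.2 - q.2.1) - (outRel ℓ.1.2 q).1) := by
    rw [hl_fst]; rfl
  have h4 : (hl ε (lat ε ℓ) q).2 = q.2.1 := hl_snd _ _ _
  have h5 : ov (scat Φ) (ℓ.1.2 - q.2.1) q.2.2 = (scat Φ (outRel ℓ.1.2 q)).2 := ov_outRel _ _
  have h6 : ∀ x : E3, ε • ((-(q.1 / ε + half (outRel ℓ.1.2 q))) • x) =
      -(q.1 • x) - ε • (half (outRel ℓ.1.2 q) • x) := by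
    intro x
    rw [smul_smul, smul_smul, ← neg_smul, ← sub_smul]
    congr 1
    field_simp
    ring
  generalize hl ε (lat ε ℓ) q = l' at h2 h3 h4
  obtain ⟨l1, l2⟩ := l'
  simp only at h3 h4
  subst h3 h4
  set R := scat Φ (outRel ℓ.1.2 q) with hR
  set h := half (outRel ℓ.1.2 q) with hh
  cases o with
  | true =>
    rw [outl_true]
    unfold sc2
    rw [h2]
    unfold mk2 com oG lat tilt KU.free
    simp only [dsp_def, h5, smul_add, h6]
    ext1
    · simp only; module
    · simp only; module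
  | false =>
    rw [outl_false]
    unfold sc2
    rw [h2]
    unfold mk2 com oG lat tilt KU.free
    simp only [dsp_def, h5, smul_add, h6]
    ext1
    · simp only; module
    · simp only; module

/-- A collision of a pair of germs with a fresh line. -/
def stG (Φ : E3 → ℝ) : Bool × Bool → LG × LG → ND → LG × LG
  | (true, o), z, q => (oG Φ o z.1 q, z.2)
  | (false, o), z, q => (z.1, oG Φ o z.2 q)

theorem stG_true (o : Bool) (z : LG × LG) (q : ND) :
    stG Φ (true, o) z q = (oG Φ o z.1 q, z.2) := rfl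

theorem stG_false (o : Bool) (z : LG × LG) (q : ND) :
    stG Φ (false, o) z q = (z.1, oG Φ o z.2 q) := rfl

/-- The pair of lines of a pair of germs. -/
def latP (ε : ℝ) (z : LG × LG) : Ph × Ph := (lat ε z.1, lat ε z.2)

theorem latP_fst (z : LG × LG) : (latP ε z).1 = lat ε z.1 := rfl

theorem latP_snd (z : LG × LG) : (latP ε z).2 = lat ε z.2 := rfl

/-- **A collision of a pair of germs with `hl`.** -/
theorem stl_hl (hΦ : IsPotential Φ) (hε : ε ≠ 0) (k : Bool × Bool) (z : LG × LG) (q : ND) :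
    stl Φ ε k (latP ε z) (hl ε (act k (latP ε z)) q) = latP ε (stG Φ k z q) := by
  obtain ⟨c, o⟩ := k
  cases c with
  | true =>
    rw [stl_true, act_true, stG_true]
    unfold latP
    simp only
    rw [outl_hl hΦ hε]
  | false =>
    rw [stl_false, act_false, stG_false]
    unfold latP
    simp only
    rw [outl_hl hΦ hε]

end Vale.Agent.P119.KT
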