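import Vale.Agent.P119.KT.Tree
import Vale.Agent.P119.KT.Iso

/-!
# P119, block KT (`helper256`): kinetic trees do not meet

At `ε = 0` every line of a tree except the root is a tilted line (`tilt`), and its displacement is
generic.  For almost all parameters a line which does not meet the root line before time `T` meets
no leg of the tree before `T` and never meets an exhaust; the same for two trees; and the
two subtrees of a node do not meet before the node.
-/

open MeasureTheory Filter Topology Set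
open scoped ENNReal NNReal RealInnerProductSpace

noncomputable section

namespace Vale.Agent.P119.KT

open Vale.Agent.P119.KU
open Vale.Agent.P119.M (Shape)

variable {Φ : E3 → ℝ}

theorem inRel_snd (v : E3) (q : ND) : (inRel Φ v q).2 = ov (scatI Φ) (v - q.2.1) q.2.2 := by
  rw [inRel_def]
  unfold outRel ov
  rfl

/-- At `ε = 0` the incoming lines are tilted lines. -/
theorem inLines_zero (L : Ph) (q : ND) : inLines Φ 0 L q =
    (tilt L q.1 (dsp (scatI Φ) 1 L.2 q.2.1 q.2.2), tilt L q.1 (dsp (scatI Φ) (-1) L.2 q.2.1 q.2.2)) := by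
  rw [inLines_def, inVel_def, outRel_snd, inRel_snd, dsp_def, dsp_def]
  generalize ov (scatI Φ) (L.2 - q.2.1) q.2.2 = W
  unfold tilt
  simp only [zero_div, zero_smul, add_zero, sub_zero]
  ext1
  · ext1
    · simp only; module
    · simp only; module
  · ext1
    · simp only; module
    · simp only; module

/-- At `ε = 0` the exhaust is a tilted line. -/
theorem exLine_zero (L : Ph) (q : ND) : exLine 0 L q = tilt L q.1 (L.2 - q.2.1) := by
  rw [exLine_def, outRel_snd]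
  unfold tilt
  simp only [zero_smul, zero_sub, sub_neg_eq_add, sub_sub_cancel]

/-- The two lines do not meet before `T`. -/
def nm (T : ℝ) (α β : Ph) : Prop := ∀ σ < T, ¬meetAt α β σ

/-- The two lines never meet. -/
def nev (α β : Ph) : Prop := ∀ σ, ¬meetAt α β σ

theorem nm_comm {T : ℝ} {α β : Ph} : nm T α β ↔ nm T β α := by
  unfold nm; simp only [meetAt_comm (α := α)]

theorem nev_comm {α β : Ph} : nev α β ↔ nev β α := by
  unfold nev; simp only [meetAt_comm (α := α)]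

theorem nev.nm {T : ℝ} {α β : Ph} (h : nev α β) : nm T α β := fun σ _ => h σ

theorem nm.mono {T T' : ℝ} {α β : Ph} (h : nm T α β) (hT : T' ≤ T) : nm T' α β :=
  fun σ hσ => h σ (hσ.trans_le hT)

theorem meetAt_iff (α β : Ph) (σ : ℝ) :
    meetAt α β σ ↔ (α.1 - β.1) + σ • (α.2 - β.2) = 0 := by
  unfold meetAt free
  simp only
  rw [← sub_eq_zero]
  constructor
  · intro h; rw [← h]; module
  · intro h; rw [← h]; module

/-- The only possible time of a meeting. -/
def mt (α β : Ph) : ℝ := -(inner ℝ (α.1 - β.1) (α.2 - β.2) : ℝ) / ‖α.2 - β.2‖ ^ 2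

theorem eq_mt {α β : Ph} {σ : ℝ} (hv : α.2 - β.2 ≠ 0) (h : meetAt α β σ) : σ = mt α β := by
  rw [meetAt_iff] at h
  have h1 : (α.1 - β.1) = -(σ • (α.2 - β.2)) := eq_neg_of_add_eq_zero_left h
  have h2 : ‖α.2 - β.2‖ ^ 2 ≠ 0 := by
    have := norm_ne_zero_iff.2 hv; positivity
  unfold mt
  rw [h1, inner_neg_left, real_inner_smul_left, real_inner_self_eq_norm_sq, neg_neg,
    mul_div_assoc, div_self h2, mul_one]

theorem nm_iff {T : ℝ} {α β : Ph} : nm T α β ↔
    ¬(α.2 - β.2 = 0 ∧ α.1 - β.1 = 0) ∧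
      ¬(α.2 - β.2 ≠ 0 ∧ (α.1 - β.1) + mt α β • (α.2 - β.2) = 0 ∧ mt α β < T) := by
  constructor
  · intro h
    refine ⟨fun h1 => ?_, fun h1 => ?_⟩
    · refine h (T - 1) (by linarith) ?_
      rw [meetAt_iff, h1.1, h1.2]; simp
    · exact h _ h1.2.2 ((meetAt_iff α β _).2 h1.2.1)
  · rintro ⟨h1, h2⟩ σ hσ h
    by_cases hv : α.2 - β.2 = 0
    · rw [meetAt_iff, hv, smul_zero, add_zero] at h
      exact h1 ⟨hv, h⟩
    · have h3 := eq_mt hv h
      rw [h3] at h hσ
      exact h2 ⟨hv, (meetAt_iff α β _).1 h, hσ⟩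

theorem nev_iff {α β : Ph} : nev α β ↔
    ¬(α.2 - β.2 = 0 ∧ α.1 - β.1 = 0) ∧
      ¬(α.2 - β.2 ≠ 0 ∧ (α.1 - β.1) + mt α β • (α.2 - β.2) = 0) := by
  constructor
  · intro h
    refine ⟨fun h1 => ?_, fun h1 => ?_⟩
    · refine h 0 ?_
      rw [meetAt_iff, h1.1, h1.2]; simp
    · exact h _ ((meetAt_iff α β _).2 h1.2)
  · rintro ⟨h1, h2⟩ σ h
    by_cases hv : α.2 - β.2 = 0
    · rw [meetAt_iff, hv, smul_zero, add_zero] at h
      exact h1 ⟨hv, h⟩
    · have h3 := eq_mt hv h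
      rw [h3] at h
      exact h2 ⟨hv, (meetAt_iff α β _).1 h⟩

theorem measurable_mt : Measurable fun x : Ph × Ph => mt x.1 x.2 := by unfold mt; fun_prop

theorem measurableSet_nm : MeasurableSet {x : ℝ × Ph × Ph | nm x.1 x.2.1 x.2.2} := by
  simp only [nm_iff]
  have h1 : Measurable fun x : ℝ × Ph × Ph => x.2.1.2 - x.2.2.2 := by fun_prop
  have h2 : Measurable fun x : ℝ × Ph × Ph => x.2.1.1 - x.2.2.1 := by fun_prop
  have h3 : Measurable fun x : ℝ × Ph × Ph => mt x.2.1 x.2.2 :=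
    measurable_mt.comp measurable_snd
  have m1 : MeasurableSet {x : ℝ × Ph × Ph | x.2.1.2 - x.2.2.2 = 0} :=
    h1 (measurableSet_singleton 0)
  have m2 : MeasurableSet {x : ℝ × Ph × Ph | x.2.1.1 - x.2.2.1 = 0} :=
    h2 (measurableSet_singleton 0)
  have m3 : MeasurableSet {x : ℝ × Ph × Ph |
      (x.2.1.1 - x.2.2.1) + mt x.2.1 x.2.2 • (x.2.1.2 - x.2.2.2) = 0} :=
    (h2.add (h3.smul h1)) (measurableSet_singleton 0)
  have m4 : MeasurableSet {x : ℝ × Ph × Ph | mt x.2.1 x.2.2 < x.1} :=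
    measurableSet_lt h3 measurable_fst
  exact ((m1.inter m2).compl).inter ((m1.compl.inter (m3.inter m4)).compl)

theorem measurableSet_nev : MeasurableSet {x : Ph × Ph | nev x.1 x.2} := by
  simp only [nev_iff]
  have h1 : Measurable fun x : Ph × Ph => x.1.2 - x.2.2 := by fun_prop
  have h2 : Measurable fun x : Ph × Ph => x.1.1 - x.2.1 := by fun_prop
  have m1 : MeasurableSet {x : Ph × Ph | x.1.2 - x.2.2 = 0} := h1 (measurableSet_singleton 0)
  have m2 : MeasurableSet {x : Ph × Ph | x.1.1 - x.2.1 = 0} := h2 (measurableSet_singleton 0)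
  have m3 : MeasurableSet {x : Ph × Ph | (x.1.1 - x.2.1) + mt x.1 x.2 • (x.1.2 - x.2.2) = 0} :=
    (h2.add (measurable_mt.smul h1)) (measurableSet_singleton 0)
  exact ((m1.inter m2).compl).inter ((m1.compl.inter m3).compl)

/-- One node: the incoming lines and the exhaust of a generic node on `L` do not meet `α`. -/
theorem ae_node (hΦ : IsPotential Φ) {α L : Ph} {T : ℝ} (h : nm T α L) :
    ∀ᵐ q ∂nvol, q.1 < T → nm T α (inLines Φ 0 L q).1 ∧ nm T α (inLines Φ 0 L q).2 ∧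
      nev α (exLine 0 L q) := by
  have hS : Cov (scatI Φ) := cov_scatI hΦ
  -- the three displacements are generic
  have key : ∀ᵐ q : ND,
      (dsp (scatI Φ) 1 L.2 q.2.1 q.2.2 = 0 ∨ dsp (scatI Φ) 1 L.2 q.2.1 q.2.2 ∉
        aff (L.2 - α.2) ((free q.1 L).1 - (free q.1 α).1)) ∧
      (dsp (scatI Φ) (-1) L.2 q.2.1 q.2.2 = 0 ∨ dsp (scatI Φ) (-1) L.2 q.2.1 q.2.2 ∉
        aff (L.2 - α.2) ((free q.1 L).1 - (free q.1 α).1)) ∧
      L.2 - q.2.1 ∉ aff (L.2 - α.2) ((free q.1 L).1 - (free q.1 α).1) := by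
    have hd : ∀ κ : ℝ, Measurable fun q : ND => dsp (scatI Φ) κ L.2 q.2.1 q.2.2 := fun κ =>
      (measurable_dsp hS κ).comp ((measurable_const.prodMk measurable_snd :
        Measurable fun q : ND => ((L.2, q.2) : E3 × E3 × E2)))
    have he : Measurable fun q : ND => (free q.1 L).1 - (free q.1 α).1 := by
      unfold free; fun_prop
    have hmem : ∀ D : ND → E3, Measurable D → MeasurableSet {q : ND | D q ∈
        aff (L.2 - α.2) ((free q.1 L).1 - (free q.1 α).1)} := fun D hD =>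
      (hD.prodMk (measurable_const.prodMk he)) measurableSet_aff'
    have m1 : ∀ κ : ℝ, MeasurableSet {q : ND | dsp (scatI Φ) κ L.2 q.2.1 q.2.2 = 0 ∨
        dsp (scatI Φ) κ L.2 q.2.1 q.2.2 ∉
        aff (L.2 - α.2) ((free q.1 L).1 - (free q.1 α).1)} := fun κ =>
      ((hd κ) (measurableSet_singleton 0)).union (hmem _ (hd κ)).compl
    have m2 : MeasurableSet {q : ND | L.2 - q.2.1 ∉
        aff (L.2 - α.2) ((free q.1 L).1 - (free q.1 α).1)} :=
      (hmem _ (by fun_prop)).compl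
    have hset := (m1 1).inter ((m1 (-1)).inter m2)
    have h1 : ∀ s : ℝ, ∀ᵐ x : E3 × E2,
        (dsp (scatI Φ) 1 L.2 x.1 x.2 = 0 ∨ dsp (scatI Φ) 1 L.2 x.1 x.2 ∉
          aff (L.2 - α.2) ((free s L).1 - (free s α).1)) ∧
        (dsp (scatI Φ) (-1) L.2 x.1 x.2 = 0 ∨ dsp (scatI Φ) (-1) L.2 x.1 x.2 ∉
          aff (L.2 - α.2) ((free s L).1 - (free s α).1)) ∧
        L.2 - x.1 ∉ aff (L.2 - α.2) ((free s L).1 - (free s α).1) := by
      intro s
      have h2 := ae_dsp hS (Or.inl rfl) L.2 (L.2 - α.2) ((free s L).1 - (free s α).1)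
      have h3 := ae_dsp hS (Or.inr rfl) L.2 (L.2 - α.2) ((free s L).1 - (free s α).1)
      have h4 : ∀ᵐ x : E3 × E2, L.2 - x.1 ∉ aff (L.2 - α.2) ((free s L).1 - (free s α).1) :=
        (Measure.quasiMeasurePreserving_fst (μ := (volume : Measure E3))
          (ν := (volume : Measure E2))).ae (ae_notMem_aff L.2 _ _)
      filter_upwards [h2, h3, h4] with x a b c
      exact ⟨a, b, c⟩
    exact (Measure.ae_prod_iff_ae_ae (μ := (volume : Measure ℝ))
      (ν := (volume : Measure (E3 × E2))) hset).2 (Eventually.of_forall h1)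
  unfold nvol
  refine ae_restrict_of_ae ?_
  filter_upwards [key] with q hq hT
  obtain ⟨h1, h2, h3⟩ := hq
  have step : ∀ D : E3, (D = 0 ∨ D ∉ aff (L.2 - α.2) ((free q.1 L).1 - (free q.1 α).1)) →
      nm T α (tilt L q.1 D) := by
    intro D hD σ hσ hm
    by_cases hσq : σ = q.1
    · rw [hσq, meetAt_tilt_self] at hm
      exact h q.1 hT hm
    · rcases hD with hD | hD
      · rw [hD, tilt_zero] at hm
        exact h σ hσ hm
      · exact hD (mem_aff_of_meetAt hσq hm)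
  rw [inLines_zero, exLine_zero]
  refine ⟨step _ h1, step _ h2, fun σ hm => ?_⟩
  by_cases hσq : σ = q.1
  · rw [hσq, meetAt_tilt_self] at hm
    exact h q.1 hT hm
  · exact h3 (mem_aff_of_meetAt hσq hm)

/-! ### Trees -/

/-- `α` meets no leg of the tree before `T` and never an exhaust. -/
def Av (Φ : E3 → ℝ) (α : Ph) (T : ℝ) : (τ : Shape) → Ph → PD τ → Prop
  | .leaf, L, _ => nm T α L
  | .node a b, L, p => (nm T α L ∧ nev α (exLine 0 L p.1)) ∧
      Av Φ α T a (inLines Φ 0 L p.1).1 p.2.1 ∧ Av Φ α T b (inLines Φ 0 L p.1).2 p.2.2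

/-- The times of the nodes are before `T`. -/
def Bef (T : ℝ) : (τ : Shape) → PD τ → Prop
  | .leaf, _ => True
  | .node a b, p => p.1.1 < T ∧ Bef T a p.2.1 ∧ Bef T b p.2.2

theorem measurableSet_bef : ∀ τ : Shape, MeasurableSet {x : ℝ × PD τ | Bef x.1 τ x.2}
  | .leaf => MeasurableSet.univ
  | .node a b => by
    have h1 : MeasurableSet {x : ℝ × ND × PD a × PD b | x.2.1.1 < x.1} :=
      measurableSet_lt (by fun_prop) (by fun_prop)
    have h2 : Measurable fun x : ℝ × ND × PD a × PD b => (x.1, x.2.2.1) := by fun_prop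
    have h3 : Measurable fun x : ℝ × ND × PD a × PD b => (x.1, x.2.2.2) := by fun_prop
    exact h1.inter ((h2 (measurableSet_bef a)).inter (h3 (measurableSet_bef b)))

theorem Av.root {α L : Ph} {T : ℝ} {τ : Shape} {p : PD τ} (h : Av Φ α T τ L p) : nm T α L := by
  cases τ with
  | leaf => exact h
  | node a b => exact h.1.1

/-- The type of the data (external line, time, root line, parameters). -/
abbrev AX (τ : Shape) := Ph × ℝ × Ph × PD τ

theorem measurableSet_av (hΦ : IsPotential Φ) : ∀ τ : Shape,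
    MeasurableSet {x : AX τ | Av Φ x.1 x.2.1 τ x.2.2.1 x.2.2.2}
  | .leaf => by
    have h : Measurable fun x : Ph × ℝ × Ph × Unit => (x.2.1, x.1, x.2.2.1) := by fun_prop
    exact h measurableSet_nm
  | .node a b => by
    have h1 : Measurable fun x : Ph × ℝ × Ph × ND × PD a × PD b => (x.2.1, x.1, x.2.2.1) := by
      fun_prop
    have h2 : Measurable fun x : Ph × ℝ × Ph × ND × PD a × PD b => (x.2.2.1, x.2.2.2.1) := by
      fun_prop
    have h3 : Measurable fun x : Ph × ℝ × Ph × ND × PD a × PD b =>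
        (x.1, exLine 0 x.2.2.1 x.2.2.2.1) :=
      measurable_fst.prodMk ((measurable_exLine 0).comp h2)
    have h4 := (measurable_inLines hΦ 0).comp h2
    have h5 : Measurable fun x : Ph × ℝ × Ph × ND × PD a × PD b =>
        (x.1, x.2.1, (inLines Φ 0 x.2.2.1 x.2.2.2.1).1, x.2.2.2.2.1) :=
      measurable_fst.prodMk ((measurable_fst.comp measurable_snd).prodMk
        (h4.fst.prodMk (by fun_prop)))
    have h6 : Measurable fun x : Ph × ℝ × Ph × ND × PD a × PD b =>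
        (x.1, x.2.1, (inLines Φ 0 x.2.2.1 x.2.2.2.1).2, x.2.2.2.2.2) :=
      measurable_fst.prodMk ((measurable_fst.comp measurable_snd).prodMk
        (h4.snd.prodMk (by fun_prop)))
    exact ((h1 measurableSet_nm).inter (h3 measurableSet_nev)).inter
      ((h5 (measurableSet_av hΦ a)).inter (h6 (measurableSet_av hΦ b)))

/-- **Theorem (X).** A line which does not meet the root line before `T` meets no leg before `T`
and never an exhaust, for almost all parameters with node times before `T`. -/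
theorem ae_av (hΦ : IsPotential Φ) {α : Ph} {T : ℝ} : ∀ (τ : Shape) {L : Ph}, nm T α L →
    ∀ᵐ p ∂pvol τ, Bef T τ p → Av Φ α T τ L p
  | .leaf, L, h => Eventually.of_forall fun _ _ => h
  | .node a b, L, h => by
    have hset : MeasurableSet {p : ND × PD a × PD b | Bef T (.node a b) p →
        Av Φ α T (.node a b) L p} := by
      have h1 : Measurable fun p : ND × PD a × PD b => (T, p) := by fun_prop
      have h2 : Measurable fun p : ND × PD a × PD b => (α, T, L, p) := by fun_prop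
      have h3 : MeasurableSet {p : ND × PD a × PD b | Bef T (.node a b) p} :=
        h1 (measurableSet_bef (.node a b))
      have h4 : MeasurableSet {p : ND × PD a × PD b | Av Φ α T (.node a b) L p} :=
        h2 (measurableSet_av hΦ (.node a b))
      have h5 : {p : ND × PD a × PD b | Bef T (.node a b) p → Av Φ α T (.node a b) L p} =
          {p : ND × PD a × PD b | Bef T (.node a b) p}ᶜ ∪
            {p : ND × PD a × PD b | Av Φ α T (.node a b) L p} := by
        ext p; exact imp_iff_not_or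
      rw [h5]
      exact h3.compl.union h4
    refine (Measure.ae_prod_iff_ae_ae (μ := nvol) (ν := (pvol a).prod (pvol b)) hset).2 ?_
    filter_upwards [ae_node hΦ h] with q hq
    by_cases hqT : q.1 < T
    · obtain ⟨h1, h2, h3⟩ := hq hqT
      have ha := ae_av hΦ a h1
      have hb := ae_av hΦ b h2
      have ha' := (Measure.quasiMeasurePreserving_fst (μ := pvol a) (ν := pvol b)).ae ha
      have hb' := (Measure.quasiMeasurePreserving_snd (μ := pvol a) (ν := pvol b)).ae hb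
      filter_upwards [ha', hb'] with p hpa hpb hbef
      exact ⟨⟨h, h3⟩, hpa hbef.2.1, hpb hbef.2.2⟩
    · exact Eventually.of_forall fun p hbef => absurd hbef.1 hqT

/-- A property holds for all the lines of a tree (legs and exhausts). -/
def AllL (Φ : E3 → ℝ) (Q : Ph → Prop) : (τ : Shape) → Ph → PD τ → Prop
  | .leaf, L, _ => Q L
  | .node a b, L, p => (Q L ∧ Q (exLine 0 L p.1)) ∧
      AllL Φ Q a (inLines Φ 0 L p.1).1 p.2.1 ∧ AllL Φ Q b (inLines Φ 0 L p.1).2 p.2.2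

theorem AllL.mono {Q R : Ph → Prop} (hQR : ∀ α, Q α → R α) : ∀ {τ : Shape} {L : Ph} {p : PD τ},
    AllL Φ Q τ L p → AllL Φ R τ L p
  | .leaf, _, _, h => hQR _ h
  | .node _ _, _, _, h => ⟨⟨hQR _ h.1.1, hQR _ h.1.2⟩, h.2.1.mono hQR, h.2.2.mono hQR⟩

theorem AllL.root {Q : Ph → Prop} {τ : Shape} {L : Ph} {p : PD τ} (h : AllL Φ Q τ L p) : Q L := by
  cases τ with
  | leaf => exact h
  | node a b => exact h.1.1

theorem Av.allL {α : Ph} {T : ℝ} : ∀ {τ : Shape} {L : Ph} {p : PD τ}, Av Φ α T τ L p →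
    AllL Φ (fun β => nm T β α) τ L p
  | .leaf, _, _, h => nm_comm.1 h
  | .node _ _, _, _, h => ⟨⟨nm_comm.1 h.1.1, (nev_comm.1 h.1.2).nm⟩, h.2.1.allL, h.2.2.allL⟩

theorem Av.mono {α : Ph} {T T' : ℝ} (hT : T' ≤ T) : ∀ {τ : Shape} {L : Ph} {p : PD τ},
    Av Φ α T τ L p → Av Φ α T' τ L p
  | .leaf, _, _, h => nm.mono h hT
  | .node _ _, _, _, h => ⟨⟨h.1.1.mono hT, h.1.2⟩, h.2.1.mono hT, h.2.2.mono hT⟩

theorem measurableSet_allL (hΦ : IsPotential Φ) {X : Type*} [MeasurableSpace X] {Q : X → Ph → Prop}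
    (hQ : MeasurableSet {x : X × Ph | Q x.1 x.2}) : ∀ τ : Shape,
    MeasurableSet {x : X × Ph × PD τ | AllL Φ (Q x.1) τ x.2.1 x.2.2}
  | .leaf => by
    have h : Measurable fun x : X × Ph × Unit => (x.1, x.2.1) := by fun_prop
    exact h hQ
  | .node a b => by
    have h1 : Measurable fun x : X × Ph × ND × PD a × PD b => (x.1, x.2.1) := by fun_prop
    have h2 : Measurable fun x : X × Ph × ND × PD a × PD b => (x.2.1, x.2.2.1) := by fun_prop
    have h3 : Measurable fun x : X × Ph × ND × PD a × PD b => (x.1, exLine 0 x.2.1 x.2.2.1) :=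
      measurable_fst.prodMk ((measurable_exLine 0).comp h2)
    have h4 := (measurable_inLines hΦ 0).comp h2
    have h5 : Measurable fun x : X × Ph × ND × PD a × PD b =>
        (x.1, (inLines Φ 0 x.2.1 x.2.2.1).1, x.2.2.2.1) :=
      measurable_fst.prodMk (h4.fst.prodMk (by fun_prop))
    have h6 : Measurable fun x : X × Ph × ND × PD a × PD b =>
        (x.1, (inLines Φ 0 x.2.1 x.2.2.1).2, x.2.2.2.2) :=
      measurable_fst.prodMk (h4.snd.prodMk (by fun_prop))
    exact ((h1 hQ).inter (h3 hQ)).inter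
      ((h5 (measurableSet_allL hΦ hQ a)).inter (h6 (measurableSet_allL hΦ hQ b)))

theorem ae_allL {X : Type*} [MeasurableSpace X] {μ : Measure X} {R : Ph → X → Prop} :
    ∀ {τ : Shape} {L : Ph} {p : PD τ}, AllL Φ (fun α => ∀ᵐ x ∂μ, R α x) τ L p →
      ∀ᵐ x ∂μ, AllL Φ (fun α => R α x) τ L p
  | .leaf, _, _, h => h
  | .node _ _, _, _, h => by
    filter_upwards [h.1.1, h.1.2, ae_allL h.2.1, ae_allL h.2.2] with x h1 h2 h3 h4
    exact ⟨⟨h1, h2⟩, h3, h4⟩

/-- The lines of the first tree avoid the second tree. -/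
def Half (Φ : E3 → ℝ) (T : ℝ) (τ₁ : Shape) (L₁ : Ph) (p₁ : PD τ₁) (τ₂ : Shape) (L₂ : Ph)
    (p₂ : PD τ₂) : Prop :=
  AllL Φ (fun α => Av Φ α T τ₂ L₂ p₂) τ₁ L₁ p₁

/-- Two trees are apart: legs do not meet before `T`, an exhaust never meets a line of the other
tree. -/
def Apart (Φ : E3 → ℝ) (T : ℝ) (τ₁ : Shape) (L₁ : Ph) (p₁ : PD τ₁) (τ₂ : Shape) (L₂ : Ph)
    (p₂ : PD τ₂) : Prop :=
  Half Φ T τ₁ L₁ p₁ τ₂ L₂ p₂ ∧ Half Φ T τ₂ L₂ p₂ τ₁ L₁ p₁

theorem measurableSet_half (hΦ : IsPotential Φ) (τ₁ τ₂ : Shape) :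
    MeasurableSet {x : ℝ × (Ph × PD τ₁) × (Ph × PD τ₂) |
      Half Φ x.1 τ₁ x.2.1.1 x.2.1.2 τ₂ x.2.2.1 x.2.2.2} := by
  have h1 : MeasurableSet {x : (ℝ × Ph × PD τ₂) × Ph | Av Φ x.2 x.1.1 τ₂ x.1.2.1 x.1.2.2} := by
    have h2 : Measurable fun x : (ℝ × Ph × PD τ₂) × Ph => (x.2, x.1.1, x.1.2.1, x.1.2.2) := by
      fun_prop
    exact h2 (measurableSet_av hΦ τ₂)
  have h2 := measurableSet_allL hΦ (X := ℝ × Ph × PD τ₂)
    (Q := fun y α => Av Φ α y.1 τ₂ y.2.1 y.2.2) h1 τ₁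
  have h3 : Measurable fun x : ℝ × (Ph × PD τ₁) × (Ph × PD τ₂) =>
      ((x.1, x.2.2.1, x.2.2.2), x.2.1.1, x.2.1.2) := by fun_prop
  exact h3 h2

theorem measurableSet_apart (hΦ : IsPotential Φ) (τ₁ τ₂ : Shape) :
    MeasurableSet {x : ℝ × (Ph × PD τ₁) × (Ph × PD τ₂) |
      Apart Φ x.1 τ₁ x.2.1.1 x.2.1.2 τ₂ x.2.2.1 x.2.2.2} := by
  have h3 : Measurable fun x : ℝ × (Ph × PD τ₁) × (Ph × PD τ₂) => (x.1, x.2.2, x.2.1) := by fun_prop
  exact (measurableSet_half hΦ τ₁ τ₂).inter (h3 (measurableSet_half hΦ τ₂ τ₁))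

theorem Apart.symm {T : ℝ} {τ₁ τ₂ : Shape} {L₁ L₂ : Ph} {p₁ : PD τ₁} {p₂ : PD τ₂}
    (h : Apart Φ T τ₁ L₁ p₁ τ₂ L₂ p₂) : Apart Φ T τ₂ L₂ p₂ τ₁ L₁ p₁ := ⟨h.2, h.1⟩

theorem Apart.mono {T T' : ℝ} {τ₁ τ₂ : Shape} {L₁ L₂ : Ph} {p₁ : PD τ₁} {p₂ : PD τ₂}
    (h : Apart Φ T τ₁ L₁ p₁ τ₂ L₂ p₂) (hT : T' ≤ T) : Apart Φ T' τ₁ L₁ p₁ τ₂ L₂ p₂ :=
  ⟨AllL.mono (fun _ h => h.mono hT) h.1, AllL.mono (fun _ h => h.mono hT) h.2⟩

theorem measurableSet_imp {X : Type*} [MeasurableSpace X] {P Q : X → Prop}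
    (hP : MeasurableSet {x | P x}) (hQ : MeasurableSet {x | Q x}) :
    MeasurableSet {x | P x → Q x} := by
  have h5 : {x | P x → Q x} = {x | P x}ᶜ ∪ {x | Q x} := by
    ext x; exact imp_iff_not_or
  rw [h5]
  exact hP.compl.union hQ

theorem ae_half_trees (hΦ : IsPotential Φ) {T : ℝ} (τ₁ τ₂ : Shape) {L₁ L₂ : Ph} (h : nm T L₁ L₂) :
    ∀ᵐ x ∂(pvol τ₁).prod (pvol τ₂), Bef T τ₁ x.1 → Bef T τ₂ x.2 →
      Half Φ T τ₁ L₁ x.1 τ₂ L₂ x.2 := by
  have m1 : MeasurableSet {x : PD τ₁ × PD τ₂ | Bef T τ₁ x.1} :=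
    (by fun_prop : Measurable fun x : PD τ₁ × PD τ₂ => (T, x.1)) (measurableSet_bef τ₁)
  have m2 : MeasurableSet {x : PD τ₁ × PD τ₂ | Bef T τ₂ x.2} :=
    (by fun_prop : Measurable fun x : PD τ₁ × PD τ₂ => (T, x.2)) (measurableSet_bef τ₂)
  have m3 : MeasurableSet {x : PD τ₁ × PD τ₂ | Half Φ T τ₁ L₁ x.1 τ₂ L₂ x.2} :=
    (by fun_prop : Measurable fun x : PD τ₁ × PD τ₂ => (T, (L₁, x.1), (L₂, x.2)))
      (measurableSet_half hΦ τ₁ τ₂)
  refine (Measure.ae_prod_iff_ae_ae (measurableSet_imp m1 (measurableSet_imp m2 m3))).2 ?_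
  filter_upwards [ae_av hΦ τ₁ (nm_comm.1 h)] with p₁ hp₁
  by_cases hb : Bef T τ₁ p₁
  · have h1 := (hp₁ hb).allL
    have h2 : AllL Φ (fun α => ∀ᵐ p₂ ∂pvol τ₂, Bef T τ₂ p₂ → Av Φ α T τ₂ L₂ p₂) τ₁ L₁ p₁ :=
      AllL.mono (fun α hα => ae_av hΦ τ₂ hα) h1
    filter_upwards [ae_allL h2] with p₂ hp₂ _ hb2
    exact AllL.mono (fun α hα => hα hb2) hp₂
  · exact Eventually.of_forall fun p₂ hb1 => absurd hb1 hb

/-- **Two trees whose root lines do not meet before `T` are apart.** -/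
theorem ae_apart (hΦ : IsPotential Φ) {T : ℝ} (τ₁ τ₂ : Shape) {L₁ L₂ : Ph} (h : nm T L₁ L₂) :
    ∀ᵐ x ∂(pvol τ₁).prod (pvol τ₂), Bef T τ₁ x.1 → Bef T τ₂ x.2 →
      Apart Φ T τ₁ L₁ x.1 τ₂ L₂ x.2 := by
  have h1 := ae_half_trees hΦ τ₁ τ₂ h
  have h2 := ae_half_trees hΦ τ₂ τ₁ (nm_comm.1 h)
  have h3 := (Measure.measurePreserving_swap (μ := pvol τ₁) (ν := pvol τ₂)).quasiMeasurePreserving.ae
    h2
  filter_upwards [h1, h3] with x a b h4 h5
  exact ⟨a h4 h5, b h5 h4⟩

/-- The times increase along the tree. -/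
def Ordr : (τ : Shape) → PD τ → Prop
  | .leaf, _ => True
  | .node a b, p => (Bef p.1.1 a p.2.1 ∧ Bef p.1.1 b p.2.2) ∧ Ordr a p.2.1 ∧ Ordr b p.2.2

theorem measurableSet_ordr : ∀ τ : Shape, MeasurableSet {p : PD τ | Ordr τ p}
  | .leaf => MeasurableSet.univ
  | .node a b => by
    have h2 : Measurable fun x : ND × PD a × PD b => (x.1.1, x.2.1) := by fun_prop
    have h3 : Measurable fun x : ND × PD a × PD b => (x.1.1, x.2.2) := by fun_prop
    have h4 : Measurable fun x : ND × PD a × PD b => x.2.1 := by fun_prop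
    have h5 : Measurable fun x : ND × PD a × PD b => x.2.2 := by fun_prop
    exact ((h2 (measurableSet_bef a)).inter (h3 (measurableSet_bef b))).inter
      ((h4 (measurableSet_ordr a)).inter (h5 (measurableSet_ordr b)))

/-- The two subtrees of every node are apart before the node. -/
def Self (Φ : E3 → ℝ) : (τ : Shape) → Ph → PD τ → Prop
  | .leaf, _, _ => True
  | .node a b, L, p => Apart Φ p.1.1 a (inLines Φ 0 L p.1).1 p.2.1 b (inLines Φ 0 L p.1).2 p.2.2 ∧
      Self Φ a (inLines Φ 0 L p.1).1 p.2.1 ∧ Self Φ b (inLines Φ 0 L p.1).2 p.2.2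

theorem measurableSet_self (hΦ : IsPotential Φ) : ∀ τ : Shape,
    MeasurableSet {x : Ph × PD τ | Self Φ τ x.1 x.2}
  | .leaf => MeasurableSet.univ
  | .node a b => by
    have h0 : Measurable fun x : Ph × ND × PD a × PD b => (x.1, x.2.1) := by fun_prop
    have h4 := (measurable_inLines hΦ 0).comp h0
    have h1 : Measurable fun x : Ph × ND × PD a × PD b =>
        (x.2.1.1, ((inLines Φ 0 x.1 x.2.1).1, x.2.2.1), ((inLines Φ 0 x.1 x.2.1).2, x.2.2.2)) :=
      (by fun_prop : Measurable fun x : Ph × ND × PD a × PD b => x.2.1.1).prodMk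
        ((h4.fst.prodMk (by fun_prop)).prodMk (h4.snd.prodMk (by fun_prop)))
    have h2 : Measurable fun x : Ph × ND × PD a × PD b =>
        ((inLines Φ 0 x.1 x.2.1).1, x.2.2.1) := h4.fst.prodMk (by fun_prop)
    have h3 : Measurable fun x : Ph × ND × PD a × PD b =>
        ((inLines Φ 0 x.1 x.2.1).2, x.2.2.2) := h4.snd.prodMk (by fun_prop)
    exact (h1 (measurableSet_apart hΦ a b)).inter
      ((h2 (measurableSet_self hΦ a)).inter (h3 (measurableSet_self hΦ b)))

/-- The incoming lines of a node meet only at the node. -/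
theorem nev_inLines (hΦ : IsPotential Φ) {L : Ph} {q : ND} (hq : L.2 - q.2.1 ≠ 0) {σ : ℝ}
    (h : meetAt (inLines Φ 0 L q).1 (inLines Φ 0 L q).2 σ) : σ = q.1 := by
  rw [inLines_zero] at h
  unfold meetAt at h
  rw [free_tilt, free_tilt] at h
  set W := ov (scatI Φ) (L.2 - q.2.1) q.2.2 with hW
  have h1 : (σ - q.1) • (dsp (scatI Φ) 1 L.2 q.2.1 q.2.2 - dsp (scatI Φ) (-1) L.2 q.2.1 q.2.2) = 0 := by
    have h2 := sub_right_injective h
    rw [smul_sub, h2, sub_self]
  have h2 : dsp (scatI Φ) 1 L.2 q.2.1 q.2.2 - dsp (scatI Φ) (-1) L.2 q.2.1 q.2.2 = -W := by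
    rw [dsp_def, dsp_def, ← hW]; module
  have h3 : W ≠ 0 := by
    rw [← norm_ne_zero_iff, hW]
    have := (cov_scatI hΦ).norm (fr (L.2 - q.2.1) q.2.2, L.2 - q.2.1)
    unfold ov
    rw [this]
    exact norm_ne_zero_iff.2 hq
  rw [h2, smul_neg, neg_eq_zero, smul_eq_zero] at h1
  exact sub_eq_zero.1 (h1.resolve_right h3)

/-- **Almost every tree does not meet itself.** -/
theorem ae_self (hΦ : IsPotential Φ) : ∀ (τ : Shape) (L : Ph), ∀ᵐ p ∂pvol τ, Ordr τ p →
    Self Φ τ L p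
  | .leaf, _ => Eventually.of_forall fun _ _ => trivial
  | .node a b, L => by
    have m1 : MeasurableSet {p : ND × PD a × PD b | Ordr (.node a b) p} :=
      measurableSet_ordr (.node a b)
    have m2 : MeasurableSet {p : ND × PD a × PD b | Self Φ (.node a b) L p} :=
      (by fun_prop : Measurable fun p : ND × PD a × PD b => (L, p))
        (measurableSet_self hΦ (.node a b))
    refine (Measure.ae_prod_iff_ae_ae (μ := nvol) (ν := (pvol a).prod (pvol b))
      (measurableSet_imp m1 m2)).2 ?_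
    have hne : ∀ᵐ q ∂nvol, L.2 - q.2.1 ≠ 0 := by
      unfold nvol
      refine ae_restrict_of_ae ?_
      have h1 : ∀ᵐ x : E3 × E2, L.2 - x.1 ≠ 0 :=
        (Measure.quasiMeasurePreserving_fst (μ := (volume : Measure E3))
          (ν := (volume : Measure E2))).ae (ae_ne L.2)
      exact (Measure.quasiMeasurePreserving_snd (μ := (volume : Measure ℝ))
          (ν := (volume : Measure (E3 × E2)))).ae h1
    filter_upwards [hne] with q hq
    have h1 : nm q.1 (inLines Φ 0 L q).1 (inLines Φ 0 L q).2 := fun σ hσ hm =>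
      absurd (nev_inLines hΦ hq hm) hσ.ne
    have ha := (Measure.quasiMeasurePreserving_fst (μ := pvol a) (ν := pvol b)).ae
      (ae_self hΦ a (inLines Φ 0 L q).1)
    have hb := (Measure.quasiMeasurePreserving_snd (μ := pvol a) (ν := pvol b)).ae
      (ae_self hΦ b (inLines Φ 0 L q).2)
    filter_upwards [ae_apart hΦ a b h1, ha, hb] with p h2 h3 h4 h5
    exact ⟨h2 h5.1.1 h5.1.2, h3 h5.2.1, h4 h5.2.2⟩

end Vale.Agent.P119.KT
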