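import Vale.Agent.P119.ML.FH

/-!
# P119, block KT (`helper256`): living trees which share a particle with an unhit forest

* `Oc D T S d`: `S` is a subtree of `T`, with death time `d` (`D` for the root of `T`);
* `hit_lift`, `Oc.unhit`, `Oc.alive`;
* `Mix F w x`: trees built from exhausts of `F` and trees of `w`; `alive_mix`: a living tree which
  shares a particle with an unhit forest is a subtree of the forest or mixed;
* `Chn F w x`: mixed trees with one exhaust; `mix_chn`: a mixed tree is a chain or contains the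
  collision of two chains.
-/

open MeasureTheory Filter Topology Set
open scoped ENNReal NNReal

noncomputable section

namespace Vale.Agent.P119.KT

open KU M CTree ML

variable {Φ : E3 → ℝ} {ε : ℝ} {L : ℕ} {W w : Set Src} {F : List CTree} {T S a b x y : CTree}
  {D d s r t : ℝ}

/-- Occurrences of subtrees, with the death time. -/
inductive Oc (Φ : E3 → ℝ) (ε D : ℝ) (T : CTree) : CTree → ℝ → Prop
  | root : Oc Φ ε D T T D
  | left {a b : CTree} {d : ℝ} (h : Oc Φ ε D T (node a b) d) : Oc Φ ε D T a (sig Φ ε (node a b))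
  | right {a b : CTree} {d : ℝ} (h : Oc Φ ε D T (node a b) d) : Oc Φ ε D T b (sig Φ ε (node a b))

theorem Oc.ok (h : Oc Φ ε D T S d) (hT : ok Φ ε T) : ok Φ ε S := by
  induction h with
  | root => exact hT
  | left _ ih => exact ih.1
  | right _ ih => exact ih.2.1

theorem Oc.leaves (h : Oc Φ ε D T S d) : S.leaves ⊆ T.leaves := by
  induction h with
  | root => exact subset_rfl
  | left _ ih => exact subset_union_left.trans ih
  | right _ ih => exact subset_union_right.trans ih

theorem Oc.depth (h : Oc Φ ε D T S d) : S.depth ≤ T.depth := by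
  induction h with
  | root => exact le_rfl
  | @left a b d _ ih =>
    have : (node a b).depth = max a.depth b.depth + 1 := rfl
    have := le_max_left a.depth b.depth
    omega
  | @right a b d _ ih =>
    have : (node a b).depth = max a.depth b.depth + 1 := rfl
    have := le_max_right a.depth b.depth
    omega

/-- The death time is later than the end of the last collision, or it is the one of the root. -/
theorem Oc.ext_lt (h : Oc Φ ε D T S d) (hT : M.CTree.ok Φ ε T) :
    (S = T ∧ d = D) ∨ ext Φ ε S < d := by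
  cases h with
  | root => exact Or.inl ⟨rfl, rfl⟩
  | left h => exact Or.inr (h.ok hT).2.2.2.2.2.1
  | right h => exact Or.inr (h.ok hT).2.2.2.2.2.2

/-- A hit of a subtree before its death is a hit of the tree. -/
theorem hit_lift (hΦ : IsPotential Φ) (hε : 0 < ε) (h : Oc Φ ε D T S d) (hT : M.CTree.ok Φ ε T)
    {T' : CTree} (hh : hit Φ ε S T' r) (hr : (S = T ∧ d = D) ∨ r < d) : hit Φ ε T T' r := by
  induction h generalizing r with
  | root => exact hh
  | @left a b d h ih =>
    have hok := h.ok hT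
    rcases hr with hr | hr
    · exfalso
      have h1 := h.leaves
      rw [← hr.1] at h1
      obtain ⟨z, hz⟩ := b.leaves_nonempty
      exact disjoint_left.1 hok.2.2.1 (h1 (Or.inr hz)) hz
    · refine ih (Or.inl ⟨hr.le, Or.inl ⟨hh, fun hcon => hr.ne hcon.2⟩⟩) ?_
      rcases h.ext_lt hT with h1 | h1
      · exact Or.inl h1
      · exact Or.inr ((hr.trans (sig_lt_ext hΦ hε hok)).trans h1)
  | @right a b d h ih =>
    have hok := h.ok hT
    rcases hr with hr | hr
    · exfalso
      have h1 := h.leaves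
      rw [← hr.1] at h1
      obtain ⟨z, hz⟩ := a.leaves_nonempty
      exact disjoint_left.1 hok.2.2.1 hz (h1 (Or.inl hz))
    · refine ih (Or.inl ⟨hr.le, Or.inr ⟨hh, fun hcon => hr.ne hcon.2⟩⟩) ?_
      rcases h.ext_lt hT with h1 | h1
      · exact Or.inl h1
      · exact Or.inr ((hr.trans (sig_lt_ext hΦ hε hok)).trans h1)

/-- A hit of a child at the time of the collision which is not the hit of the sibling. -/
theorem hit_lift_sig (hΦ : IsPotential Φ) (hε : 0 < ε) (h : Oc Φ ε D T (node a b) d)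
    (hT : M.CTree.ok Φ ε T) {T' : CTree} (hr : r ≤ sig Φ ε (node a b))
    (hh : (hit Φ ε a T' r ∧ ¬(T' = b ∧ r = sig Φ ε (node a b))) ∨
      (hit Φ ε b T' r ∧ ¬(T' = a ∧ r = sig Φ ε (node a b)))) : hit Φ ε T T' r := by
  refine hit_lift hΦ hε h hT (Or.inl ⟨hr, hh⟩) ?_
  rcases h.ext_lt hT with h1 | h1
  · exact Or.inl h1
  · exact Or.inr ((hr.trans_lt (sig_lt_ext hΦ hε (h.ok hT))).trans h1)

/-- The subtrees of an unhit tree are alive before their death. -/
theorem Oc.alive (hΦ : IsPotential Φ) (hε : 0 < ε) (hW : W.Finite) (h : Oc Φ ε D T S d)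
    (hT : M.CTree.ok Φ ε T) (hL : T.depth ≤ L) (hsub : T.leaves ⊆ W)
    (hno : ∀ T' r, r < s → hit Φ ε T T' r → ¬M.alive Φ ε L W T' r)
    (hr : (S = T ∧ d = D) ∨ r ≤ d) (hrs : r ≤ s) (hext : ext Φ ε S ≤ r) :
    M.alive Φ ε L W S r := by
  rw [alive_iff hΦ hε hW]
  refine ⟨⟨h.leaves.trans hsub, h.ok hT, h.depth.trans hL, hext⟩, fun T' r' hr' hh => ?_⟩
  refine hno T' r' (hr'.trans_le hrs) (hit_lift hΦ hε h hT hh ?_)
  exact hr.imp id fun h1 => hr'.trans_le h1

/-- Trees built from the exhausts of `F` and from trees of `w`. -/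
inductive Mix (Φ : E3 → ℝ) (ε : ℝ) (F : List CTree) (w : Set Src) : CTree → Prop
  | exh {T a b : CTree} {d : ℝ} (hT : T ∈ F) (h : Oc Φ ε 0 T (node a b) d) : Mix Φ ε F w (node b a)
  | fr1 {x R : CTree} (hx : Mix Φ ε F w x) (hR : R.leaves ⊆ w) : Mix Φ ε F w (node x R)
  | fr2 {x R : CTree} (hx : Mix Φ ε F w x) (hR : R.leaves ⊆ w) : Mix Φ ε F w (node R x)
  | mm {x y : CTree} (hx : Mix Φ ε F w x) (hy : Mix Φ ε F w y) : Mix Φ ε F w (node x y)

/-- Mixed trees with one exhaust. -/
inductive Chn (Φ : E3 → ℝ) (ε : ℝ) (F : List CTree) (w : Set Src) : CTree → Prop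
  | exh {T a b : CTree} {d : ℝ} (hT : T ∈ F) (h : Oc Φ ε 0 T (node a b) d) : Chn Φ ε F w (node b a)
  | fr1 {x R : CTree} (hx : Chn Φ ε F w x) (hR : R.leaves ⊆ w) : Chn Φ ε F w (node x R)
  | fr2 {x R : CTree} (hx : Chn Φ ε F w x) (hR : R.leaves ⊆ w) : Chn Φ ε F w (node R x)

/-- A leg of the forest cannot be part of a living tree, except for its own node. -/
theorem leg_case (hΦ : IsPotential Φ) (hε : 0 < ε) (hW : W.Finite) (hF : OkF Φ ε L F)
    (hsub : lvs F ⊆ W) (hno : NoHit Φ ε L W F s) (hT : T ∈ F) (h : Oc Φ ε 0 T S d)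
    {y : CTree} (hoky : ok Φ ε (node S y) ∨ ok Φ ε (node y S))
    (hS : M.alive Φ ε L W S (sig Φ ε (node S y))) (hy : M.alive Φ ε L W y (sig Φ ε (node S y)))
    (hs : sig Φ ε (node S y) < s) :
    ∃ d', Oc Φ ε 0 T (node S y) d' ∨ Oc Φ ε 0 T (node y S) d' := by
  have hokT := (hF T hT).1
  have hnoT : ∀ T' r, r < s → hit Φ ε T T' r → ¬M.alive Φ ε L W T' r := fun T' r => hno T hT T' r
  have hhit : hit Φ ε S y (sig Φ ε (node S y)) := by
    rcases hoky with h1 | h1
    · exact hit_sig hΦ hε h1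
    · have := hit_sig' hΦ hε h1
      rwa [sig_swap] at this
  set σ := sig Φ ε (node S y) with hσ
  by_cases hroot : S = T ∧ d = 0
  · -- the root is hit
    exact absurd hy (hnoT y σ hs (hit_lift hΦ hε h hokT hhit (Or.inl hroot)))
  by_cases hlt : σ < d
  · exact absurd hy (hnoT y σ hs (hit_lift hΦ hε h hokT hhit (Or.inr hlt)))
  push Not at hlt
  -- the parent
  have key : ∀ (a b : CTree) (d' : ℝ), Oc Φ ε 0 T (node a b) d' → d = sig Φ ε (node a b) →
      (S = a ∨ S = b) → ∃ d', Oc Φ ε 0 T (node S y) d' ∨ Oc Φ ε 0 T (node y S) d' := by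
    intro a b d' hP hd hSab
    have hokP := hP.ok hokT
    rcases hlt.eq_or_lt with h1 | h1
    · -- collision exactly at the death
      have h1' : σ = sig Φ ε (node a b) := h1.symm.trans hd
      rcases hSab with h2 | h2
      · by_cases h3 : y = b
        · refine ⟨d', Or.inl ?_⟩
          rw [h2, h3]; exact hP
        · refine absurd hy (hnoT y σ hs (hit_lift_sig hΦ hε hP hokT h1'.le (Or.inl ⟨?_, ?_⟩)))
          · rw [← h2]; exact hhit
          · exact fun hcon => h3 hcon.1
      · by_cases h3 : y = a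
        · refine ⟨d', Or.inr ?_⟩
          rw [h2, h3]; exact hP
        · refine absurd hy (hnoT y σ hs (hit_lift_sig hΦ hε hP hokT h1'.le (Or.inr ⟨?_, ?_⟩)))
          · rw [← h2]; exact hhit
          · exact fun hcon => h3 hcon.1
    · -- the sibling hits `S` before
      exfalso
      have hds : d ≤ s := (h1.trans hs).le
      have hSal := (alive_iff hΦ hε hW).1 hS
      rcases hSab with h2 | h2
      · have hb : M.alive Φ ε L W b d := by
          rw [hd]
          exact hP.right.alive hΦ hε hW hokT (hF T hT).2 ((leaves_subset_lvs hT).trans hsub) hnoT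
            (Or.inr le_rfl) (by rw [← hd]; exact hds) hokP.2.2.2.2.2.2.le
        refine hSal.2 b d h1 ?_ hb
        rw [hd, h2]; exact hit_sig hΦ hε hokP
      · have ha : M.alive Φ ε L W a d := by
          rw [hd]
          exact hP.left.alive hΦ hε hW hokT (hF T hT).2 ((leaves_subset_lvs hT).trans hsub) hnoT
            (Or.inr le_rfl) (by rw [← hd]; exact hds) hokP.2.2.2.2.2.1.le
        refine hSal.2 a d h1 ?_ ha
        rw [hd, h2]; exact hit_sig' hΦ hε hokP
  cases h with
  | root => exact absurd ⟨rfl, rfl⟩ hroot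
  | left hP => exact key _ _ _ hP rfl (Or.inl rfl)
  | right hP => exact key _ _ _ hP rfl (Or.inr rfl)

theorem Oc.leaf {σ : Src} (h : Oc Φ ε D T S d) (hσ : σ ∈ S.leaves) :
    ∃ d', Oc Φ ε D T (leaf σ) d' := by
  induction S generalizing d with
  | leaf z =>
    have h1 : σ = z := hσ
    subst h1
    exact ⟨d, h⟩
  | node a b iha ihb =>
    rcases hσ with hσ | hσ
    · exact iha h.left hσ
    · exact ihb h.right hσ

/-- **A living tree which shares a particle with an unhit forest** is a subtree of the forest or a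
mixed tree. -/
theorem alive_mix (hΦ : IsPotential Φ) (hε : 0 < ε) (hW : W.Finite) (hF : OkF Φ ε L F)
    (hsub : lvs F ⊆ W) (hWw : W ⊆ w ∪ lvs F) (hno : NoHit Φ ε L W F s) :
    ∀ (x : CTree) (r : ℝ), M.alive Φ ε L W x r → r ≤ s → ¬Disjoint x.leaves (lvs F) →
      (∃ T ∈ F, ∃ d, Oc Φ ε 0 T x d) ∨ Mix Φ ε F w x := by
  intro x
  induction x with
  | leaf σ =>
    intro r hx hrs hd
    left
    have h1 : ¬Disjoint ({σ} : Set Src) (lvs F) := hd
    rw [disjoint_singleton_left, not_not] at h1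
    obtain ⟨T, hT, hσ⟩ := h1
    obtain ⟨d, hd'⟩ := Oc.leaf (Φ := Φ) (ε := ε) (D := 0) (T := T) Oc.root hσ
    exact ⟨T, hT, d, hd'⟩
  | node a b iha ihb =>
    intro r hx hrs hd
    have hpre := alive_pre hx
    have hok : ok Φ ε (node a b) := hpre.ok
    have hσr : sig Φ ε (node a b) < r := sig_le_of_pre hΦ hε hpre
    have ha := alive_left hΦ hε hW hx
    have hb := alive_right hΦ hε hW hx
    have hs' : sig Φ ε (node a b) ≤ s := hσr.le.trans hrs
    have hsl : sig Φ ε (node a b) < s := hσr.trans_le hrs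
    have hsw : sig Φ ε (node b a) = sig Φ ε (node a b) := sig_swap a b
    have hwa : Disjoint a.leaves (lvs F) → a.leaves ⊆ w := fun h z hz =>
      (hWw (hpre.sub (Or.inl hz))).resolve_right fun h' => disjoint_left.1 h hz h'
    have hwb : Disjoint b.leaves (lvs F) → b.leaves ⊆ w := fun h z hz =>
      (hWw (hpre.sub (Or.inr hz))).resolve_right fun h' => disjoint_left.1 h hz h'
    -- a leg `a`
    have legA : (∃ T ∈ F, ∃ d, Oc Φ ε 0 T a d) →
        (∃ T ∈ F, ∃ d, Oc Φ ε 0 T (node a b) d) ∨ Mix Φ ε F w (node a b) := by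
      rintro ⟨T, hT, d, h⟩
      obtain ⟨d', h1 | h1⟩ := leg_case hΦ hε hW hF hsub hno hT h (Or.inl hok) ha hb hsl
      · exact Or.inl ⟨T, hT, d', h1⟩
      · exact Or.inr (Mix.exh hT h1)
    have legB : (∃ T ∈ F, ∃ d, Oc Φ ε 0 T b d) →
        (∃ T ∈ F, ∃ d, Oc Φ ε 0 T (node a b) d) ∨ Mix Φ ε F w (node a b) := by
      rintro ⟨T, hT, d, h⟩
      obtain ⟨d', h1 | h1⟩ := leg_case hΦ hε hW hF hsub hno hT h (Or.inr hok)
        (by rw [hsw]; exact hb) (by rw [hsw]; exact ha) (by rw [hsw]; exact hsl)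
      · exact Or.inr (Mix.exh hT h1)
      · exact Or.inl ⟨T, hT, d', h1⟩
    by_cases hda : Disjoint a.leaves (lvs F)
    · have hdb : ¬Disjoint b.leaves (lvs F) := fun h => hd (disjoint_union_left.2 ⟨hda, h⟩)
      rcases ihb _ hb hs' hdb with h | h
      · exact legB h
      · exact Or.inr (Mix.fr2 h (hwa hda))
    · rcases iha _ ha hs' hda with h | h
      · exact legA h
      · by_cases hdb : Disjoint b.leaves (lvs F)
        · exact Or.inr (Mix.fr1 h (hwb hdb))
        · rcases ihb _ hb hs' hdb with h' | h'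
          · exact legB h'
          · exact Or.inr (Mix.mm h h')

/-- Two chains of the world collide before the time `r`. -/
def Clash (Φ : E3 → ℝ) (ε : ℝ) (L : ℕ) (W w : Set Src) (F : List CTree) (r : ℝ) : Prop :=
  ∃ y z, Chn Φ ε F w y ∧ Chn Φ ε F w z ∧ ok Φ ε (node y z) ∧ (node y z).depth ≤ L ∧
    M.alive Φ ε L W y (sig Φ ε (node y z)) ∧ M.alive Φ ε L W z (sig Φ ε (node y z)) ∧
    sig Φ ε (node y z) < r

/-- **A living mixed tree is a chain, or two chains have collided before.** -/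
theorem mix_chn (hΦ : IsPotential Φ) (hε : 0 < ε) (hW : W.Finite) {x : CTree}
    (hx : Mix Φ ε F w x) : ∀ r, M.alive Φ ε L W x r → Chn Φ ε F w x ∨ Clash Φ ε L W w F r := by
  induction hx with
  | exh hT h => exact fun r _ => Or.inl (Chn.exh hT h)
  | fr1 hx hR ih =>
    intro r hr
    have hσr := sig_le_of_pre hΦ hε (alive_pre hr)
    rcases ih _ (alive_left hΦ hε hW hr) with h | ⟨y, z, h1, h2, h3, h4, h5, h6, h7⟩
    · exact Or.inl (Chn.fr1 h hR)
    · exact Or.inr ⟨y, z, h1, h2, h3, h4, h5, h6, h7.trans hσr⟩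
  | fr2 hx hR ih =>
    intro r hr
    have hσr := sig_le_of_pre hΦ hε (alive_pre hr)
    rcases ih _ (alive_right hΦ hε hW hr) with h | ⟨y, z, h1, h2, h3, h4, h5, h6, h7⟩
    · exact Or.inl (Chn.fr2 h hR)
    · exact Or.inr ⟨y, z, h1, h2, h3, h4, h5, h6, h7.trans hσr⟩
  | @mm x y hx hy ihx ihy =>
    intro r hr
    have hσr := sig_le_of_pre hΦ hε (alive_pre hr)
    rcases ihx _ (alive_left hΦ hε hW hr) with h | ⟨y, z, h1, h2, h3, h4, h5, h6, h7⟩
    · rcases ihy _ (alive_right hΦ hε hW hr) with h' | ⟨y, z, h1, h2, h3, h4, h5, h6, h7⟩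
      · exact Or.inr ⟨x, y, h, h', (alive_pre hr).ok, (alive_pre hr).depth,
          alive_left hΦ hε hW hr, alive_right hΦ hε hW hr, hσr⟩
      · exact Or.inr ⟨y, z, h1, h2, h3, h4, h5, h6, h7.trans hσr⟩
    · exact Or.inr ⟨y, z, h1, h2, h3, h4, h5, h6, h7.trans hσr⟩

/-- **The deterministic part of `Rel → 0`**: a first hitter which shares a particle with the forest
is a subtree of the forest, or it is a chain, or two chains have collided before. -/
theorem related_cases (hΦ : IsPotential Φ) (hε : 0 < ε) (hW : W.Finite) (hF : OkF Φ ε L F)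
    (hsub : lvs F ⊆ W) (hWw : W ⊆ w ∪ lvs F) (hx : FirstHit Φ ε L W F x)
    (hd : ¬Disjoint x.leaves (lvs F)) :
    (∃ T ∈ F, ∃ d, Oc Φ ε 0 T x d) ∨ Chn Φ ε F w x ∨ Clash Φ ε L W w F (ff Φ ε F x) := by
  rcases alive_mix hΦ hε hW hF hsub hWw hx.2.2 x _ hx.2.1 le_rfl hd with h | h
  · exact Or.inl h
  · exact Or.inr (mix_chn hΦ hε hW h _ hx.2.1)

end Vale.Agent.P119.KT
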