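import Vale.Agent.P119.KT.Det
import Vale.Agent.P119.KT.LineChain
import Vale.Agent.P119.ML.FH7

/-!
# P119, block KT (`helper256`): the related first hitters of a generic forest, deterministic part

* `runT x l`: the tree `x` with successive collisions with the trees of the list `l`;
* `CLl`: the chains of lines of `KT.LineChain` for lists; `CL_of_list`;
* `chn_run`: the chains `Chn` are `runT`s;
* **`Gen.rel_chain`**: a related first hitter of a generic forest produces a closed chain.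
-/

open MeasureTheory Filter Topology Set
open scoped ENNReal NNReal

noncomputable section

namespace Vale.Agent.P119.KT

open KU M CTree ML IND
open Vale.Agent.P119.M (Shape)

variable {Φ : E3 → ℝ} {ε t r : ℝ} {L : ℕ} {w : Set Src}

/-! ### Runs -/

/-- A collision with the tree `R`; `true`: the first outgoing particle is kept. -/
def stepT : Bool → CTree → CTree → CTree
  | true, x, R => node x R
  | false, x, R => node R x

/-- Successive collisions. -/
def runT (x : CTree) : List (Bool × CTree) → CTree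
  | [] => x
  | s :: l => runT (stepT s.1 x s.2) l

theorem runT_nil (x : CTree) : runT x [] = x := rfl

theorem runT_cons (x : CTree) (s : Bool × CTree) (l : List (Bool × CTree)) :
    runT x (s :: l) = runT (stepT s.1 x s.2) l := rfl

theorem runT_concat (x : CTree) (l : List (Bool × CTree)) (s : Bool × CTree) :
    runT x (l ++ [s]) = stepT s.1 (runT x l) s.2 := by
  induction l generalizing x with
  | nil => rfl
  | cons s' l ih => rw [List.cons_append, runT_cons, ih, runT_cons]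

theorem leaves_stepT (o : Bool) (x R : CTree) : (stepT o x R).leaves = x.leaves ∪ R.leaves := by
  cases o with
  | true => rfl
  | false => exact union_comm _ _

theorem depth_stepT (o : Bool) (x R : CTree) : (stepT o x R).depth = max x.depth R.depth + 1 := by
  cases o with
  | true => rfl
  | false =>
    have h : (node R x).depth = max R.depth x.depth + 1 := rfl
    change (node R x).depth = _
    rw [h, max_comm]

theorem ok_stepT (hΦ : IsPotential Φ) {o : Bool} {x R : CTree} (h : ok Φ ε (stepT o x R)) :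
    ok Φ ε (node x R) := by
  cases o with
  | true => exact h
  | false => exact ok_swap hΦ h

theorem ext_stepT (hΦ : IsPotential Φ) (o : Bool) (x R : CTree) :
    ext Φ ε (stepT o x R) = ext Φ ε (node x R) := by
  cases o with
  | true => rfl
  | false => exact ext_swap hΦ x R

theorem ln_stepT (hΦ : IsPotential Φ) (o : Bool) (x R : CTree) :
    ln Φ ε (stepT o x R) = outl Φ ε o (ln Φ ε x) (ln Φ ε R) := by
  cases o with
  | true => rw [outl_true]; rfl
  | false => rw [outl_false]; exact ln_swap hΦ x R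

/-- The properties of a run. -/
theorem run_ok (hΦ : IsPotential Φ) (hε : 0 < ε) : ∀ (l : List (Bool × CTree)) (x : CTree),
    ok Φ ε (runT x l) → ok Φ ε x ∧ x.leaves ⊆ (runT x l).leaves ∧
      ext Φ ε x ≤ ext Φ ε (runT x l) ∧ x.depth + l.length ≤ (runT x l).depth ∧
      (∀ s ∈ l, ok Φ ε s.2 ∧ s.2.leaves ⊆ (runT x l).leaves ∧ ext Φ ε s.2 ≤ ext Φ ε (runT x l) ∧
        s.2.depth ≤ (runT x l).depth ∧ Disjoint x.leaves s.2.leaves) ∧
      l.Pairwise fun s s' => Disjoint s.2.leaves s'.2.leaves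
  | [], x, h => ⟨h, subset_rfl, le_rfl, le_rfl, fun s hs => absurd hs List.not_mem_nil,
      List.Pairwise.nil⟩
  | s :: l, x, h => by
    rw [runT_cons] at h
    obtain ⟨h1, h2, h3, h4, h5, h6⟩ := run_ok hΦ hε l _ h
    have hok := ok_stepT hΦ h1
    have hlt := sig_lt_ext hΦ hε hok
    have e1 : ext Φ ε x < sig Φ ε (node x s.2) := hok.2.2.2.2.2.1
    have e2 : ext Φ ε s.2 < sig Φ ε (node x s.2) := hok.2.2.2.2.2.2
    rw [ext_stepT hΦ] at h3
    rw [leaves_stepT] at h2
    rw [depth_stepT] at h4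
    rw [runT_cons]
    have m1 := le_max_left x.depth s.2.depth
    have m2 := le_max_right x.depth s.2.depth
    have hl : (s :: l).length = l.length + 1 := rfl
    refine ⟨hok.1, subset_union_left.trans h2, by linarith, by omega, ?_, ?_⟩
    · intro s' hs'
      rcases List.mem_cons.1 hs' with rfl | hs'
      · exact ⟨hok.2.1, subset_union_right.trans h2, by linarith, by omega, hok.2.2.1⟩
      · obtain ⟨g1, g2, g3, g4, g5⟩ := h5 s' hs'
        rw [leaves_stepT] at g5
        exact ⟨g1, g2, g3, g4, g5.mono_left subset_union_left⟩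
    · rw [List.pairwise_cons]
      refine ⟨fun s' hs' => ?_, h6⟩
      have g5 := (h5 s' hs').2.2.2.2
      rw [leaves_stepT] at g5
      exact g5.mono_left subset_union_right

/-! ### Chains of lines for lists -/

/-- Chains of lines, for lists. -/
def CLl (Φ : E3 → ℝ) (ε t r : ℝ) : List ((Bool × Bool) × Ph) → Ph × Ph → Prop
  | [], z => Clo t r z
  | s :: l, z => (Meets ε (act s.1 z, s.2) ∧ 0 ≤ hitT ε (act s.1 z, s.2) ∧
      hitT ε (act s.1 z, s.2) ≤ t) ∧ CLl Φ ε t r l (stl Φ ε s.1 z s.2)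

theorem CL_of_list : ∀ (l : List ((Bool × Bool) × Ph)) (z : Ph × Ph), CLl Φ ε t r l z →
    CL Φ ε t r l.length (fun i => (l.get i).1) z (fun i => (l.get i).2)
  | [], _, h => h
  | s :: l, z, h => by
    have h1 := CL_of_list l _ h.2
    exact ⟨h.1, h1⟩

/-- The steps of the first line. -/
def lf (l : List (Bool × CTree)) : List ((Bool × Bool) × CTree) := l.map fun s => ((true, s.1), s.2)

/-- The steps of the second line. -/
def ls (l : List (Bool × CTree)) : List ((Bool × Bool) × CTree) := l.map fun s => ((false, s.1), s.2)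

/-- The lines of the trees of a list. -/
def lnl (Φ : E3 → ℝ) (ε : ℝ) (l : List ((Bool × Bool) × CTree)) : List ((Bool × Bool) × Ph) :=
  l.map fun s => (s.1, ln Φ ε s.2)

theorem step_meets (hΦ : IsPotential Φ) (hε : 0 < ε) {o : Bool} {x R : CTree}
    (h : ok Φ ε (stepT o x R)) (ht : ext Φ ε (stepT o x R) ≤ t) :
    Meets ε (ln Φ ε x, ln Φ ε R) ∧ 0 ≤ hitT ε (ln Φ ε x, ln Φ ε R) ∧
      hitT ε (ln Φ ε x, ln Φ ε R) ≤ t := by
  have hok := ok_stepT hΦ h
  rw [ext_stepT hΦ] at ht
  exact ⟨hok.2.2.2.1, sig_nonneg hΦ hε hok, (sig_lt_ext hΦ hε hok).le.trans ht⟩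

theorem cll_fst (hΦ : IsPotential Φ) (hε : 0 < ε) (rest : List ((Bool × Bool) × CTree)) (η : Ph) :
    ∀ (l : List (Bool × CTree)) (x : CTree), ok Φ ε (runT x l) → ext Φ ε (runT x l) ≤ t →
      CLl Φ ε t r (lnl Φ ε rest) (ln Φ ε (runT x l), η) →
      CLl Φ ε t r (lnl Φ ε (lf l ++ rest)) (ln Φ ε x, η)
  | [], x, _, _, h => h
  | s :: l, x, hok, ht, h => by
    rw [runT_cons] at hok ht h
    have h1 := cll_fst hΦ hε rest η l _ hok ht h
    obtain ⟨g1, -, g3, -⟩ := run_ok hΦ hε l _ hok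
    have h2 := step_meets (t := t) hΦ hε g1 (g3.trans ht)
    rw [ln_stepT hΦ] at h1
    refine ⟨?_, ?_⟩
    · change Meets ε (act (true, s.1) (ln Φ ε x, η), ln Φ ε s.2) ∧ _ ∧ _
      rw [act_true]
      exact h2
    · change CLl Φ ε t r (lnl Φ ε (lf l ++ rest)) (stl Φ ε (true, s.1) (ln Φ ε x, η) (ln Φ ε s.2))
      rw [stl_true]
      exact h1

theorem cll_snd (hΦ : IsPotential Φ) (hε : 0 < ε) (rest : List ((Bool × Bool) × CTree)) (η : Ph) :
    ∀ (l : List (Bool × CTree)) (x : CTree), ok Φ ε (runT x l) → ext Φ ε (runT x l) ≤ t →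
      CLl Φ ε t r (lnl Φ ε rest) (η, ln Φ ε (runT x l)) →
      CLl Φ ε t r (lnl Φ ε (ls l ++ rest)) (η, ln Φ ε x)
  | [], x, _, _, h => h
  | s :: l, x, hok, ht, h => by
    rw [runT_cons] at hok ht h
    have h1 := cll_snd hΦ hε rest η l _ hok ht h
    obtain ⟨g1, -, g3, -⟩ := run_ok hΦ hε l _ hok
    have h2 := step_meets (t := t) hΦ hε g1 (g3.trans ht)
    rw [ln_stepT hΦ] at h1
    refine ⟨?_, ?_⟩
    · change Meets ε (act (false, s.1) (η, ln Φ ε x), ln Φ ε s.2) ∧ _ ∧ _
      rw [act_false]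
      exact h2
    · change CLl Φ ε t r (lnl Φ ε (ls l ++ rest)) (stl Φ ε (false, s.1) (η, ln Φ ε x) (ln Φ ε s.2))
      rw [stl_false]
      exact h1

/-! ### The chains -/

theorem chn_run {F : List CTree} {x : CTree} (h : Chn Φ ε F w x) :
    ∃ T ∈ F, ∃ (a b : CTree) (d : ℝ), Oc Φ ε 0 T (node a b) d ∧ ∃ l : List (Bool × CTree),
      x = runT (node b a) l ∧ ∀ s ∈ l, s.2.leaves ⊆ w := by
  induction h with
  | @exh T a b d hT h =>
    exact ⟨T, hT, a, b, d, h, [], rfl, fun s hs => absurd hs List.not_mem_nil⟩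
  | @fr1 x R hx hR ih =>
    obtain ⟨T, hT, a, b, d, h, l, rfl, hl⟩ := ih
    refine ⟨T, hT, a, b, d, h, l ++ [(true, R)], ?_, fun s hs => ?_⟩
    · rw [runT_concat]; rfl
    · rcases List.mem_append.1 hs with hs | hs
      · exact hl s hs
      · rw [List.mem_singleton.1 hs]; exact hR
  | @fr2 x R hx hR ih =>
    obtain ⟨T, hT, a, b, d, h, l, rfl, hl⟩ := ih
    refine ⟨T, hT, a, b, d, h, l ++ [(false, R)], ?_, fun s hs => ?_⟩
    · rw [runT_concat]; rfl
    · rcases List.mem_append.1 hs with hs | hs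
      · exact hl s hs
      · rw [List.mem_singleton.1 hs]; exact hR

/-- The diagram of a list of steps. -/
theorem diag_of_list {N : ℕ} {l : List ((Bool × Bool) × CTree)} {z : Ph × Ph}
    (h1 : ∀ s ∈ l, ok Φ ε s.2 ∧ s.2.leaves ⊆ w ∧ ext Φ ε s.2 ≤ t ∧ s.2.depth ≤ L)
    (h2 : l.Pairwise fun s s' => Disjoint s.2.leaves s'.2.leaves) (h3 : l.length ≤ N)
    (h4 : CLl Φ ε t r (lnl Φ ε l) z) :
    ∃ m ≤ N, ∃ (o : Fin m → Bool × Bool) (S : Fin m → CTree), Fresh Φ ε L S ∧
      (∀ i, ext Φ ε (S i) ≤ t) ∧ CL Φ ε t r m o z (fun i => ln Φ ε (S i)) ∧ InW w S := by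
  have hmem : ∀ i : Fin l.length, l.get i ∈ l := fun i => List.get_mem l i
  refine ⟨l.length, h3, fun i => (l.get i).1, fun i => (l.get i).2, ⟨fun i => (h1 _ (hmem i)).1,
    fun i => (h1 _ (hmem i)).2.2.2, ?_⟩, fun i => (h1 _ (hmem i)).2.2.1, ?_,
    fun i => (h1 _ (hmem i)).2.1⟩
  · intro j k hjk
    rcases lt_or_gt_of_ne hjk with h | h
    · exact List.pairwise_iff_get.1 h2 j k h
    · exact (List.pairwise_iff_get.1 h2 k j h).symm
  · have key : ∀ (l : List ((Bool × Bool) × CTree)) (z : Ph × Ph), CLl Φ ε t r (lnl Φ ε l) z →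
        CL Φ ε t r l.length (fun i => (l.get i).1) z (fun i => ln Φ ε (l.get i).2) := by
      intro l
      induction l with
      | nil => exact fun z h => h
      | cons s l ih => exact fun z h => ⟨h.1, ih _ h.2⟩
    exact key l z h4

/-! ### Occurrences -/

theorem mem_sbt_self (T : CTree) : T ∈ sbt T := by
  cases T with
  | leaf σ => exact rfl
  | node a b => exact Or.inl rfl

theorem sbt_sub {T S : CTree} (h : S ∈ sbt T) : sbt S ⊆ sbt T := by
  induction T with
  | leaf σ =>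
    have h1 : S = leaf σ := h
    rw [h1]
  | node a b iha ihb =>
    rcases h with h | h | h
    · have h1 : S = node a b := h
      rw [h1]
    · exact (iha h).trans fun x hx => Or.inr (Or.inl hx)
    · exact (ihb h).trans fun x hx => Or.inr (Or.inr hx)

theorem Oc.mem_sbt {D d : ℝ} {T S : CTree} (h : Oc Φ ε D T S d) : S ∈ sbt T := by
  induction h with
  | root => exact mem_sbt_self T
  | @left a b d h ih => exact sbt_sub ih (Or.inr (Or.inl (mem_sbt_self a)))
  | @right a b d h ih => exact sbt_sub ih (Or.inr (Or.inr (mem_sbt_self b)))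

theorem Oc.ex_D {D d : ℝ} {T S : CTree} (h : Oc Φ ε D T S d) (D' : ℝ) :
    ∃ d', Oc Φ ε D' T S d' := by
  induction h with
  | root => exact ⟨D', Oc.root⟩
  | left h ih => obtain ⟨d', h'⟩ := ih; exact ⟨_, h'.left⟩
  | right h ih => obtain ⟨d', h'⟩ := ih; exact ⟨_, h'.right⟩

theorem Oc.change {D d : ℝ} {T S : CTree} (h : Oc Φ ε D T S d) (D' : ℝ) :
    (S = T ∧ d = D) ∨ Oc Φ ε D' T S d := by
  cases h with
  | root => exact Or.inl ⟨rfl, rfl⟩
  | left h => obtain ⟨d', h'⟩ := h.ex_D D'; exact Or.inr h'.left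
  | right h => obtain ⟨d', h'⟩ := h.ex_D D'; exact Or.inr h'.right

/-- A living subtree of an unhit forest has not yet collided with its sibling. -/
theorem oc_death (hΦ : IsPotential Φ) (hε : 0 < ε) {W : Set Src} (hW : W.Finite) {F : List CTree}
    (hF : OkF Φ ε L F) (hsub : lvs F ⊆ W) {s : ℝ} (hno : NoHit Φ ε L W F s) {T S : CTree}
    (hT : T ∈ F) {d : ℝ} (h : Oc Φ ε 0 T S d) (hS : M.alive Φ ε L W S s) :
    (S = T ∧ d = 0) ∨ s ≤ d := by
  by_contra hcon
  push Not at hcon
  have hokT := (hF T hT).1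
  have hnoT : ∀ T' r, r < s → hit Φ ε T T' r → ¬M.alive Φ ε L W T' r := fun T' r => hno T hT T' r
  have hds := hcon.2
  have hSal := (alive_iff hΦ hε hW).1 hS
  cases h with
  | root => exact hcon.1 rfl rfl
  | @left _ b _ hP =>
    have hokP := hP.ok hokT
    have hb : M.alive Φ ε L W b (sig Φ ε (node S b)) :=
      hP.right.alive hΦ hε hW hokT (hF T hT).2 ((leaves_subset_lvs hT).trans hsub) hnoT
        (Or.inr le_rfl) hds.le hokP.2.2.2.2.2.2.le
    exact hSal.2 b _ hds (hit_sig hΦ hε hokP) hb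
  | @right a _ _ hP =>
    have hokP := hP.ok hokT
    have ha : M.alive Φ ε L W a (sig Φ ε (node a S)) :=
      hP.left.alive hΦ hε hW hokT (hF T hT).2 ((leaves_subset_lvs hT).trans hsub) hnoT
        (Or.inr le_rfl) hds.le hokP.2.2.2.2.2.1.le
    exact hSal.2 a _ hds (hit_sig' hΦ hε hokP) ha

/-! ### The main statement -/

/-- **A related first hitter of a generic forest produces a closed chain.** -/
theorem Gen.rel_chain (hΦ : IsPotential Φ) {F : List TG} {t : ℝ} (h : Gen Φ L F t) :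
    ∃ K, 1 ≤ K ∧ ∀ᶠ ε in 𝓝[>] (0 : ℝ), ∀ w : Finset Ph,
      (∃ T', RelEv Φ ε L (trees Φ ε F) t w T') →
      ∃ z ∈ LX Φ F t, ∃ m ≤ 2 * L, ∃ (o : Fin m → Bool × Bool) (S : Fin m → CTree),
        Fresh Φ ε L S ∧ (∀ i, ext Φ ε (S i) ≤ t) ∧
        CL Φ ε t (K * ε) m o (latP ε z) (fun i => ln Φ ε (S i)) ∧
        InW (world (w : Set Ph)) S := by
  obtain ⟨K, hK, h1⟩ := h.exh hΦ
  refine ⟨K, hK, ?_⟩
  filter_upwards [h1, h.exh_exh hΦ, h.clean hΦ, ev_pos] with ε h1 h2 h3 hε w hw
  obtain ⟨T', ⟨-, hF, hd, hfirst⟩, hlt⟩ := hw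
  set Fe := trees Φ ε F with hFe
  have hW : (Wc Fe w).Finite := Wc_finite
  have hsub : lvs Fe ⊆ Wc Fe w := subset_union_right
  have hrc := related_cases (w := world (w : Set Ph)) hΦ hε hW hF hsub subset_rfl hfirst hd
  have hffm := ff_mem hΦ hε hF hfirst.1
  have hff0 := ff_nonneg hΦ hε hF hfirst.1
  obtain ⟨-, hal, hno⟩ := hfirst
  generalize ff Φ ε Fe T' = s at hrc hffm hff0 hal hno hlt
  have hst : s ≤ t := by
    rcases hlt with h | h
    · exact h.le
    · exact h.1.le
  obtain ⟨T, hT, hhit⟩ := hffm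
  have hs0 : 0 ≤ s := hff0
  have hpre := alive_pre hal
  have hKε : ε ≤ K * ε := by nlinarith
  rcases hrc with ⟨T₁, hT₁, d, ho⟩ | hc | ⟨y, y', hy, hy', hok, hdep, -, -, hsig⟩
  · -- a subtree of the forest
    exfalso
    have hlt' : s < t := by
      rcases hlt with h | h
      · exact h
      · exact absurd ho.mem_sbt (h.2 T₁ hT₁)
    have hde := oc_death hΦ hε hW hF hsub hno hT₁ ho hal
    rcases ho.change t with h4 | h4
    · rw [h4.1] at hhit
      exact h3 T hT T₁ hT₁ T₁ t Oc.root s hlt' hlt'.le hhit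
    · rcases hde with h5 | h5
      · rw [h5.1] at hhit
        exact h3 T hT T₁ hT₁ T₁ t Oc.root s hlt' hlt'.le hhit
      · exact h3 T hT T₁ hT₁ T' d h4 s hlt' h5 hhit
  · -- one chain
    obtain ⟨T₁, hT₁, a, b, d, ho, l, hx, hl⟩ := chn_run hc
    have hokr : ok Φ ε (runT (node b a) l) := by rw [← hx]; exact hpre.ok
    have hextr : ext Φ ε (runT (node b a) l) ≤ s := by rw [← hx]; exact hpre.ext_le
    obtain ⟨g1, g2, g3, g4, g5, g6⟩ := run_ok hΦ hε l _ hokr
    have hdl : T'.depth ≤ L := hpre.depth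
    rw [hx] at hdl
    have hsub' : (node a b).leaves ⊆ T'.leaves := by
      rw [hx]
      refine subset_trans ?_ g2
      exact (union_comm a.leaves b.leaves).subset
    have hexte : ext Φ ε (node a b) ≤ s := by
      rw [ext_swap hΦ b a]
      exact g3.trans hextr
    obtain ⟨z, hz, hz1, hz2⟩ := h1 T₁ hT₁ T hT 0 a b d ho T' s hst hsub' hexte hhit
    refine ⟨z, hz, ?_⟩
    have hclo : Clo t (K * ε) (ln Φ ε (runT (node b a) l), lat ε z.2) := by
      refine ⟨s, hs0, hst, ?_⟩
      rw [norm_sub_rev, ← hx]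
      exact hz2
    have hcl := cll_fst (t := t) (r := K * ε) hΦ hε [] (lat ε z.2) l _ hokr (hextr.trans hst) hclo
    rw [List.append_nil, hz1] at hcl
    refine diag_of_list (l := lf l) (N := 2 * L) ?_ ?_ ?_ hcl
    · intro s' hs'
      obtain ⟨s₁, hs₁, rfl⟩ := List.mem_map.1 hs'
      obtain ⟨k1, k2, k3, k4, k5⟩ := g5 s₁ hs₁
      exact ⟨k1, hl s₁ hs₁, k3.trans (hextr.trans hst), k4.trans hdl⟩
    · unfold lf
      rw [List.pairwise_map]
      exact g6
    · unfold lf
      rw [List.length_map]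
      omega
  · -- two chains
    obtain ⟨T₁, hT₁, a, b, d, ho, l, hx, hl⟩ := chn_run hy
    obtain ⟨T₂, hT₂, a', b', d', ho', l', hx', hl'⟩ := chn_run hy'
    have hyok := hok.1
    have hyok' := hok.2.1
    have hse := sig_lt_ext hΦ hε hok
    have e1 : ext Φ ε y < sig Φ ε (node y y') := hok.2.2.2.2.2.1
    have e2 : ext Φ ε y' < sig Φ ε (node y y') := hok.2.2.2.2.2.2
    have hdd : (node y y').depth = max y.depth y'.depth + 1 := rfl
    have m1 := le_max_left y.depth y'.depth
    have m2 := le_max_right y.depth y'.depth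
    have hdis := hok.2.2.1
    have hclo : Clo t (K * ε) (ln Φ ε y, ln Φ ε y') :=
      ⟨hitT ε (ln Φ ε y, ln Φ ε y'), sig_nonneg hΦ hε hok, hsig.le.trans hst,
        (ctc_hitT hε hok.2.2.2.1).le.trans hKε⟩
    have hσt : sig Φ ε (node y y') ≤ t := hsig.le.trans hst
    subst hx hx'
    obtain ⟨g1, g2, g3, g4, g5, g6⟩ := run_ok hΦ hε l _ hyok
    obtain ⟨g1', g2', g3', g4', g5', g6'⟩ := run_ok hΦ hε l' _ hyok'
    have hd1 : Disjoint (node a b).leaves (node a' b').leaves := by
      refine hdis.mono ?_ ?_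
      · exact subset_trans (union_comm a.leaves b.leaves).subset g2
      · exact subset_trans (union_comm a'.leaves b'.leaves).subset g2'
    have he1 : ext Φ ε (node a b) ≤ t := by rw [ext_swap hΦ b a]; linarith
    have he2 : ext Φ ε (node a' b') ≤ t := by rw [ext_swap hΦ b' a']; linarith
    obtain ⟨z, hz, hz1, hz2⟩ := h2 T₁ hT₁ T₂ hT₂ 0 0 a b a' b' d d' ho ho' hd1 he1 he2
    refine ⟨z, hz, ?_⟩
    have hcl2 := cll_snd (t := t) (r := K * ε) hΦ hε [] (ln Φ ε (runT (node b a) l)) l' _ hyok'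
      (by linarith) hclo
    have hcl := cll_fst (t := t) (r := K * ε) hΦ hε _ _ l _ hyok (by linarith) hcl2
    rw [List.append_nil, hz1, hz2] at hcl
    refine diag_of_list (l := lf l ++ ls l') (N := 2 * L) ?_ ?_ ?_ hcl
    · intro s' hs'
      rcases List.mem_append.1 hs' with hs' | hs'
      · obtain ⟨s₁, hs₁, rfl⟩ := List.mem_map.1 hs'
        obtain ⟨k1, k2, k3, k4, k5⟩ := g5 s₁ hs₁
        exact ⟨k1, hl s₁ hs₁, by linarith, by simp only; omega⟩
      · obtain ⟨s₁, hs₁, rfl⟩ := List.mem_map.1 hs'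
        obtain ⟨k1, k2, k3, k4, k5⟩ := g5' s₁ hs₁
        exact ⟨k1, hl' s₁ hs₁, by linarith, by simp only; omega⟩
    · unfold lf ls
      rw [List.pairwise_append, List.pairwise_map, List.pairwise_map]
      refine ⟨g6, g6', fun s₁ hs₁ s₂ hs₂ => ?_⟩
      obtain ⟨u₁, hu₁, rfl⟩ := List.mem_map.1 hs₁
      obtain ⟨u₂, hu₂, rfl⟩ := List.mem_map.1 hs₂
      exact hdis.mono (g5 u₁ hu₁).2.1 (g5' u₂ hu₂).2.1
    · unfold lf ls
      rw [List.length_append, List.length_map, List.length_map]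
      omega

end Vale.Agent.P119.KT
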