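import Vale.Agent.P119.KT.ChainProb
import Vale.Agent.P119.KT.Det
import Vale.Agent.P119.ML.Exp

/-!
# P119, block KT: `RelZ` from the deterministic half (`helper295`)

`relZ_of_det`: if every related first hitter of a generic forest gives a closed chain of bounded
length from one of the finitely many pairs of lines which never meet, then `RelZ`.
-/

open MeasureTheory Filter Topology Set
open scoped ENNReal NNReal

noncomputable section

namespace Vale.Agent.P119.KT

open KU M CTree ML GC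

variable {Φ : E3 → ℝ}

/-- **`RelZ` from the deterministic half.** -/
theorem relZ_of_det (hΦ : IsPotential Φ) {f₀ : Ph → ℝ} {κ b M₀ : ℝ}
    (hg : GoodDatum f₀ κ) (hb : 0 < b) (hM : 0 ≤ M₀)
    (hf : ∀ z, f₀ z ≤ M₀ * Real.exp (-b * ‖z.2‖ ^ 2)) (L N : ℕ)
    (hdet : ∀ (F : List TG) (t : ℝ), Gen Φ L F t → ∃ K : ℝ, ∀ᶠ ε in 𝓝[>] (0 : ℝ),
      ∀ w : Finset Ph, (∃ T', RelEv Φ ε L (trees Φ ε F) t w T') →
        ∃ z ∈ LX Φ F t, ∃ m ≤ N, HasCL Φ ε L t (K * ε) m (world (w : Set Ph)) (latP ε z)) :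
    ML.RelZ Φ f₀ L := by
  intro F t hF
  obtain ⟨K, hK⟩ := hdet F t hF
  have h1 := tendsto_prob hΦ hg hb hF.pos.le hM hf L K (finite_LX (Φ := Φ) F t)
    (fun z hz => hz.2.2) N
  refine tendsto_of_tendsto_of_tendsto_of_le_of_le' tendsto_const_nhds h1
    (Eventually.of_forall fun _ => zero_le) ?_
  filter_upwards [hK] with ε hK
  unfold RelP
  classical
  have h2 : ∀ c : Conf Ph, ind (∃ T', RelEv Φ ε L (trees Φ ε F) t (pts c) T') =
      {c : Conf Ph | ∃ T', RelEv Φ ε L (trees Φ ε F) t (pts c) T'}.indicator 1 c := by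
    intro c
    by_cases hc : ∃ T', RelEv Φ ε L (trees Φ ε F) t (pts c) T'
    · rw [ind_of_true hc, indicator_of_mem (by exact hc)]
      rfl
    · rw [ind_of_false hc, indicator_of_notMem (by exact hc)]
  simp only [h2]
  refine (lintegral_indicator_one_le _).trans (measure_mono ?_)
  intro c hc
  exact hK (pts c) hc

end Vale.Agent.P119.KT
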