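import Vale.Agent.P119.KT.Pair
import Vale.Agent.P119.M.Shape

/-!
# P119, block KT (`helper256`): the measure of collision trees

`LD τ` = leaf data of a tree of shape `τ`, `PD τ` = backward parameters: every node has a time `s`,
the outgoing velocity `w` of the exhaust and the outgoing impact parameter `b`.  `bk Φ ε τ L p` are the
leaf data of the tree with root line `L` and parameters `p` at scale `ε`.
-/

open MeasureTheory Filter Topology Set
open scoped ENNReal NNReal RealInnerProductSpace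

noncomputable section

namespace Vale.Agent.P119.KT

open Vale.Agent.P119.KU
open Vale.Agent.P119.M (Shape)

theorem card_pos : ∀ τ : Shape, 0 < τ.card
  | .leaf => Nat.one_pos
  | .node a _ => Nat.add_pos_left (card_pos a) _

/-- Leaf data. -/
def LD : Shape → Type
  | .leaf => Ph
  | .node a b => LD a × LD b

instance instMeasurableSpaceLD : (τ : Shape) → MeasurableSpace (LD τ)
  | .leaf => inferInstanceAs (MeasurableSpace Ph)
  | .node a b => @Prod.instMeasurableSpace (LD a) (LD b) (instMeasurableSpaceLD a)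
      (instMeasurableSpaceLD b)

/-- Lebesgue measure on the leaf data. -/
def vol : (τ : Shape) → Measure (LD τ)
  | .leaf => (volume : Measure Ph)
  | .node a b => (vol a).prod (vol b)

instance instSigmaFiniteVol : (τ : Shape) → SigmaFinite (vol τ)
  | .leaf => inferInstanceAs (SigmaFinite (volume : Measure Ph))
  | .node a b => by
    have := instSigmaFiniteVol a
    have := instSigmaFiniteVol b
    exact inferInstanceAs (SigmaFinite ((vol a).prod (vol b)))

/-- Parameters of a node: time, outgoing velocity of the exhaust, impact parameter. -/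
abbrev ND := ℝ × E3 × E2

/-- The measure on the parameters of a node. -/
def nvol : Measure ND := (volume : Measure ND).restrict {q | ‖q.2.2‖ < 1}

instance : SigmaFinite nvol := by unfold nvol; infer_instance

/-- Backward parameters. -/
def PD : Shape → Type
  | .leaf => Unit
  | .node a b => ND × PD a × PD b

instance instMeasurableSpacePD : (τ : Shape) → MeasurableSpace (PD τ)
  | .leaf => inferInstanceAs (MeasurableSpace Unit)
  | .node a b => @Prod.instMeasurableSpace ND (PD a × PD b) _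
      (@Prod.instMeasurableSpace (PD a) (PD b) (instMeasurableSpacePD a)
      (instMeasurableSpacePD b))

/-- The measure on the parameters. -/
def pvol : (τ : Shape) → Measure (PD τ)
  | .leaf => (Measure.dirac () : Measure Unit)
  | .node a b => nvol.prod ((pvol a).prod (pvol b))

instance instSigmaFinitePvol : (τ : Shape) → SigmaFinite (pvol τ)
  | .leaf => inferInstanceAs (SigmaFinite (Measure.dirac () : Measure Unit))
  | .node a b => by
    have := instSigmaFinitePvol a
    have := instSigmaFinitePvol b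
    exact inferInstanceAs (SigmaFinite (nvol.prod ((pvol a).prod (pvol b))))

variable {Φ : E3 → ℝ}

/-- The relative outgoing line of a node (impact vector, outgoing relative velocity). -/
def outRel (v : E3) (q : ND) : Ph := (fr (v - q.2.1) q.2.2, v - q.2.1)

/-- The relative incoming line of a node, seen from the event. -/
def inRel (Φ : E3 → ℝ) (v : E3) (q : ND) : Ph := scatI Φ (outRel v q)

/-- The incoming velocities of a node. -/
def inVel (Φ : E3 → ℝ) (v : E3) (q : ND) : E3 × E3 :=
  (v - (1 / 2 : ℝ) • ((outRel v q).2 - (inRel Φ v q).2),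
   v - (1 / 2 : ℝ) • ((outRel v q).2 + (inRel Φ v q).2))

/-- The incoming lines of a node at scale `ε`, when the outgoing line of the first particle is
`L`. -/
def inLines (Φ : E3 → ℝ) (ε : ℝ) (L : Ph) (q : ND) : Ph × Ph :=
  ((L.1 + (q.1 / 2) • ((outRel L.2 q).2 - (inRel Φ L.2 q).2) +
      (ε / 2) • ((inRel Φ L.2 q).1 - (outRel L.2 q).1), (inVel Φ L.2 q).1),
   (L.1 + (q.1 / 2) • ((outRel L.2 q).2 + (inRel Φ L.2 q).2) -
      (ε / 2) • ((inRel Φ L.2 q).1 + (outRel L.2 q).1), (inVel Φ L.2 q).2))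

/-- The outgoing line of the exhaust of a node at scale `ε`. -/
def exLine (ε : ℝ) (L : Ph) (q : ND) : Ph :=
  (L.1 - (ε • (outRel L.2 q).1 - q.1 • (outRel L.2 q).2), q.2.1)

theorem outRel_snd (v : E3) (q : ND) : (outRel v q).2 = v - q.2.1 := rfl

theorem outRel_fst (v : E3) (q : ND) : (outRel v q).1 = fr (v - q.2.1) q.2.2 := rfl

theorem measurable_outRel : Measurable (fun x : E3 × ND => outRel x.1 x.2) := by
  unfold outRel
  have h1 : Measurable (fun x : E3 × ND => ((x.1 - x.2.2.1, x.2.2.2) : E3 × E2)) := by fun_prop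
  exact (measurable_fr.comp h1).prodMk (by fun_prop)

attribute [irreducible] outRel

theorem measurable_inRel (hΦ : IsPotential Φ) :
    Measurable (fun x : E3 × ND => inRel Φ x.1 x.2) :=
  (measurable_scatI hΦ).comp measurable_outRel

theorem inRel_def (v : E3) (q : ND) : inRel Φ v q = scatI Φ (outRel v q) := rfl

attribute [irreducible] inRel

theorem measurable_inVel (hΦ : IsPotential Φ) :
    Measurable (fun x : E3 × ND => inVel Φ x.1 x.2) := by
  have h1 := measurable_outRel.snd
  have h2 := (measurable_inRel hΦ).snd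
  exact (measurable_fst.sub ((h1.sub h2).const_smul (1 / 2 : ℝ))).prodMk
    (measurable_fst.sub ((h1.add h2).const_smul (1 / 2 : ℝ)))

theorem inVel_def (v : E3) (q : ND) : inVel Φ v q =
    (v - (1 / 2 : ℝ) • ((outRel v q).2 - (inRel Φ v q).2),
      v - (1 / 2 : ℝ) • ((outRel v q).2 + (inRel Φ v q).2)) := rfl

attribute [irreducible] inVel

theorem measurable_inLines (hΦ : IsPotential Φ) (ε : ℝ) :
    Measurable (fun x : Ph × ND => inLines Φ ε x.1 x.2) := by
  have h0 : Measurable (fun x : Ph × ND => ((x.1.2, x.2) : E3 × ND)) :=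
    (measurable_snd.comp measurable_fst).prodMk measurable_snd
  have h1 : Measurable (fun x : Ph × ND => (outRel x.1.2 x.2)) := measurable_outRel.comp h0
  have h2 : Measurable (fun x : Ph × ND => (inRel Φ x.1.2 x.2)) := (measurable_inRel hΦ).comp h0
  have h3 : Measurable (fun x : Ph × ND => (inVel Φ x.1.2 x.2)) := (measurable_inVel hΦ).comp h0
  have h4 : Measurable (fun x : Ph × ND => x.2.1 / 2) :=
    (measurable_fst.comp measurable_snd).div_const 2
  have h5 : Measurable (fun x : Ph × ND => x.1.1) := measurable_fst.comp measurable_fst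
  refine Measurable.prodMk (Measurable.prodMk ?_ h3.fst) (Measurable.prodMk ?_ h3.snd)
  · exact (h5.add (h4.smul (h1.snd.sub h2.snd))).add ((h2.fst.sub h1.fst).const_smul (ε / 2))
  · exact (h5.add (h4.smul (h1.snd.add h2.snd))).sub ((h2.fst.add h1.fst).const_smul (ε / 2))

theorem measurable_exLine (ε : ℝ) : Measurable (fun x : Ph × ND => exLine ε x.1 x.2) := by
  have h0 : Measurable (fun x : Ph × ND => ((x.1.2, x.2) : E3 × ND)) :=
    (measurable_snd.comp measurable_fst).prodMk measurable_snd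
  have h1 : Measurable (fun x : Ph × ND => (outRel x.1.2 x.2)) := measurable_outRel.comp h0
  have h4 : Measurable (fun x : Ph × ND => x.2.1) := measurable_fst.comp measurable_snd
  have h5 : Measurable (fun x : Ph × ND => x.1.1) := measurable_fst.comp measurable_fst
  exact (h5.sub ((h1.fst.const_smul ε).sub (h4.smul h1.snd))).prodMk
    (measurable_fst.comp (measurable_snd.comp measurable_snd))

theorem rel_exLine {ε : ℝ} (hε : ε ≠ 0) (L : Ph) (q : ND) :
    rel ε (L, exLine ε L q) = free (-(q.1 / ε)) (outRel L.2 q) := by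
  unfold rel dil exLine free
  ext1
  · simp only [Prod.fst_sub, sub_sub_cancel]
    rw [smul_sub, smul_smul, smul_smul, inv_mul_cancel₀ hε, one_smul, neg_smul, sub_eq_add_neg]
    congr 3
    field_simp
  · simp only [Prod.snd_sub]
    rw [outRel_snd]

theorem pm_exLine (hΦ : IsPotential Φ) {ε : ℝ} (hε : ε ≠ 0) (L : Ph) (q : ND) :
    pm (scatI Φ) ε (L, exLine ε L q) = inLines Φ ε L q := by
  have h1 : dil ε⁻¹ (cr (L, exLine ε L q)).2 = free (-(q.1 / ε)) (outRel L.2 q) :=
    rel_exLine hε L q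
  unfold pm
  rw [h1, scatI_free hΦ]
  have h2 : scatI Φ (outRel L.2 q) = inRel Φ L.2 q := (inRel_def L.2 q).symm
  rw [h2]
  have h3 : (ε : ℝ) * (q.1 / ε) = q.1 := by field_simp
  have h4 : dil ε (free (-(q.1 / ε)) (inRel Φ L.2 q)) =
      (ε • (inRel Φ L.2 q).1 - q.1 • (inRel Φ L.2 q).2, (inRel Φ L.2 q).2) := by
    unfold dil free
    simp only
    rw [smul_add, neg_smul, smul_neg, smul_smul, h3, sub_eq_add_neg]
  rw [h4]
  have h6 : (cr (L, exLine ε L q)).1 = (L.1 - (1 / 2 : ℝ) • (ε • (outRel L.2 q).1 -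
      q.1 • (outRel L.2 q).2), L.2 - (1 / 2 : ℝ) • (outRel L.2 q).2) := by
    unfold cr exLine
    ext1
    · simp only [Prod.fst_sub, Prod.smul_fst, sub_sub_cancel]
    · simp only [Prod.snd_sub, Prod.smul_snd]
      rw [outRel_snd]
  rw [h6]
  unfold crI inLines
  rw [inVel_def]
  generalize outRel L.2 q = o
  generalize inRel Φ L.2 q = i
  ext1
  · ext1
    · simp only [Prod.fst_add, Prod.smul_fst]
      module
    · simp only [Prod.snd_add, Prod.smul_snd]
      module
  · ext1
    · simp only [Prod.fst_sub, Prod.smul_fst]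
      module
    · simp only [Prod.snd_sub, Prod.smul_snd]
      module

theorem exLine_def (ε : ℝ) (L : Ph) (q : ND) : exLine ε L q =
    (L.1 - (ε • (outRel L.2 q).1 - q.1 • (outRel L.2 q).2), q.2.1) := rfl

theorem inLines_def (ε : ℝ) (L : Ph) (q : ND) : inLines Φ ε L q =
  ((L.1 + (q.1 / 2) • ((outRel L.2 q).2 - (inRel Φ L.2 q).2) +
      (ε / 2) • ((inRel Φ L.2 q).1 - (outRel L.2 q).1), (inVel Φ L.2 q).1),
   (L.1 + (q.1 / 2) • ((outRel L.2 q).2 + (inRel Φ L.2 q).2) -
      (ε / 2) • ((inRel Φ L.2 q).1 + (outRel L.2 q).1), (inVel Φ L.2 q).2)) := rfl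

attribute [irreducible] exLine inLines

/-- The leaf data of the tree with root line `L` and parameters `p`. -/
def bk (Φ : E3 → ℝ) (ε : ℝ) : (τ : Shape) → Ph → PD τ → LD τ
  | .leaf, L, _ => L
  | .node a b, L, p => (bk Φ ε a (inLines Φ ε L p.1).1 p.2.1, bk Φ ε b (inLines Φ ε L p.1).2 p.2.2)

/-- The weight: the product of the relative speeds at the nodes. -/
def wgt (Φ : E3 → ℝ) : (τ : Shape) → E3 → PD τ → ℝ≥0∞
  | .leaf, _, _ => 1
  | .node a b, v, p => ‖v - p.1.2.1‖ₑ * (wgt Φ a (inVel Φ v p.1).1 p.2.1 *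
      wgt Φ b (inVel Φ v p.1).2 p.2.2)

/-- The (full measure) set of good parameters. -/
def good (Φ : E3 → ℝ) : (τ : Shape) → E3 → PD τ → Prop
  | .leaf, _, _ => True
  | .node a b, v, p => (v - p.1.2.1 ≠ 0 ∧ ‖p.1.2.2‖ < 1 ∧ Exits Φ (rev (outRel v p.1))) ∧
      good Φ a (inVel Φ v p.1).1 p.2.1 ∧ good Φ b (inVel Φ v p.1).2 p.2.2

/-- The root line of a tree. -/
def root (Φ : E3 → ℝ) (ε : ℝ) : (τ : Shape) → LD τ → Ph
  | .leaf, z => z
  | .node a b, z => (pm (scat Φ) ε (root Φ ε a z.1, root Φ ε b z.2)).1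

/-- All the pairs of lines meet, and leave each other. -/
def col (Φ : E3 → ℝ) (ε : ℝ) : (τ : Shape) → Set (LD τ)
  | .leaf => univ
  | .node a b => {z | (z.1 ∈ col Φ ε a ∧ z.2 ∈ col Φ ε b) ∧
      Hit (rel ε (root Φ ε a z.1, root Φ ε b z.2)) ∧
      Exits Φ (rel ε (root Φ ε a z.1, root Φ ε b z.2))}

theorem lintegral_ex_aux {ε : ℝ} (hε : 0 < ε) (L : Ph) {g : Ph → ℝ≥0∞} (hgm : Measurable g)
    (hg0 : ∀ y, g (y, L.2) = 0) :
    ∫⁻ L₂, g L₂ =
      ENNReal.ofReal (ε ^ 2) * ∫⁻ q : ND, ‖L.2 - q.2.1‖ₑ * g (exLine ε L q) := by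
  have hε0 : ε ≠ 0 := hε.ne'
  have hex : Measurable (fun q : ND => exLine ε L q) :=
    (measurable_exLine ε).comp (measurable_const.prodMk measurable_id)
  have hgx : Measurable (fun q : ND => g (exLine ε L q)) := hgm.comp hex
  have hsp : Measurable fun q : ND => ‖L.2 - q.2.1‖ₑ := by fun_prop
  have hRm : Measurable (fun q : ND => ‖L.2 - q.2.1‖ₑ * g (exLine ε L q)) := hsp.mul hgx
  have hL : ∫⁻ L₂, g L₂ = ∫⁻ w : E3, ∫⁻ y : E3, g (y, w) := by
    rw [Measure.volume_eq_prod, lintegral_prod_symm _ hgm.aemeasurable]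
  have hR2 : ∫⁻ q : ND, ‖L.2 - q.2.1‖ₑ * g (exLine ε L q) =
      ∫⁻ w : E3, ‖L.2 - w‖ₑ * ∫⁻ s : ℝ, ∫⁻ b : E2, g (exLine ε L (s, w, b)) := by
    generalize hG : (fun q : ND => g (exLine ε L q)) = G at hgx
    have hGe : ∀ q : ND, g (exLine ε L q) = G q := fun q => congrFun hG q
    simp only [hGe]
    have hm0 : Measurable (fun q : ND => ‖L.2 - q.2.1‖ₑ * G q) := hsp.mul hgx
    have h1 : ∫⁻ q : ND, ‖L.2 - q.2.1‖ₑ * G q =
        ∫⁻ s : ℝ, ∫⁻ y : E3 × E2, ‖L.2 - y.1‖ₑ * G (s, y) := by
      rw [Measure.volume_eq_prod, lintegral_prod _ hm0.aemeasurable]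
    have h2 : ∀ s : ℝ, ∫⁻ y : E3 × E2, ‖L.2 - y.1‖ₑ * G (s, y) =
        ∫⁻ w : E3, ∫⁻ b : E2, ‖L.2 - w‖ₑ * G (s, w, b) := by
      intro s
      have hm1 : Measurable (fun y : E3 × E2 => ‖L.2 - y.1‖ₑ * G (s, y)) :=
        (by fun_prop : Measurable fun y : E3 × E2 => ‖L.2 - y.1‖ₑ).mul
          (hgx.comp (measurable_const.prodMk measurable_id))
      rw [Measure.volume_eq_prod, lintegral_prod _ hm1.aemeasurable]
    rw [h1]
    simp only [h2]
    have hm3 : Measurable (fun x : (ℝ × E3) × E2 => ‖L.2 - x.1.2‖ₑ * G (x.1.1, x.1.2, x.2)) :=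
      (by fun_prop : Measurable fun x : (ℝ × E3) × E2 => ‖L.2 - x.1.2‖ₑ).mul
        (hgx.comp ((measurable_fst.comp measurable_fst).prodMk
          ((measurable_snd.comp measurable_fst).prodMk measurable_snd)))
    rw [lintegral_lintegral_swap hm3.lintegral_prod_right'.aemeasurable]
    congr 1; funext w
    have hm2 : Measurable (fun x : ℝ × E2 => G (x.1, w, x.2)) :=
      hgx.comp (measurable_fst.prodMk (measurable_const.prodMk measurable_snd))
    rw [← lintegral_const_mul _ hm2.lintegral_prod_right']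
    congr 1; funext s
    rw [lintegral_const_mul]
    exact hm2.comp (measurable_const.prodMk measurable_id)
  rw [hL, hR2, ← lintegral_const_mul']
  swap
  · exact ENNReal.ofReal_ne_top
  congr 1; funext w
  -- fixed outgoing velocity
  have hgw : Measurable (fun y : E3 => g (y, w)) := hgm.comp (measurable_id.prodMk measurable_const)
  by_cases hV : L.2 - w = 0
  · have h1 : ∀ y : E3, g (y, w) = 0 := by
      intro y
      rw [← sub_eq_zero.1 hV]; exact hg0 y
    simp only [h1, lintegral_zero, hV, enorm_zero, zero_mul, mul_zero]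
  -- `y = L.1 - ε r`
  have h1 : ∫⁻ y : E3, g (y, w) = ENNReal.ofReal (ε ^ 3) * ∫⁻ r : E3, g (L.1 - ε • r, w) := by
    have h2 : ∫⁻ y : E3, g (y, w) = ∫⁻ r : E3, g (L.1 - r, w) :=
      (lintegral_sub_left_eq_self (fun y : E3 => g (y, w)) L.1).symm
    have h3 : ∫⁻ r : E3, g (L.1 - ε • r, w) =
        ENNReal.ofReal (ε⁻¹ ^ 3) * ∫⁻ r : E3, g (L.1 - r, w) := by
      have h4 := Measure.map_addHaar_smul (volume : Measure E3) hε0
      have hm4 : Measurable (fun r : E3 => g (L.1 - r, w)) := hgw.comp (by fun_prop)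
      have h5 : ∫⁻ r : E3, g (L.1 - ε • r, w) =
          ∫⁻ r : E3, g (L.1 - r, w) ∂(Measure.map (ε • ·) volume) := by
        rw [lintegral_map hm4 (by fun_prop)]
      rw [h5, h4, lintegral_smul_measure, smul_eq_mul]
      congr 2
      rw [finrank_euclideanSpace, Fintype.card_fin, abs_of_pos (by positivity), inv_pow]
    rw [h2, h3, ← mul_assoc, ← ENNReal.ofReal_mul (by positivity), ← mul_pow,
      mul_inv_cancel₀ hε0, one_pow, ENNReal.ofReal_one, one_mul]
  have hgr : Measurable (fun r : E3 => g (L.1 - ε • r, w)) := hgw.comp (by fun_prop)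
  rw [h1, lintegral_frame hV hgr]
  -- `s = ε s'`
  have h6 : ∫⁻ s : ℝ, ∫⁻ b : E2, g (exLine ε L (s, w, b)) =
      ENNReal.ofReal ε * ∫⁻ s : ℝ, ∫⁻ b : E2,
        g (L.1 - ε • (fr (L.2 - w) b - s • (L.2 - w)), w) := by
    generalize hφ : (fun s : ℝ => ∫⁻ b : E2, g (exLine ε L (s, w, b))) = φ
    have hφe : ∀ s, ∫⁻ b : E2, g (exLine ε L (s, w, b)) = φ s := fun s => congrFun hφ s
    have hφm : Measurable φ := by
      have hm2 : Measurable (fun x : ℝ × E2 => g (exLine ε L (x.1, w, x.2))) :=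
        hgx.comp (measurable_fst.prodMk (measurable_const.prodMk measurable_snd))
      rw [← hφ]
      exact hm2.lintegral_prod_right'
    have h7 : ∀ s : ℝ, ∫⁻ b : E2, g (L.1 - ε • (fr (L.2 - w) b - s • (L.2 - w)), w) =
        φ (ε * s) := by
      intro s
      rw [← hφe]
      congr 1; funext b
      congr 1
      rw [exLine_def, outRel_fst, outRel_snd]
      simp only
      ext1
      · simp only; module
      · rfl
    simp only [h7]
    have h8 : ∫⁻ s : ℝ, φ (ε * s) = ENNReal.ofReal |ε⁻¹| * ∫⁻ c, φ c := by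
      have h9 := Real.map_volume_mul_left (a := ε) hε0
      have h10 : ∫⁻ s : ℝ, φ (ε * s) = ∫⁻ c, φ c ∂(Measure.map (ε * ·) volume) := by
        rw [lintegral_map hφm (by fun_prop)]
      rw [h10, h9, lintegral_smul_measure, smul_eq_mul]
    rw [h8, ← mul_assoc, ← ENNReal.ofReal_mul hε.le, abs_of_pos (by positivity),
      mul_inv_cancel₀ hε0, ENNReal.ofReal_one, one_mul]
  rw [h6]
  have h11 : ENNReal.ofReal (ε ^ 3) = ENNReal.ofReal (ε ^ 2) * ENNReal.ofReal ε := by
    rw [← ENNReal.ofReal_mul (by positivity)]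
    congr 1
  rw [h11]
  ring

/-- The change of variables from the second line of a pair to the parameters of a node. -/
theorem lintegral_ex {ε : ℝ} (hε : 0 < ε) (L : Ph) {h : Ph → ℝ≥0∞} (hm : Measurable h) :
    ∫⁻ L₂, {L₂ | Hit (rel ε (L, L₂))}.indicator h L₂ =
      ENNReal.ofReal (ε ^ 2) * ∫⁻ q, ‖L.2 - q.2.1‖ₑ * h (exLine ε L q) ∂nvol := by
  have hε0 : ε ≠ 0 := hε.ne'
  have hmeas : MeasurableSet {L₂ : Ph | Hit (rel ε (L, L₂))} :=
    ((measurable_rel ε).comp (measurable_const.prodMk measurable_id)) measurableSet_hit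
  rw [lintegral_ex_aux hε L (hm.indicator hmeas)]
  · congr 1
    have hball : MeasurableSet {q : ND | ‖q.2.2‖ < 1} :=
      measurableSet_lt (by fun_prop) measurable_const
    unfold nvol
    rw [← lintegral_indicator hball]
    congr 1; funext q
    by_cases hV : L.2 - q.2.1 = 0
    · rw [hV, enorm_zero, zero_mul]
      by_cases hb : q ∈ {q : ND | ‖q.2.2‖ < 1}
      · rw [indicator_of_mem hb, hV, enorm_zero, zero_mul]
      · rw [indicator_of_notMem hb]
    · have h1 : Hit (rel ε (L, exLine ε L q)) ↔ ‖q.2.2‖ < 1 := by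
        rw [rel_exLine hε0, hit_free]
        have h2 := hit_frame hV 0 q.2.2
        rw [zero_smul, sub_zero] at h2
        have h3 : outRel L.2 q = (fr (L.2 - q.2.1) q.2.2, L.2 - q.2.1) := by unfold outRel; rfl
        rw [h3]; exact h2
      by_cases hb : ‖q.2.2‖ < 1
      · rw [indicator_of_mem (s := {q : ND | ‖q.2.2‖ < 1}) (by exact hb),
          indicator_of_mem (by exact h1.2 hb)]
      · rw [indicator_of_notMem (s := {q : ND | ‖q.2.2‖ < 1}) (by exact hb),
          indicator_of_notMem (by intro h4; exact hb (h1.1 h4)), mul_zero]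
  · intro y
    rw [indicator_of_notMem]
    intro h2
    have h3 : (rel ε (L, ((y, L.2) : Ph))).2 = L.2 - L.2 := rfl
    exact Hit.ne h2 (by rw [h3, sub_self])

/-- The change of variables for a node. -/
theorem lintegral_node (hΦ : IsPotential Φ) {ε : ℝ} (hε : 0 < ε) {K : Ph × Ph → ℝ≥0∞}
    (hK : Measurable K) :
    ∫⁻ q, {q | Hit (rel ε q) ∧ Exits Φ (rel ε q)}.indicator K q =
      ENNReal.ofReal (ε ^ 2) * ∫⁻ L : Ph, ∫⁻ q, ‖L.2 - q.2.1‖ₑ *
        ({q : ND | Exits Φ (rev (outRel L.2 q))}.indicator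
          (fun q => K (inLines Φ ε L q)) q) ∂nvol := by
  have hε0 : ε ≠ 0 := hε.ne'
  rw [lintegral_pair hΦ hε0 hK]
  have hpI := pm_preserving (measurePreserving_scatI hΦ) hε0
  have hA' : MeasurableSet {q : Ph × Ph | Hit (rel ε q) ∧ Exits Φ (rev (rel ε q))} :=
    (measurable_rel ε measurableSet_hit).inter
      ((measurable_rev.comp (measurable_rel ε)) (measurableSet_exits hΦ))
  have hm : Measurable ({q : Ph × Ph | Hit (rel ε q) ∧ Exits Φ (rev (rel ε q))}.indicator
      (fun q => K (pm (scatI Φ) ε q))) := (hK.comp hpI.measurable).indicator hA'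
  rw [Measure.volume_eq_prod, lintegral_prod _ hm.aemeasurable, ← lintegral_const_mul']
  swap
  · exact ENNReal.ofReal_ne_top
  congr 1; funext L
  set h : Ph → ℝ≥0∞ := {L₂ : Ph | Exits Φ (rev (rel ε (L, L₂)))}.indicator
    (fun L₂ => K (pm (scatI Φ) ε (L, L₂))) with hh
  have hE : MeasurableSet {L₂ : Ph | Exits Φ (rev (rel ε (L, L₂)))} :=
    (measurable_rev.comp ((measurable_rel ε).comp (measurable_const.prodMk measurable_id)))
      (measurableSet_exits hΦ)
  have hhm : Measurable h :=
    ((hK.comp hpI.measurable).comp (measurable_const.prodMk measurable_id)).indicator hE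
  have h1 : ∀ L₂ : Ph, {q : Ph × Ph | Hit (rel ε q) ∧ Exits Φ (rev (rel ε q))}.indicator
      (fun q => K (pm (scatI Φ) ε q)) (L, L₂) = {L₂ | Hit (rel ε (L, L₂))}.indicator h L₂ := by
    intro L₂
    by_cases ha : Hit (rel ε (L, L₂))
    · by_cases hb : Exits Φ (rev (rel ε (L, L₂)))
      · rw [indicator_of_mem (by exact ⟨ha, hb⟩), indicator_of_mem (by exact ha), hh,
          indicator_of_mem (by exact hb)]
      · rw [indicator_of_notMem (fun hc => hb hc.2), indicator_of_mem (by exact ha), hh,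
          indicator_of_notMem (by exact hb)]
    · rw [indicator_of_notMem (fun hc => ha hc.1), indicator_of_notMem (by exact ha)]
  simp only [h1]
  rw [lintegral_ex hε L hhm]
  congr 1
  refine lintegral_congr fun q => ?_
  congr 1
  have h2 : Exits Φ (rev (rel ε (L, exLine ε L q))) ↔ Exits Φ (rev (outRel L.2 q)) := by
    rw [rel_exLine hε0, rev_free, exits_free hΦ]
  by_cases hb : Exits Φ (rev (outRel L.2 q))
  · rw [hh, indicator_of_mem (by exact h2.2 hb), indicator_of_mem (by exact hb),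
      pm_exLine hΦ hε0]
  · rw [hh, indicator_of_notMem (by intro hc; exact hb (h2.1 hc)), indicator_of_notMem (by exact hb)]

end Vale.Agent.P119.KT
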