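import Vale.Agent.P119.KT.HitConv

/-!
# P119, block KT (`helper755`): translations of the backward trees

* `addL h z`: the translation of the leaf data; `bk_add`: equivariance of `bk`;
* `fl τ z`: the first leaf; `flv Φ τ v p`, `fls Φ ε τ v p`: its velocity and its displacement
  (`fl_bk`); `tendsto_fls`;
* `lintegral_fl_bk`: the integral over the position of the root of a function of the first leaf;
* `lprod_le_fl`: domination of the product with one factor kept.
-/

open MeasureTheory Filter Topology Set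
open scoped ENNReal NNReal RealInnerProductSpace

noncomputable section

namespace Vale.Agent.P119.KT

open Vale.Agent.P119.KU
open Vale.Agent.P119.M (Shape)

variable {Φ : E3 → ℝ} {ε : ℝ}

/-- Translation of the leaf data. -/
def addL (h : E3) : (τ : Shape) → LD τ → LD τ
  | .leaf, z => (z.1 + h, z.2)
  | .node a b, z => (addL h a z.1, addL h b z.2)

theorem inLines_add (ε : ℝ) (L : Ph) (h : E3) (q : ND) :
    inLines Φ ε (L.1 + h, L.2) q =
      (((inLines Φ ε L q).1.1 + h, (inLines Φ ε L q).1.2),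
        ((inLines Φ ε L q).2.1 + h, (inLines Φ ε L q).2.2)) := by
  rw [inLines_def, inLines_def]
  simp only
  ext1
  · ext1
    · simp only; module
    · rfl
  · ext1
    · simp only; module
    · rfl

/-- The backward trees are equivariant. -/
theorem bk_add (ε : ℝ) (h : E3) : ∀ (τ : Shape) (L : Ph) (p : PD τ),
    bk Φ ε τ (L.1 + h, L.2) p = addL h τ (bk Φ ε τ L p)
  | .leaf, _, _ => rfl
  | .node a b, L, p => by
    have e1 : bk Φ ε (.node a b) (L.1 + h, L.2) p =
        (bk Φ ε a (inLines Φ ε (L.1 + h, L.2) p.1).1 p.2.1,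
          bk Φ ε b (inLines Φ ε (L.1 + h, L.2) p.1).2 p.2.2) := rfl
    have ha := bk_add ε h a (inLines Φ ε L p.1).1 p.2.1
    have hb := bk_add ε h b (inLines Φ ε L p.1).2 p.2.2
    rw [e1, inLines_add]
    simp only
    rw [ha, hb]
    rfl

/-- The first leaf. -/
def fl : (τ : Shape) → LD τ → Ph
  | .leaf, z => z
  | .node a _, z => fl a z.1

/-- The velocity of the first leaf. -/
def flv (Φ : E3 → ℝ) : (τ : Shape) → E3 → PD τ → E3
  | .leaf, v, _ => v
  | .node a _, v, p => flv Φ a (inVel Φ v p.1).1 p.2.1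

/-- The displacement of the first leaf with respect to the root line. -/
def fls (Φ : E3 → ℝ) (ε : ℝ) : (τ : Shape) → E3 → PD τ → E3
  | .leaf, _, _ => 0
  | .node a _, v, p => (p.1.1 / 2) • ((outRel v p.1).2 - (inRel Φ v p.1).2) +
      (ε / 2) • ((inRel Φ v p.1).1 - (outRel v p.1).1) + fls Φ ε a (inVel Φ v p.1).1 p.2.1

theorem measurable_fl : ∀ τ : Shape, Measurable (fl τ)
  | .leaf => measurable_id
  | .node a _ => (measurable_fl a).comp measurable_fst

theorem measurable_flv (hΦ : IsPotential Φ) : ∀ τ : Shape,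
    Measurable fun x : E3 × PD τ => flv Φ τ x.1 x.2
  | .leaf => measurable_fst
  | .node a b => by
    have h0 : Measurable fun x : E3 × (ND × PD a × PD b) => (x.1, x.2.1) := by fun_prop
    have hv := (measurable_inVel hΦ).comp h0
    have h2 : Measurable fun x : E3 × (ND × PD a × PD b) =>
      (((inVel Φ x.1 x.2.1).1, x.2.2.1) : E3 × PD a) := hv.fst.prodMk (by fun_prop)
    exact (measurable_flv hΦ a).comp h2

/-- The first leaf of the backward tree. -/
theorem fl_bk (ε : ℝ) : ∀ (τ : Shape) (L : Ph) (p : PD τ),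
    fl τ (bk Φ ε τ L p) = (L.1 + fls Φ ε τ L.2 p, flv Φ τ L.2 p)
  | .leaf, L, _ => by
    change L = (L.1 + 0, L.2)
    rw [add_zero]
  | .node a b, L, p => by
    have h := fl_bk ε a (inLines Φ ε L p.1).1 p.2.1
    change fl a (bk Φ ε a (inLines Φ ε L p.1).1 p.2.1) = _
    rw [h, inLines_def]
    ext1
    · change _ = L.1 + ((p.1.1 / 2) • ((outRel L.2 p.1).2 - (inRel Φ L.2 p.1).2) +
        (ε / 2) • ((inRel Φ L.2 p.1).1 - (outRel L.2 p.1).1) +
          fls Φ ε a (inVel Φ L.2 p.1).1 p.2.1)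
      simp only
      abel
    · rfl

/-- The integral over the position of the root line. -/
theorem lintegral_fl_bk (ε : ℝ) (τ : Shape) (v : E3) (p : PD τ) (c : E3) (g : Ph → ℝ≥0∞) :
    ∫⁻ x, g (fl τ (bk Φ ε τ (x + c, v) p)) = ∫⁻ x, g (x, flv Φ τ v p) := by
  have h1 : ∀ x, g (fl τ (bk Φ ε τ (x + c, v) p)) =
      (fun y => g (y, flv Φ τ v p)) (x + (c + fls Φ ε τ v p)) := fun x => by
    rw [fl_bk]
    simp only
    rw [add_assoc]
  simp only [h1]
  exact lintegral_add_right_eq_self (fun y => g (y, flv Φ τ v p)) (c + fls Φ ε τ v p)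

theorem tendsto_fls {ι : Type*} {l : Filter ι} {εs : ι → ℝ} {ε0 : ℝ} (hε : Tendsto εs l (𝓝 ε0)) :
    ∀ (τ : Shape) (v : E3) (p : PD τ),
    Tendsto (fun i => fls Φ (εs i) τ v p) l (𝓝 (fls Φ ε0 τ v p))
  | .leaf, _, _ => tendsto_const_nhds
  | .node a b, v, p => by
    have h2 : Tendsto (fun i => εs i / 2) l (𝓝 (ε0 / 2)) := hε.div_const 2
    exact (tendsto_const_nhds.add (h2.smul_const _)).add
      (tendsto_fls hε a (inVel Φ v p.1).1 p.2.1)

/-- The energy of the leaves except the first one. -/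
theorem flv_sq_le (hΦ : IsPotential Φ) : ∀ (τ : Shape) (v : E3) (p : PD τ),
    ‖flv Φ τ v p‖ ^ 2 ≤ ‖v‖ ^ 2 + enP τ p
  | .leaf, v, _ => by
    change ‖v‖ ^ 2 ≤ ‖v‖ ^ 2 + 0
    rw [add_zero]
  | .node a b, v, p => by
    have h := flv_sq_le hΦ a (inVel Φ v p.1).1 p.2.1
    change ‖flv Φ a (inVel Φ v p.1).1 p.2.1‖ ^ 2 ≤
      ‖v‖ ^ 2 + (‖p.1.2.1‖ ^ 2 + (enP a p.2.1 + enP b p.2.2))
    have h2 := inVel_energy hΦ v p.1
    have h3 := enP_nonneg b p.2.2
    nlinarith [sq_nonneg ‖(inVel Φ v p.1).2‖]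

/-- Domination of the product, with the first factor kept. -/
theorem lprod_le_fl {g : Ph → ℝ≥0∞} {M β : ℝ} (hM : 0 ≤ M)
    (hg : ∀ x v, g (x, v) ≤ KE.gs M β v) :
    ∀ (τ : Shape) (z : LD τ), lprod g τ z ≤ g (fl τ z) *
      ENNReal.ofReal (M ^ (τ.card - 1) * Real.exp (-β * (enL τ z - ‖(fl τ z).2‖ ^ 2)))
  | .leaf, z => by
    have e : M ^ (Shape.card .leaf - 1) = 1 := pow_zero M
    have e2 : enL .leaf z - ‖(fl .leaf z).2‖ ^ 2 = 0 := sub_self _
    rw [e, e2, mul_zero, Real.exp_zero, mul_one, ENNReal.ofReal_one, mul_one]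
    exact le_rfl
  | .node a b, z => by
    have h := mul_le_mul' (lprod_le_fl hM hg a z.1) (lprod_le hM hg b z.2)
    refine h.trans (le_of_eq ?_)
    rw [mul_assoc, ← ENNReal.ofReal_mul (by positivity)]
    change _ = g (fl a z.1) * _
    congr 2
    have e1 : M ^ (Shape.card (.node a b) - 1) = M ^ (a.card - 1) * M ^ b.card := by
      rw [← pow_add]
      congr 1
      have := card_pos a
      change a.card + b.card - 1 = a.card - 1 + b.card
      omega
    have e2 : Real.exp (-β * (enL (.node a b) z - ‖(fl (.node a b) z).2‖ ^ 2)) =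
        Real.exp (-β * (enL a z.1 - ‖(fl a z.1).2‖ ^ 2)) * Real.exp (-β * enL b z.2) := by
      rw [← Real.exp_add, ← mul_add]
      congr 2
      change enL a z.1 + enL b z.2 - ‖(fl a z.1).2‖ ^ 2 = _
      ring
    rw [e1, e2]
    ring

end Vale.Agent.P119.KT
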