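import Vale.Agent.P119.ML.Germ
import Vale.Agent.P119.ML.IrrMass
import Vale.Agent.P119.KT.Meet
import Vale.Agent.P119.KT.Mix
import Vale.Agent.P119.KT.HitConv

/-!
# P119, block KT (`helper256`): from kinetic lines to lines at small `ε`

* `tube`: two germs of lines which do not meet at `ε = 0` in a closed interval are at a distance
  `> K ε` for small `ε`;
* `hit_near`: a hit of a germ of a tree is close to a leg; `oc_near`: the subtrees are on the legs;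
* `legs_apart`, `cross`, `self_clean`: a generic forest does not hit itself.
-/

open MeasureTheory Filter Topology Set
open scoped ENNReal NNReal

noncomputable section

namespace Vale.Agent.P119.KT

open KU M CTree ML
open Vale.Agent.P119.M (Shape)

variable {Φ : E3 → ℝ} {ε : ℝ}

theorem ev_pos : ∀ᶠ ε in 𝓝[>] (0 : ℝ), 0 < ε := self_mem_nhdsWithin

theorem tendsto_mul_zero (c : ℝ) : Tendsto (fun ε : ℝ => c * ε) (𝓝[>] (0 : ℝ)) (𝓝 0) := by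
  have h : Tendsto (fun ε : ℝ => c * ε) (𝓝 (0 : ℝ)) (𝓝 (c * 0)) :=
    (continuous_const.mul continuous_id).tendsto 0
  rw [mul_zero] at h
  exact h.mono_left nhdsWithin_le_nhds

theorem ev_mul_lt (c : ℝ) {δ : ℝ} (hδ : 0 < δ) : ∀ᶠ ε in 𝓝[>] (0 : ℝ), c * ε < δ :=
  (tendsto_mul_zero c).eventually_lt_const hδ

theorem free_lat (σ ε : ℝ) (α : LG) :
    (KU.free σ (lat ε α)).1 = (KU.free σ α.1).1 + ε • α.2 := by
  unfold KU.free lat; simp only; module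

/-- **Tube lemma.** -/
theorem tube (α β : LG) {lo hi : ℝ} (h : ∀ σ, lo ≤ σ → σ ≤ hi → ¬meetAt α.1 β.1 σ) {K : ℝ}
    (hK : 0 ≤ K) : ∀ᶠ ε in 𝓝[>] (0 : ℝ), ∀ σ, lo - K * ε ≤ σ → σ ≤ hi + K * ε →
      K * ε < ‖(KU.free σ (lat ε α)).1 - (KU.free σ (lat ε β)).1‖ := by
  rcases lt_or_ge hi lo with hlt | hle
  · have h1 : 0 < (lo - hi) / 2 := by linarith
    filter_upwards [ev_mul_lt K h1] with ε hε σ h2 h3
    exfalso
    linarith
  · set f : ℝ → ℝ := fun σ => ‖(KU.free σ α.1).1 - (KU.free σ β.1).1‖ with hf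
    have hfc : Continuous f := by
      rw [hf]; unfold KU.free; fun_prop
    obtain ⟨σ₀, hσ₀, hmin⟩ := isCompact_Icc.exists_isMinOn (nonempty_Icc.2 hle) hfc.continuousOn
    have hδ : 0 < f σ₀ := by
      refine norm_pos_iff.2 (sub_ne_zero.2 fun h0 => h σ₀ hσ₀.1 hσ₀.2 h0)
    set V : ℝ := ‖α.1.2 - β.1.2‖ with hV
    set E : ℝ := ‖α.2 - β.2‖ with hE
    filter_upwards [ev_mul_lt (K * V + E + K) hδ, ev_pos] with ε h1 hε σ h2 h3
    set σ' : ℝ := max lo (min σ hi) with hσ'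
    have hσ'm : σ' ∈ Icc lo hi := ⟨le_max_left _ _, max_le hle (min_le_right _ _)⟩
    have habs : |σ - σ'| ≤ K * ε := by
      have hKε : 0 ≤ K * ε := by positivity
      rcases le_total σ hi with h4 | h4
      · rcases le_total lo σ with h5 | h5
        · have : σ' = σ := by rw [hσ', min_eq_left h4, max_eq_right h5]
          rw [this, sub_self, abs_zero]; exact hKε
        · have : σ' = lo := by rw [hσ', min_eq_left h4, max_eq_left h5]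
          rw [this, abs_of_nonpos (by linarith)]; linarith
      · have : σ' = hi := by rw [hσ', min_eq_right h4, max_eq_right hle]
        rw [this, abs_of_nonneg (by linarith)]; linarith
    have hmin' : f σ₀ ≤ f σ' := hmin hσ'm
    have e1 : (KU.free σ' α.1).1 - (KU.free σ' β.1).1 =
        ((KU.free σ (lat ε α)).1 - (KU.free σ (lat ε β)).1) -
          ((σ - σ') • (α.1.2 - β.1.2) + ε • (α.2 - β.2)) := by
      unfold KU.free lat; simp only; module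
    have h4 : f σ' ≤ ‖(KU.free σ (lat ε α)).1 - (KU.free σ (lat ε β)).1‖ + (K * ε * V + ε * E) := by
      rw [hf]
      simp only
      rw [e1]
      refine (norm_sub_le _ _).trans (add_le_add le_rfl ?_)
      refine (norm_add_le _ _).trans (add_le_add ?_ ?_)
      · rw [norm_smul, Real.norm_eq_abs]
        exact mul_le_mul_of_nonneg_right habs (norm_nonneg _)
      · rw [norm_smul, Real.norm_of_nonneg hε.le]
    nlinarith

/-! ### Hits of a germ are close to its legs -/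

/-- At the time `s` the line `l` is close to the leg `x`. -/
def Near (K ε : ℝ) (x : LG × ℝ × ℝ) (s : ℝ) (l : Ph) : Prop :=
  x.2.1 - K * ε ≤ s ∧ s ≤ x.2.2 + K * ε ∧
    (Ctc ε (KU.free s (lat ε x.1)) (KU.free s l) ∨
      (s ≤ x.2.1 + K * ε ∧ ‖(KU.free s (lat ε x.1)).1 - (KU.free s l).1‖ ≤ K * ε))

theorem Near.mono {K K' : ℝ} (hε : 0 < ε) {x : LG × ℝ × ℝ} {s : ℝ} {l : Ph} (h : Near K ε x s l)
    (hK : K ≤ K') : Near K' ε x s l := by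
  have h1 : K * ε ≤ K' * ε := by nlinarith
  obtain ⟨h2, h3, h4⟩ := h
  exact ⟨by linarith, by linarith, h4.imp id fun h5 => ⟨by linarith, by linarith⟩⟩

theorem Near.dist {K : ℝ} (hK : 1 ≤ K) (hε : 0 < ε) {x : LG × ℝ × ℝ} {s : ℝ} {l : Ph}
    (h : Near K ε x s l) : ‖(KU.free s (lat ε x.1)).1 - (KU.free s l).1‖ ≤ K * ε := by
  rcases h.2.2 with h1 | h1
  · exact h1.le.trans (by nlinarith)
  · exact h1.2

/-- The times increase along the tree. -/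
def Tord : (τ : Shape) → PD τ → Prop
  | .leaf, _ => True
  | .node a b, p => (Tord a p.2.1 ∧ Tord b p.2.2) ∧ stm a p.2.1 < p.1.1 ∧ stm b p.2.2 < p.1.1

theorem tok_zero_iff : ∀ (τ : Shape) (v : E3) (p : PD τ), tok Φ 0 τ v p ↔ Tord τ p
  | .leaf, _, _ => Iff.rfl
  | .node a b, v, p => by
    change ((tok Φ 0 a (inVel Φ v p.1).1 p.2.1 ∧ tok Φ 0 b (inVel Φ v p.1).2 p.2.2) ∧
      ex 0 a (inVel Φ v p.1).1 p.2.1 < p.1.1 + 0 * tin (inRel Φ v p.1) ∧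
      ex 0 b (inVel Φ v p.1).2 p.2.2 < p.1.1 + 0 * tin (inRel Φ v p.1)) ↔
      ((Tord a p.2.1 ∧ Tord b p.2.2) ∧ stm a p.2.1 < p.1.1 ∧ stm b p.2.2 < p.1.1)
    rw [tok_zero_iff a, tok_zero_iff b, ex_zero, ex_zero, zero_mul, add_zero]

theorem stm_nonneg : ∀ (τ : Shape) (p : PD τ), Tord τ p → 0 ≤ stm τ p
  | .leaf, _, _ => le_rfl
  | .node a _, p, h => (stm_nonneg a p.2.1 h.1.1).trans h.2.1.le

theorem Tord.gent : ∀ {τ : Shape} {p : PD τ}, Tord τ p → gent τ p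
  | .leaf, _, _ => trivial
  | .node _ _, _, h => ⟨⟨h.2.1.ne, h.2.2.ne⟩, h.1.1.gent, h.1.2.gent⟩

theorem Tord.bef : ∀ {τ : Shape} {p : PD τ} {T : ℝ}, Tord τ p → stm τ p < T → Bef T τ p
  | .leaf, _, _, _, _ => trivial
  | .node _ _, _, _, h, hT => ⟨hT, h.1.1.bef (h.2.1.trans hT), h.1.2.bef (h.2.2.trans hT)⟩

theorem Tord.ordr : ∀ {τ : Shape} {p : PD τ}, Tord τ p → Ordr τ p
  | .leaf, _, _ => trivial
  | .node _ _, _, h => ⟨⟨h.1.1.bef h.2.1, h.1.2.bef h.2.2⟩, h.1.1.ordr, h.1.2.ordr⟩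

theorem mem_glegs_node {a b : Shape} {ℓ : LG} {p : PD (.node a b)} {h : ℝ} {x : LG × ℝ × ℝ} :
    x ∈ glegs Φ (.node a b) ℓ p h ↔ x ∈ glegs Φ a (inG1 Φ ℓ p.1) p.2.1 p.1.1 ∨
      x ∈ glegs Φ b (inG2 Φ ℓ p.1) p.2.2 p.1.1 ∨ x = (ℓ, p.1.1, h) := by
  change x ∈ glegs Φ a (inG1 Φ ℓ p.1) p.2.1 p.1.1 ++
      glegs Φ b (inG2 Φ ℓ p.1) p.2.2 p.1.1 ++ [(ℓ, p.1.1, h)] ↔ _
  rw [List.mem_append, List.mem_append, List.mem_singleton, or_assoc]

theorem mem_glegs_leaf {ℓ : LG} {p : PD .leaf} {h : ℝ} {x : LG × ℝ × ℝ} :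
    x ∈ glegs Φ .leaf ℓ p h ↔ x = (ℓ, 0, h) := List.mem_singleton

/-- The root leg, or a leg which ends before the last node. -/
theorem glegs_end : ∀ (τ : Shape) (ℓ : LG) (p : PD τ), Tord τ p → ∀ (h : ℝ) (x : LG × ℝ × ℝ),
    x ∈ glegs Φ τ ℓ p h → x = (ℓ, stm τ p, h) ∨ x.2.2 ≤ stm τ p
  | .leaf, ℓ, p, _, h, x, hx => Or.inl (mem_glegs_leaf.1 hx)
  | .node a b, ℓ, p, ht, h, x, hx => by
    have hs : stm (.node a b) p = p.1.1 := rfl
    rcases mem_glegs_node.1 hx with hx | hx | hx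
    · right
      rcases glegs_end a _ _ ht.1.1 _ _ hx with h1 | h1
      · rw [h1]; exact le_rfl
      · rw [hs]; exact h1.trans ht.2.1.le
    · right
      rcases glegs_end b _ _ ht.1.2 _ _ hx with h1 | h1
      · rw [h1]; exact le_rfl
      · rw [hs]; exact h1.trans ht.2.2.le
    · exact Or.inl hx

/-- The births. -/
theorem glegs_birth : ∀ (τ : Shape) (ℓ : LG) (p : PD τ), Tord τ p → ∀ (h : ℝ) (x : LG × ℝ × ℝ),
    x ∈ glegs Φ τ ℓ p h → 0 ≤ x.2.1 ∧ x.2.1 ≤ stm τ p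
  | .leaf, ℓ, p, _, h, x, hx => by rw [mem_glegs_leaf.1 hx]; exact ⟨le_rfl, le_rfl⟩
  | .node a b, ℓ, p, ht, h, x, hx => by
    have hs : stm (.node a b) p = p.1.1 := rfl
    rcases mem_glegs_node.1 hx with hx | hx | hx
    · have h1 := glegs_birth a _ _ ht.1.1 _ _ hx
      exact ⟨h1.1, h1.2.trans ht.2.1.le⟩
    · have h1 := glegs_birth b _ _ ht.1.2 _ _ hx
      exact ⟨h1.1, h1.2.trans ht.2.2.le⟩
    · rw [hx]
      exact ⟨stm_nonneg (.node a b) p ht, le_rfl⟩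

section node

variable {a b : Shape} {ℓ : LG} {p : PD (.node a b)}

/-- The first subgerm. -/
abbrev gA (Φ : E3 → ℝ) (a b : Shape) (ℓ : LG) (p : PD (.node a b)) : TG :=
  ⟨a, inG1 Φ ℓ p.1, p.2.1⟩

/-- The second subgerm. -/
abbrev gB (Φ : E3 → ℝ) (a b : Shape) (ℓ : LG) (p : PD (.node a b)) : TG :=
  ⟨b, inG2 Φ ℓ p.1, p.2.2⟩

theorem good_A (h : good Φ (.node a b) ℓ.1.2 p) : good Φ a (inG1 Φ ℓ p.1).1.2 p.2.1 := by
  rw [inG1_snd]; exact h.2.1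

theorem good_B (h : good Φ (.node a b) ℓ.1.2 p) : good Φ b (inG2 Φ ℓ p.1).1.2 p.2.2 := by
  rw [inG2_snd]; exact h.2.2

theorem ln_A (hΦ : IsPotential Φ) (hε : ε ≠ 0) (h : good Φ (.node a b) ℓ.1.2 p) :
    ln Φ ε ((gA Φ a b ℓ p).tree Φ ε) = lat ε (inG1 Φ ℓ p.1) :=
  TG.ln_tree hΦ hε _ (good_A h)

theorem ln_B (hΦ : IsPotential Φ) (hε : ε ≠ 0) (h : good Φ (.node a b) ℓ.1.2 p) :
    ln Φ ε ((gB Φ a b ℓ p).tree Φ ε) = lat ε (inG2 Φ ℓ p.1) :=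
  TG.ln_tree hΦ hε _ (good_B h)

/-- The pair of incoming lines. -/
theorem ln_AB (hΦ : IsPotential Φ) (hε : ε ≠ 0) (h : good Φ (.node a b) ℓ.1.2 p) :
    (ln Φ ε ((gA Φ a b ℓ p).tree Φ ε), ln Φ ε ((gB Φ a b ℓ p).tree Φ ε)) =
      inLines Φ ε (lat ε ℓ) p.1 := by
  rw [ln_A hΦ hε h, ln_B hΦ hε h, inLines_lat]

theorem sig_node (hΦ : IsPotential Φ) (hε : ε ≠ 0) (h : good Φ (.node a b) ℓ.1.2 p) :
    sig Φ ε (node ((gA Φ a b ℓ p).tree Φ ε) ((gB Φ a b ℓ p).tree Φ ε)) =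
      p.1.1 + ε * tin (inRel Φ ℓ.1.2 p.1) := by
  change hitT ε _ = _
  rw [ln_AB hΦ hε h]
  exact hitT_inLines hΦ hε h.1

theorem ext_node (hΦ : IsPotential Φ) (hε : ε ≠ 0) (h : good Φ (.node a b) ℓ.1.2 p) :
    ext Φ ε (node ((gA Φ a b ℓ p).tree Φ ε) ((gB Φ a b ℓ p).tree Φ ε)) =
      p.1.1 + ε * half (outRel ℓ.1.2 p.1) := by
  change sepT Φ ε _ = _
  rw [ln_AB hΦ hε h]
  exact sepT_inLines hΦ hε h.1

/-- The outgoing lines. -/
theorem sc2_AB (hΦ : IsPotential Φ) (hε : ε ≠ 0) (h : good Φ (.node a b) ℓ.1.2 p) :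
    sc2 Φ ε (ln Φ ε ((gA Φ a b ℓ p).tree Φ ε), ln Φ ε ((gB Φ a b ℓ p).tree Φ ε)) =
      (lat ε ℓ, lat ε (exG ℓ p.1)) := by
  rw [ln_AB hΦ hε h, ← pm_eq_sc2, pm_inLines hΦ hε (lat ε ℓ) h.1.2.2, exLine_lat]

end node

theorem exG_snd (ℓ : LG) (q : ND) : (exG ℓ q).1.2 = q.2.1 := by
  unfold exG
  simp only
  rw [exLine_def]

/-- The distance of the outgoing line to the pair, in units of `ε`. -/
def wC (Φ : E3 → ℝ) (v : E3) (q : ND) : ℝ :=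
  3 + |half (outRel v q) - tin (inRel Φ v q)| * ‖(2 : ℝ)⁻¹ • (v + q.2.1) - v‖

/-- During the collision the pair is close to the outgoing line. -/
theorem win_close (hΦ : IsPotential Φ) (hε : 0 < ε) {a b : Shape} {ℓ : LG} {p : PD (.node a b)}
    (h : good Φ (.node a b) ℓ.1.2 p)
    (hok : ok Φ ε (node ((gA Φ a b ℓ p).tree Φ ε) ((gB Φ a b ℓ p).tree Φ ε))) {s : ℝ} {l : Ph}
    (h1 : sig Φ ε (node ((gA Φ a b ℓ p).tree Φ ε) ((gB Φ a b ℓ p).tree Φ ε)) ≤ s)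
    (h2 : s < ext Φ ε (node ((gA Φ a b ℓ p).tree Φ ε) ((gB Φ a b ℓ p).tree Φ ε)))
    (h3 : ‖(pairLine Φ ε (ln Φ ε ((gA Φ a b ℓ p).tree Φ ε),
        ln Φ ε ((gB Φ a b ℓ p).tree Φ ε)) s).1.1 - (KU.free s l).1‖ ≤ ε ∨
      ‖(pairLine Φ ε (ln Φ ε ((gA Φ a b ℓ p).tree Φ ε),
        ln Φ ε ((gB Φ a b ℓ p).tree Φ ε)) s).2.1 - (KU.free s l).1‖ ≤ ε) :
    ‖(KU.free s (lat ε ℓ)).1 - (KU.free s l).1‖ ≤ wC Φ ℓ.1.2 p.1 * ε := by
  have hs := sig_node (ε := ε) hΦ hε.ne' h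
  have he := ext_node (ε := ε) hΦ hε.ne' h
  have hsc := sc2_AB (ε := ε) hΦ hε.ne' h
  rw [hs] at h1
  rw [he] at h2
  have hsT : hitT ε (ln Φ ε ((gA Φ a b ℓ p).tree Φ ε), ln Φ ε ((gB Φ a b ℓ p).tree Φ ε)) =
      p.1.1 + ε * tin (inRel Φ ℓ.1.2 p.1) := hs
  have heT : sepT Φ ε (ln Φ ε ((gA Φ a b ℓ p).tree Φ ε), ln Φ ε ((gB Φ a b ℓ p).tree Φ ε)) =
      p.1.1 + ε * half (outRel ℓ.1.2 p.1) := he
  set q : Ph × Ph := (ln Φ ε ((gA Φ a b ℓ p).tree Φ ε), ln Φ ε ((gB Φ a b ℓ p).tree Φ ε)) with hq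
  have hm : Meets ε q := hok.2.2.2.1
  have hx : Exits Φ (KU.rel ε q) := hok.2.2.2.2.1
  have h4 := norm_pairLine_sub_com hΦ hε hm hx (s := s) (by rw [hsT]; exact h1)
    (by rw [heT]; exact h2.le)
  have hlt : hitT ε q ≤ sepT Φ ε q := by rw [hsT, heT]; linarith
  have h5 := (norm_pairLine_sub_com hΦ hε hm hx hlt le_rfl).1
  rw [pairLine_after hΦ hε hx hm.2.le le_rfl, hsc] at h5
  have hcom : (com q).2 = (2 : ℝ)⁻¹ • (ℓ.1.2 + p.1.2.1) := by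
    rw [← com_sc2 (Φ := Φ) (ε := ε) q, hsc]
    change (2 : ℝ)⁻¹ • (ℓ.1.2 + (exG ℓ p.1).1.2) = _
    rw [exG_snd]
  set e : ℝ := sepT Φ ε q with he'
  -- the difference at the time `s`
  have e1 : (KU.free s (lat ε ℓ)).1 - (KU.free s (com q)).1 =
      ((KU.free e (lat ε ℓ)).1 - (KU.free e (com q)).1) + (e - s) • ((com q).2 - ℓ.1.2) := by
    unfold KU.free lat; simp only; module
  have h6 : ‖(KU.free s (lat ε ℓ)).1 - (KU.free s (com q)).1‖ ≤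
      ε + ε * |half (outRel ℓ.1.2 p.1) - tin (inRel Φ ℓ.1.2 p.1)| *
        ‖(2 : ℝ)⁻¹ • (ℓ.1.2 + p.1.2.1) - ℓ.1.2‖ := by
    rw [e1]
    refine (norm_add_le _ _).trans (add_le_add h5 ?_)
    rw [norm_smul, hcom, Real.norm_eq_abs]
    refine mul_le_mul_of_nonneg_right ?_ (norm_nonneg _)
    rw [heT, abs_of_nonneg (by linarith)]
    have h7 := le_abs_self (half (outRel ℓ.1.2 p.1) - tin (inRel Φ ℓ.1.2 p.1))
    have h8 := mul_le_mul_of_nonneg_left h7 hε.le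
    linarith
  have key : ∀ x : E3, ‖x - (KU.free s (com q)).1‖ ≤ ε → ‖x - (KU.free s l).1‖ ≤ ε →
      ‖(KU.free s (lat ε ℓ)).1 - (KU.free s l).1‖ ≤ wC Φ ℓ.1.2 p.1 * ε := by
    intro x hx1 hx2
    have e2 : (KU.free s (lat ε ℓ)).1 - (KU.free s l).1 =
        ((KU.free s (lat ε ℓ)).1 - (KU.free s (com q)).1) - (x - (KU.free s (com q)).1) +
          (x - (KU.free s l).1) := by abel
    rw [e2]
    refine (norm_add_le _ _).trans ?_
    refine (add_le_add (norm_sub_le _ _) le_rfl).trans ?_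
    refine (add_le_add (add_le_add h6 hx1) hx2).trans (le_of_eq ?_)
    unfold wC
    ring
  rcases h3 with h3 | h3
  · exact key _ h4.1 h3
  · exact key _ h4.2 h3

theorem wC_nonneg (v : E3) (q : ND) : 0 ≤ wC Φ v q := by unfold wC; positivity

/-- **The hits of a germ are close to the legs.** -/
theorem hit_near (hΦ : IsPotential Φ) : ∀ (τ : Shape) (ℓ : LG) (p : PD τ), good Φ τ ℓ.1.2 p →
    ∀ h K₀ : ℝ, ∃ K, 1 ≤ K ∧ ∀ ε, 0 < ε → ok Φ ε ((⟨τ, ℓ, p⟩ : TG).tree Φ ε) → ∀ (T' : CTree) (s : ℝ),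
      s ≤ h + K₀ * ε → hit Φ ε ((⟨τ, ℓ, p⟩ : TG).tree Φ ε) T' s →
        ∃ x ∈ glegs Φ τ ℓ p h, Near K ε x s (ln Φ ε T')
  | .leaf, ℓ, p, _, h, K₀ => by
    refine ⟨max 1 K₀, le_max_left _ _, fun ε hε _ T' s hs hh => ⟨(ℓ, 0, h), mem_glegs_leaf.2 rfl, ?_⟩⟩
    have h1 : (0 : ℝ) ≤ s ∧ ext Φ ε T' ≤ s ∧ M.src (lat ε ℓ) ∉ T'.leaves ∧
      Ctc ε (KU.free s (lat ε ℓ)) (KU.free s (ln Φ ε T')) := hh
    have h2 : K₀ * ε ≤ max 1 K₀ * ε := by
      have := le_max_right 1 K₀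
      nlinarith
    have h3 : 0 ≤ max 1 K₀ * ε := by
      have := le_max_left 1 K₀
      nlinarith
    exact ⟨by simp only; linarith [h1.1], by simp only; linarith, Or.inl h1.2.2.2⟩
  | .node a b, ℓ, p, hg, h, K₀ => by
    set c₁ := |tin (inRel Φ ℓ.1.2 p.1)| with hc₁
    set c₂ := |half (outRel ℓ.1.2 p.1)| with hc₂
    obtain ⟨Ka, hKa, ha⟩ := hit_near hΦ a (inG1 Φ ℓ p.1) p.2.1 (good_A hg) p.1.1 c₁
    obtain ⟨Kb, hKb, hb⟩ := hit_near hΦ b (inG2 Φ ℓ p.1) p.2.2 (good_B hg) p.1.1 c₁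
    have hc₁0 : 0 ≤ c₁ := abs_nonneg _
    have hc₂0 : 0 ≤ c₂ := abs_nonneg _
    have hK₀ := abs_nonneg K₀
    have hw := wC_nonneg (Φ := Φ) ℓ.1.2 p.1
    refine ⟨Ka + Kb + c₁ + c₂ + |K₀| + wC Φ ℓ.1.2 p.1, by linarith, fun ε hε hok T' s hs hh => ?_⟩
    set K := Ka + Kb + c₁ + c₂ + |K₀| + wC Φ ℓ.1.2 p.1 with hK
    rw [TG.tree_node] at hok hh
    have hsig := sig_node (ε := ε) hΦ hε.ne' hg
    have hext := ext_node (ε := ε) hΦ hε.ne' hg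
    have e1 : ε * tin (inRel Φ ℓ.1.2 p.1) ≤ c₁ * ε := by
      have := le_abs_self (tin (inRel Φ ℓ.1.2 p.1)); nlinarith
    have e1' : -(c₁ * ε) ≤ ε * tin (inRel Φ ℓ.1.2 p.1) := by
      have := neg_abs_le (tin (inRel Φ ℓ.1.2 p.1)); nlinarith
    have e2 : ε * half (outRel ℓ.1.2 p.1) ≤ c₂ * ε := by
      have := le_abs_self (half (outRel ℓ.1.2 p.1)); nlinarith
    have e2' : -(c₂ * ε) ≤ ε * half (outRel ℓ.1.2 p.1) := by
      have := neg_abs_le (half (outRel ℓ.1.2 p.1)); nlinarith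
    have e3 : K₀ * ε ≤ |K₀| * ε := by
      have := le_abs_self K₀; nlinarith
    have hKε : Ka * ε ≤ K * ε ∧ Kb * ε ≤ K * ε ∧ c₁ * ε ≤ K * ε ∧ c₂ * ε ≤ K * ε ∧
        |K₀| * ε ≤ K * ε ∧ wC Φ ℓ.1.2 p.1 * ε ≤ K * ε := by
      refine ⟨?_, ?_, ?_, ?_, ?_, ?_⟩ <;> refine mul_le_mul_of_nonneg_right ?_ hε.le <;>
        rw [hK] <;> linarith
    rcases hh with ⟨h1, h2⟩ | ⟨h1, h2, h3, h4⟩
    · rw [hsig] at h1
      rcases h2 with ⟨h2, -⟩ | ⟨h2, -⟩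
      · obtain ⟨x, hx, hn⟩ := ha ε hε hok.1 T' s (by linarith) h2
        exact ⟨x, mem_glegs_node.2 (Or.inl hx), hn.mono hε (by rw [hK]; linarith)⟩
      · obtain ⟨x, hx, hn⟩ := hb ε hε hok.2.1 T' s (by linarith) h2
        exact ⟨x, mem_glegs_node.2 (Or.inr (Or.inl hx)), hn.mono hε (by rw [hK]; linarith)⟩
    · refine ⟨(ℓ, p.1.1, h), mem_glegs_node.2 (Or.inr (Or.inr rfl)), ?_⟩
      by_cases h5 : s < ext Φ ε (node ((gA Φ a b ℓ p).tree Φ ε) ((gB Φ a b ℓ p).tree Φ ε))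
      · have h6 := win_close hΦ hε hg hok h1 h5 (h4.imp (fun h => h.le) fun h => h.2.le)
        rw [hsig] at h1
        rw [hext] at h5
        refine ⟨by simp only; linarith [hKε.2.2.1], by simp only; linarith [hKε.2.2.2.2.1], Or.inr
          ⟨by simp only; linarith [hKε.2.2.2.1], h6.trans hKε.2.2.2.2.2⟩⟩
      · have h6 : Ctc ε (KU.free s (lat ε ℓ)) (KU.free s (ln Φ ε T')) := by
          rcases h4 with h4 | h4
          · rw [pairLine_after hΦ hε hok.2.2.2.2.1 hok.2.2.2.1.2.le (not_lt.1 h5), sc2_AB hΦ hε.ne' hg]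
              at h4
            exact h4
          · exact absurd h4.1 h5
        rw [hsig] at h1
        exact ⟨by simp only; linarith [hKε.2.2.1], by simp only; linarith [hKε.2.2.2.2.1], Or.inl h6⟩

theorem Oc.top {D d : ℝ} {a b S : CTree} (h : Oc Φ ε D (node a b) S d) :
    (S = node a b ∧ d = D) ∨ Oc Φ ε (sig Φ ε (node a b)) a S d ∨
      Oc Φ ε (sig Φ ε (node a b)) b S d := by
  have key : ∀ {T S : CTree} {d : ℝ}, Oc Φ ε D T S d → T = node a b →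
      (S = node a b ∧ d = D) ∨ Oc Φ ε (sig Φ ε (node a b)) a S d ∨
      Oc Φ ε (sig Φ ε (node a b)) b S d := by
    intro T S d h
    induction h with
    | root => exact fun h => Or.inl ⟨h, rfl⟩
    | @left a' b' d' h ih =>
      intro hT
      rcases ih hT with ⟨h1, h2⟩ | h1 | h1
      · obtain ⟨rfl, rfl⟩ := node.inj h1
        exact Or.inr (Or.inl Oc.root)
      · exact Or.inr (Or.inl h1.left)
      · exact Or.inr (Or.inr h1.left)
    | @right a' b' d' h ih =>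
      intro hT
      rcases ih hT with ⟨h1, h2⟩ | h1 | h1
      · obtain ⟨rfl, rfl⟩ := node.inj h1
        exact Or.inr (Or.inr Oc.root)
      · exact Or.inr (Or.inl h1.right)
      · exact Or.inr (Or.inr h1.right)
  exact key h rfl

theorem Oc.top_leaf {D d : ℝ} {σ : Src} {S : CTree} (h : Oc Φ ε D (CTree.leaf σ) S d) :
    S = CTree.leaf σ ∧ d = D := by
  have key : ∀ {T S : CTree} {d : ℝ}, Oc Φ ε D T S d → T = CTree.leaf σ →
      S = CTree.leaf σ ∧ d = D := by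
    intro T S d h
    induction h with
    | root => exact fun h => ⟨h, rfl⟩
    | left h ih => exact fun hT => absurd (ih hT).1 (by simp)
    | right h ih => exact fun hT => absurd (ih hT).1 (by simp)
  exact key h rfl

/-- A proper subtree dies before the end of the last collision. -/
theorem Oc.lt_ext (hΦ : IsPotential Φ) (hε : 0 < ε) {D d : ℝ} {T S : CTree}
    (h : Oc Φ ε D T S d) (hT : CTree.ok Φ ε T) : (S = T ∧ d = D) ∨ d < ext Φ ε T := by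
  induction h with
  | root => exact Or.inl ⟨rfl, rfl⟩
  | @left a b d' h ih =>
    right
    have h1 := sig_lt_ext hΦ hε (h.ok hT)
    rcases ih with ⟨h2, -⟩ | h2
    · rw [← h2]; exact h1
    · rcases h.ext_lt hT with ⟨h3, -⟩ | h3
      · rw [← h3]; exact h1
      · linarith
  | @right a b d' h ih =>
    right
    have h1 := sig_lt_ext hΦ hε (h.ok hT)
    rcases ih with ⟨h2, -⟩ | h2
    · rw [← h2]; exact h1
    · rcases h.ext_lt hT with ⟨h3, -⟩ | h3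
      · rw [← h3]; exact h1
      · linarith

/-- **The subtrees of a germ are on the legs.** -/
theorem oc_near (hΦ : IsPotential Φ) : ∀ (τ : Shape) (ℓ : LG) (p : PD τ), good Φ τ ℓ.1.2 p →
    ∀ h K₀ : ℝ, ∃ K, 0 ≤ K ∧ ∀ ε, 0 < ε → ∀ (D : ℝ) (S : CTree) (d : ℝ),
      D ≤ h + K₀ * ε → Oc Φ ε D ((⟨τ, ℓ, p⟩ : TG).tree Φ ε) S d →
        ∃ y ∈ glegs Φ τ ℓ p h, ln Φ ε S = lat ε y.1 ∧ y.2.1 - K * ε ≤ ext Φ ε S ∧
          d ≤ y.2.2 + K * ε
  | .leaf, ℓ, p, hg, h, K₀ => by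
    refine ⟨|K₀|, abs_nonneg _, fun ε hε D S d hD hS => ⟨(ℓ, 0, h), mem_glegs_leaf.2 rfl, ?_⟩⟩
    rw [TG.tree_leaf] at hS
    obtain ⟨rfl, rfl⟩ := hS.top_leaf
    have h1 : K₀ * ε ≤ |K₀| * ε := mul_le_mul_of_nonneg_right (le_abs_self _) hε.le
    have h2 : 0 ≤ |K₀| * ε := by positivity
    refine ⟨rfl, ?_, by simp only; linarith⟩
    change 0 - |K₀| * ε ≤ 0
    linarith
  | .node a b, ℓ, p, hg, h, K₀ => by
    set c₁ := |tin (inRel Φ ℓ.1.2 p.1)| with hc₁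
    set c₂ := |half (outRel ℓ.1.2 p.1)| with hc₂
    obtain ⟨Ka, hKa, ha⟩ := oc_near hΦ a (inG1 Φ ℓ p.1) p.2.1 (good_A hg) p.1.1 c₁
    obtain ⟨Kb, hKb, hb⟩ := oc_near hΦ b (inG2 Φ ℓ p.1) p.2.2 (good_B hg) p.1.1 c₁
    have hc₁0 : 0 ≤ c₁ := abs_nonneg _
    have hc₂0 : 0 ≤ c₂ := abs_nonneg _
    have hK₀ := abs_nonneg K₀
    refine ⟨Ka + Kb + c₁ + c₂ + |K₀|, by linarith, fun ε hε D S d hD hS => ?_⟩
    set K := Ka + Kb + c₁ + c₂ + |K₀| with hK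
    rw [TG.tree_node] at hS
    have hsig := sig_node (ε := ε) hΦ hε.ne' hg
    have hext := ext_node (ε := ε) hΦ hε.ne' hg
    have e1 : ε * tin (inRel Φ ℓ.1.2 p.1) ≤ c₁ * ε := by
      have := le_abs_self (tin (inRel Φ ℓ.1.2 p.1)); nlinarith
    have e2' : -(c₂ * ε) ≤ ε * half (outRel ℓ.1.2 p.1) := by
      have := neg_abs_le (half (outRel ℓ.1.2 p.1)); nlinarith
    have e3 : K₀ * ε ≤ |K₀| * ε := by
      have := le_abs_self K₀; nlinarith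
    have hKε : Ka * ε ≤ K * ε ∧ Kb * ε ≤ K * ε ∧ c₂ * ε ≤ K * ε ∧ |K₀| * ε ≤ K * ε := by
      refine ⟨?_, ?_, ?_, ?_⟩ <;> refine mul_le_mul_of_nonneg_right ?_ hε.le <;>
        rw [hK] <;> linarith
    rcases hS.top with ⟨rfl, rfl⟩ | hS | hS
    · refine ⟨(ℓ, p.1.1, h), mem_glegs_node.2 (Or.inr (Or.inr rfl)), ?_, ?_, ?_⟩
      · change (sc2 Φ ε _).1 = _
        rw [sc2_AB hΦ hε.ne' hg]
      · rw [hext]
        simp only
        linarith [hKε.2.2.1]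
      · simp only
        linarith [hKε.2.2.2]
    · obtain ⟨y, hy, h1, h2, h3⟩ := ha ε hε _ S d (by rw [hsig]; linarith) hS
      exact ⟨y, mem_glegs_node.2 (Or.inl hy), h1, by linarith [hKε.1], by linarith [hKε.1]⟩
    · obtain ⟨y, hy, h1, h2, h3⟩ := hb ε hε _ S d (by rw [hsig]; linarith) hS
      exact ⟨y, mem_glegs_node.2 (Or.inr (Or.inl hy)), h1, by linarith [hKε.2.1],
        by linarith [hKε.2.1]⟩

end Vale.Agent.P119.KT
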